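import Claimed.Agent.R322.Pack058

/-!
# Row 322, Fit/Fits/Alg: pointwise trace identities for the three families of test fields   (architect helper118)

`P` is an ARBITRARY orthogonal projection of rank `m` (the tangent plane of the varifold at `X`), `y = prH X`, `A = Df(y)`, `T = dF A`,
`T⁺ = dFp A = G Tᵀ`, `N = dN A`, `H = Ph f y = T T⁺`, `V = Pv f y`, `e = tiV f P X = tr (P V)`, `ζ = zet f X`, `β = bet A P = Nᵀ P T`,
`S_w = Sop f y (inV w)` (`⟨S_w a, b⟩ = ⟨D²f(a,b), w⟩`).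

BLOCK DECOMPOSITION (all three identities):  `P = H - H(1-P)H + H P V + V P H + V P V`, so for every operator `M`
`tr (P M) = tr (H M) + tr (H P V M) + tr (V P H M) + [tr (V P V M) - tr (H (1-P) H M)]`, the bracket is `≤ 2 e |M|`
(`Tube.abs_trc_B_comp_le`, `Tube.abs_trc_gram_comp_le` with `C = P V`), `|V P H| ≤ sqrt e` (`Tube.block_facts_aux`).

LINEAR ALGEBRA (leaf A0):  `Nᵀ = prV - A prH`, `Tᵀ N = 0`, `H N = 0`, `V N = N`, `Nᵀ inV = 1`, `Nᵀ inH = -A`, `prH N = -Aᵀ`,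
`V inH = - N A G`  (because `inH = T - inV A` and `V inV A = inV A G - inH (1 - G) = N A G`, `AᵀA G = 1 - G`),
`prH V = - G Aᵀ Nᵀ` (adjoint), `inV Nᵀ = 1 - T prH`, hence `V inV Nᵀ = V`.

(V)  `Y = N w`: `DY = M ∘ prH`, `M a = N D_a w - inH S_w a`.
  `tr (H M prH) = tr (T⁺ M) = - tr (G S_w) = - ⟨mssOp f, w⟩`;
  `tr (H P V M prH) = tr (T⁺ P V M) = tr (G Tᵀ P N (Dw + A G S_w)) = ⟨β, (Dw + A G S_w) G⟩`;
  `tr (V P H M prH) = tr (P T (T⁺ M prH V)) = tr (P T G S_w G Aᵀ Nᵀ) = ⟨β, A G S_w G⟩`.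
(H)  `Y = T Ψᵀ ζ`: `DY = T Ψᵀ Nᵀ + M ∘ prH`, `M a = T (D_aΨ)ᵀ ζ + inV D²f(a, Ψᵀζ)`.
  `tr (P T Ψᵀ Nᵀ) = tr (β Ψᵀ) = ⟨β, Ψ⟩` EXACTLY;  `tr (H M prH) = tr (T⁺ M) = ⟨div Ψ, ζ⟩ + tr (G Aᵀ D²f(·, Ψᵀζ)) = ⟨div Ψ + Ψ λ, ζ⟩`;
  `|tr ((P - H) M prH)| ≤ (2(m+n) + 2m) sqrt e |M|`  (`abs_trc_sub_comp_le`).
(C)  `Y = χ² V inV ζ`: `DY b = 2 χ Dχ(prH b) V inV ζ + χ² (V b - Ṗ_{prH b} inV ζ)`, `Ṗ = Tube.dPh`.
  `tr (P V) = e`;  `|⟨inH ∇χ, P V inV ζ⟩| ≤ |∇χ| sqrt e |ζ|` (`norm_comp_compl_le`);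
  `tr (H Ṗ_{prH ·} v) = tr (α ↦ T⁺ Ṗ_α v) = tr (G Sop f y (V v)) = ⟨HS f y, v⟩` (`Tube.dPh_eq`, `Tube.trc_Sop_comp`).
-/

set_option autoImplicit false

open scoped ENNReal ContDiff Topology
open MeasureTheory

namespace Claimed.Agent.R322.Fit.Fits

open Claimed.Agent.R322.Tube

local notation "adj" => ContinuousLinearMap.adjoint
local notation "𝟙" => ContinuousLinearMap.id ℝ _

variable {m n : ℕ}

/-! ### leaf L-Fit-Fits-A0 : two projections; the frame `N` -/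

/-- `(P V)ᵀ (P V) = V P V`. -/
theorem gram_comp_compl {N : ℕ} {H P : E N →L[ℝ] E N} (hH : IsProj m H) (hP : IsProj m P) :
    adj (P ∘L (𝟙 - H)) ∘L (P ∘L (𝟙 - H)) = (𝟙 - H) ∘L P ∘L (𝟙 - H) := by
  rw [ContinuousLinearMap.adjoint_comp, IsProj.adjoint_eq hP, IsProj.adjoint_compl hH,
    ContinuousLinearMap.comp_assoc, ← ContinuousLinearMap.comp_assoc P P, hP.idem]

theorem trc_gram_comp_compl {N : ℕ} {H P : E N →L[ℝ] E N} (hH : IsProj m H) (hP : IsProj m P) :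
    trc (adj (P ∘L (𝟙 - H)) ∘L (P ∘L (𝟙 - H))) = tdiv P (𝟙 - H) := by
  rw [gram_comp_compl hH hP, trc_comp_comm, ContinuousLinearMap.comp_assoc, IsProj.compl_idem hH,
    tdiv_eq_trc]

/-- `|P (1 - H)| ≤ sqrt e`. -/
theorem norm_comp_compl_le {N : ℕ} {H P : E N →L[ℝ] E N} (hH : IsProj m H) (hP : IsProj m P) :
    ‖P ∘L (𝟙 - H)‖ ≤ Real.sqrt (tdiv P (𝟙 - H)) := by
  have h0 : 0 ≤ tdiv P (𝟙 - H) := (block_facts_aux hH hP).1
  refine ContinuousLinearMap.opNorm_le_bound _ (Real.sqrt_nonneg _) fun v => ?_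
  have h1 := norm_sq_apply_le_trc (P ∘L (𝟙 - H)) v
  rw [trc_gram_comp_compl hH hP] at h1
  have h2 : tdiv P (𝟙 - H) * ‖v‖ ^ 2 = (Real.sqrt (tdiv P (𝟙 - H)) * ‖v‖) ^ 2 := by
    rw [mul_pow, Real.sq_sqrt h0]
  rw [h2] at h1
  exact (abs_le_of_sq_le_sq' h1 (by positivity)).2

/-- the block decomposition of `P` with respect to `H`. -/
theorem block_decomp {N : ℕ} (H P : E N →L[ℝ] E N) (hH : H ∘L H = H) :
    P = H + H ∘L P ∘L (𝟙 - H) + (𝟙 - H) ∘L P ∘L H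
      + ((𝟙 - H) ∘L P ∘L (𝟙 - H) - H ∘L (𝟙 - P) ∘L H) := by
  have h : ∀ v, H (H v) = H v := fun v => congrArg (fun L => L v) hH
  ext1 v
  simp only [ContinuousLinearMap.comp_apply, add_apply, sub_apply, ContinuousLinearMap.id_apply,
    map_sub, h]
  abel

theorem trc_comp_of_eq {N : ℕ} {P H B1 B2 B3 B4 : E N →L[ℝ] E N}
    (h : P = H + B1 + B2 + (B3 - B4)) (M : E N →L[ℝ] E N) :
    trc (P ∘L M) = trc (H ∘L M) + trc (B1 ∘L M) + trc (B2 ∘L M)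
      + (trc (B3 ∘L M) - trc (B4 ∘L M)) := by
  subst h
  rw [ContinuousLinearMap.add_comp, ContinuousLinearMap.add_comp, ContinuousLinearMap.add_comp,
    ContinuousLinearMap.sub_comp, trc_add, trc_add, trc_add, trc_sub]

/-- `tr (P M) = tr (H M) + tr (H P V M) + tr (V P H M) + O(2 e |M|)`. -/
theorem abs_trc_block_le {N : ℕ} {H P : E N →L[ℝ] E N} (hH : IsProj m H) (hP : IsProj m P)
    (M : E N →L[ℝ] E N) :
    |trc (P ∘L M) - (trc (H ∘L M) + trc (H ∘L P ∘L (𝟙 - H) ∘L M) + trc ((𝟙 - H) ∘L P ∘L H ∘L M))|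
      ≤ 2 * tdiv P (𝟙 - H) * ‖M‖ := by
  have h1 : trc (P ∘L M) = trc (H ∘L M) + trc (H ∘L P ∘L (𝟙 - H) ∘L M)
      + trc ((𝟙 - H) ∘L P ∘L H ∘L M)
      + (trc (((𝟙 - H) ∘L P ∘L (𝟙 - H)) ∘L M) - trc ((H ∘L (𝟙 - P) ∘L H) ∘L M)) := by
    exact trc_comp_of_eq (block_decomp H P hH.idem) M
  have h2 : |trc (((𝟙 - H) ∘L P ∘L (𝟙 - H)) ∘L M)| ≤ tdiv P (𝟙 - H) * ‖M‖ := by
    have := abs_trc_gram_comp_le (P ∘L (𝟙 - H)) M
    rwa [trc_gram_comp_compl hH hP, gram_comp_compl hH hP] at this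
  have h3 := abs_trc_B_comp_le hH hP M
  rw [h1]
  have h4 : ∀ a b c d e' : ℝ, a + b + c + (d - e') - (a + b + c) = d - e' := by intros; ring
  rw [h4]
  calc |trc (((𝟙 - H) ∘L P ∘L (𝟙 - H)) ∘L M) - trc ((H ∘L (𝟙 - P) ∘L H) ∘L M)|
      ≤ |trc (((𝟙 - H) ∘L P ∘L (𝟙 - H)) ∘L M)| + |trc ((H ∘L (𝟙 - P) ∘L H) ∘L M)| := abs_sub _ _
    _ ≤ tdiv P (𝟙 - H) * ‖M‖ + tdiv P (𝟙 - H) * ‖M‖ := add_le_add h2 h3
    _ = 2 * tdiv P (𝟙 - H) * ‖M‖ := by ring

/-- `|tr ((P - H) M)| ≤ (2N + 2m) sqrt e |M|`. -/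
theorem abs_trc_sub_comp_le {N : ℕ} {H P : E N →L[ℝ] E N} (hH : IsProj m H) (hP : IsProj m P)
    (M : E N →L[ℝ] E N) :
    |trc ((P - H) ∘L M)| ≤ (2 * N + 2 * m) * Real.sqrt (tdiv P (𝟙 - H)) * ‖M‖ := by
  set e := tdiv P (𝟙 - H) with he
  have h0 : 0 ≤ e := (block_facts_aux hH hP).1
  have hm : e ≤ m := (block_facts_aux hH hP).2.1
  have hblock := abs_trc_block_le hH hP M
  have hH1 : ‖H‖ ≤ 1 := Base.isProj_norm_le_one hH
  have h1 : |trc (H ∘L P ∘L (𝟙 - H) ∘L M)| ≤ N * (Real.sqrt e * ‖M‖) := by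
    refine (abs_trc_le _).trans ?_
    gcongr
    calc ‖H ∘L P ∘L (𝟙 - H) ∘L M‖ = ‖H ∘L (P ∘L (𝟙 - H)) ∘L M‖ := rfl
      _ ≤ ‖H‖ * (‖P ∘L (𝟙 - H)‖ * ‖M‖) :=
          (ContinuousLinearMap.opNorm_comp_le _ _).trans
            (mul_le_mul_of_nonneg_left (ContinuousLinearMap.opNorm_comp_le _ _) (norm_nonneg _))
      _ ≤ 1 * (Real.sqrt e * ‖M‖) := by
          gcongr
          exact norm_comp_compl_le hH hP
      _ = Real.sqrt e * ‖M‖ := one_mul _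
  have h2 : |trc ((𝟙 - H) ∘L P ∘L H ∘L M)| ≤ N * (Real.sqrt e * ‖M‖) := by
    refine (abs_trc_le _).trans ?_
    gcongr
    have h3 : ‖(𝟙 - H) ∘L P ∘L H‖ ≤ Real.sqrt e :=
      Real.le_sqrt_of_sq_le (block_facts_aux hH hP).2.2.2.2.2
    calc ‖(𝟙 - H) ∘L P ∘L H ∘L M‖ = ‖((𝟙 - H) ∘L P ∘L H) ∘L M‖ := rfl
      _ ≤ ‖(𝟙 - H) ∘L P ∘L H‖ * ‖M‖ := ContinuousLinearMap.opNorm_comp_le _ _
      _ ≤ Real.sqrt e * ‖M‖ := by gcongr
  have h3 : e ≤ m * Real.sqrt e := by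
    have hs : Real.sqrt e ≤ m := by
      rcases Nat.eq_zero_or_pos m with h | h
      · subst h
        have : e = 0 := le_antisymm (by simpa using hm) h0
        simp [this]
      · have h1m : (1 : ℝ) ≤ m := by exact_mod_cast h
        rw [Real.sqrt_le_left (by positivity)]
        nlinarith
    calc e = Real.sqrt e * Real.sqrt e := (Real.mul_self_sqrt h0).symm
      _ ≤ m * Real.sqrt e := by gcongr
  have h4 : trc ((P - H) ∘L M) = trc (P ∘L M) - trc (H ∘L M) := by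
    rw [ContinuousLinearMap.sub_comp, trc_sub]
  rw [h4]
  have hM := norm_nonneg M
  have h5 : 2 * e * ‖M‖ ≤ 2 * (m * Real.sqrt e) * ‖M‖ := by gcongr
  rw [abs_le] at hblock h1 h2 ⊢
  constructor <;> nlinarith [hblock.1, hblock.2, h1.1, h1.2, h2.1, h2.2]

theorem adjoint_dN (A : E m →L[ℝ] E n) : adj (dN A) = prV m n - A ∘L prH m n := by
  unfold dN inV inH
  rw [map_sub, ContinuousLinearMap.adjoint_comp, ContinuousLinearMap.adjoint_adjoint,
    ContinuousLinearMap.adjoint_adjoint, ContinuousLinearMap.adjoint_adjoint]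

theorem dN_apply (A : E m →L[ℝ] E n) (w : E n) : dN A w = inV m n w - inH m n (adj A w) := rfl

theorem adjoint_dF_comp_dN (A : E m →L[ℝ] E n) : adj (dF A) ∘L dN A = 0 := by
  ext1 w
  rw [ContinuousLinearMap.comp_apply, adjoint_dF_apply, dN_apply, map_sub, map_sub, prH_inV,
    prH_inH, prV_inV, prV_inH]
  simp

theorem PhA_comp_dN (A : E m →L[ℝ] E n) : PhA A ∘L dN A = 0 := by
  rw [PhA_eq, dFp, ContinuousLinearMap.comp_assoc, ContinuousLinearMap.comp_assoc,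
    adjoint_dF_comp_dN, ContinuousLinearMap.comp_zero, ContinuousLinearMap.comp_zero]

theorem norm_dN_le (A : E m →L[ℝ] E n) : ‖dN A‖ ≤ 1 + ‖A‖ := by
  refine ContinuousLinearMap.opNorm_le_bound _ (by positivity) fun w => ?_
  rw [dN_apply]
  refine (norm_sub_le _ _).trans ?_
  rw [norm_inV, norm_inH]
  have h := (adj A).le_opNorm w
  rw [LinearIsometryEquiv.norm_map] at h
  linarith

theorem compl_PhA_comp_dN (A : E m →L[ℝ] E n) : (𝟙 - PhA A) ∘L dN A = dN A := by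
  rw [ContinuousLinearMap.sub_comp, PhA_comp_dN, ContinuousLinearMap.id_comp, sub_zero]

theorem compl_PhA_comp_dF (A : E m →L[ℝ] E n) : (𝟙 - PhA A) ∘L dF A = 0 := by
  rw [ContinuousLinearMap.sub_comp, PhA_comp_dF, ContinuousLinearMap.id_comp, sub_self]

/-- `inH = T G - N A G`. -/
theorem inH_eq_sub (A : E m →L[ℝ] E n) :
    inH m n = dF A ∘L (gmat A).inverse - dN A ∘L A ∘L (gmat A).inverse := by
  ext1 a
  have h := gmat_apply_inverse A a
  unfold gmat at h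
  simp only [add_apply, ContinuousLinearMap.id_apply, ContinuousLinearMap.comp_apply] at h
  simp only [sub_apply, ContinuousLinearMap.comp_apply, dN_apply, dF, add_apply]
  conv_lhs => rw [← h]
  rw [map_add]
  abel

/-- `V inH = - N A G`. -/
theorem compl_PhA_comp_inH (A : E m →L[ℝ] E n) :
    (𝟙 - PhA A) ∘L inH m n = -(dN A ∘L A ∘L (gmat A).inverse) := by
  conv_lhs => rw [inH_eq_sub A]
  rw [ContinuousLinearMap.comp_sub, ← ContinuousLinearMap.comp_assoc, compl_PhA_comp_dF,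
    ContinuousLinearMap.zero_comp, ← ContinuousLinearMap.comp_assoc, compl_PhA_comp_dN, zero_sub]

/-- `inV Nᵀ = 1 - T prH`. -/
theorem inV_comp_adjoint_dN (A : E m →L[ℝ] E n) :
    inV m n ∘L adj (dN A) = 𝟙 - dF A ∘L prH m n := by
  ext1 X
  rw [adjoint_dN]
  simp only [sub_apply, ContinuousLinearMap.comp_apply, ContinuousLinearMap.id_apply, dF, add_apply,
    map_sub]
  conv_rhs => rw [← inH_prH_add_inV_prV X]
  simp only [map_add, prH_inH, prH_inV, add_zero]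
  abel

/-- `V inV Nᵀ = V`. -/
theorem compl_PhA_comp_inV_adjoint_dN (A : E m →L[ℝ] E n) :
    (𝟙 - PhA A) ∘L inV m n ∘L adj (dN A) = 𝟙 - PhA A := by
  rw [inV_comp_adjoint_dN, ContinuousLinearMap.comp_sub, ContinuousLinearMap.comp_id,
    ← ContinuousLinearMap.comp_assoc, compl_PhA_comp_dF, ContinuousLinearMap.zero_comp, sub_zero]

/-- `β = Nᵀ (V P H) T`. -/
theorem bet_eq (A : E m →L[ℝ] E n) (P : E (m + n) →L[ℝ] E (m + n)) :
    bet A P = adj (dN A) ∘L ((𝟙 - PhA A) ∘L P ∘L PhA A) ∘L dF A := by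
  have h1 : adj (dN A) ∘L (𝟙 - PhA A) = adj (dN A) := by
    have h := congrArg adj (compl_PhA_comp_dN A)
    rwa [ContinuousLinearMap.adjoint_comp, IsProj.adjoint_compl (isProj_PhA A)] at h
  unfold bet
  conv_lhs => rw [← h1, ← PhA_comp_dF A]
  rfl

/-- `|β| ≤ (1+|A|)² sqrt e`. -/
theorem norm_bet_le (A : E m →L[ℝ] E n) {P : E (m + n) →L[ℝ] E (m + n)} (hP : IsProj m P) :
    ‖bet A P‖ ≤ (1 + ‖A‖) ^ 2 * Real.sqrt (tdiv P (𝟙 - PhA A)) := by
  have h3 : ‖(𝟙 - PhA A) ∘L P ∘L PhA A‖ ≤ Real.sqrt (tdiv P (𝟙 - PhA A)) :=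
    Real.le_sqrt_of_sq_le (block_facts_aux (isProj_PhA A) hP).2.2.2.2.2
  have h4 : ‖adj (dN A)‖ ≤ 1 + ‖A‖ := by
    rw [LinearIsometryEquiv.norm_map]
    exact norm_dN_le A
  rw [bet_eq]
  calc ‖adj (dN A) ∘L ((𝟙 - PhA A) ∘L P ∘L PhA A) ∘L dF A‖
      ≤ ‖adj (dN A)‖ * (‖(𝟙 - PhA A) ∘L P ∘L PhA A‖ * ‖dF A‖) :=
        (ContinuousLinearMap.opNorm_comp_le _ _).trans
          (mul_le_mul_of_nonneg_left (ContinuousLinearMap.opNorm_comp_le _ _) (norm_nonneg _))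
    _ ≤ (1 + ‖A‖) * (Real.sqrt (tdiv P (𝟙 - PhA A)) * (1 + ‖A‖)) := by
        gcongr
        exact norm_dF_le A
    _ = (1 + ‖A‖) ^ 2 * Real.sqrt (tdiv P (𝟙 - PhA A)) := by ring

theorem tiV_nonneg (f : E m → E n) {P : E (m + n) →L[ℝ] E (m + n)} (hP : IsProj m P)
    (X : E (m + n)) : 0 ≤ tiV f P X :=
  (block_facts_aux (isProj_Ph f (prH m n X)) hP).1

theorem tiV_le (f : E m → E n) {P : E (m + n) →L[ℝ] E (m + n)} (hP : IsProj m P)
    (X : E (m + n)) : tiV f P X ≤ m :=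
  (block_facts_aux (isProj_Ph f (prH m n X)) hP).2.1

/-! ### leaf L-Fit-Fits-AR : regularity of the fields and of `PhiW` -/

theorem contDiff_zet {f : E m → E n} {k : ℕ∞} (hf : ContDiff ℝ k f) : ContDiff ℝ k (zet f) := by
  unfold zet
  exact (prV m n).contDiff.sub (hf.comp (prH m n).contDiff)

theorem hasFDerivAt_zet {f : E m → E n} (hf : ContDiff ℝ 1 f) (X : E (m + n)) :
    HasFDerivAt (zet f) (adj (dN (fderiv ℝ f (prH m n X)))) X := by
  rw [adjoint_dN]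
  unfold zet
  exact (prV m n).hasFDerivAt.sub
    (((hf.differentiable one_ne_zero (prH m n X)).hasFDerivAt).comp X (prH m n).hasFDerivAt)

theorem contDiff_dN_Du {f : E m → E n} {k : ℕ} (hf : ContDiff ℝ (k + 1 : ℕ) f) :
    ContDiff ℝ k (fun y => dN (fderiv ℝ f y)) := by
  unfold dN
  exact contDiff_const.sub (contDiff_const.clm_comp (contDiff_adjoint.comp (contDiff_Du hf)))

theorem contDiff_D2_of {f : E m → E n} {k : ℕ} (hf : ContDiff ℝ (k + 2 : ℕ) f) :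
    ContDiff ℝ k (D2 f) := by
  unfold D2
  have h1 := contDiff_Du (k := k + 1) hf
  exact h1.fderiv_right (by norm_cast)

theorem contDiff_Sop_inV {f w : E m → E n} {k : ℕ} (hf : ContDiff ℝ (k + 2 : ℕ) f)
    (hw : ContDiff ℝ k w) : ContDiff ℝ k (fun y => Sop f y (inV m n (w y))) := by
  have h0 : (fun y => Sop f y (inV m n (w y)))
      = fun y => ContinuousLinearMap.apply ℝ (E m) (w y) ∘L (adjL m n ∘L D2 f y) := by
    funext y
    ext1 a
    rw [Sop_apply, prV_inV]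
    rfl
  rw [h0]
  exact ((ContinuousLinearMap.apply ℝ (E m)).contDiff.comp hw).clm_comp
    (contDiff_const.clm_comp (contDiff_D2_of hf))

theorem contDiff_PhiW {f w : E m → E n} (hf : ContDiff ℝ 3 f) (hw : ContDiff ℝ 2 w) :
    ContDiff ℝ 1 (PhiW f w) := by
  have hG : ContDiff ℝ 1 (Gf f) := by
    have := contDiff_gmat_inverse_Du (k := 1) (u := f) (hf.of_le (by norm_num))
    exact_mod_cast this
  have hA : ContDiff ℝ 1 (fderiv ℝ f) := by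
    have := contDiff_Du (k := 1) (u := f) (hf.of_le (by norm_num))
    exact_mod_cast this
  have hDw : ContDiff ℝ 1 (fderiv ℝ w) := by
    have := contDiff_Du (k := 1) (u := w) (by exact_mod_cast hw)
    exact_mod_cast this
  have hS : ContDiff ℝ 1 (fun y => Sop f y (inV m n (w y))) := by
    have := contDiff_Sop_inV (k := 1) (f := f) (w := w) (by exact_mod_cast hf)
      (hw.of_le (by norm_num))
    exact_mod_cast this
  unfold PhiW
  exact (hDw.clm_comp hG).add ((hA.clm_comp (hG.clm_comp (hS.clm_comp hG))).const_smul (2 : ℝ))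

theorem contDiff_fldV {f w : E m → E n} (hf : ContDiff ℝ 2 f) (hw : ContDiff ℝ 1 w) :
    ContDiff ℝ 1 (fldV f w) := by
  have h1 : ContDiff ℝ 1 (fun y => dN (fderiv ℝ f y) (w y)) := by
    have := contDiff_dN_Du (k := 1) (f := f) (by exact_mod_cast hf)
    exact (by exact_mod_cast this : ContDiff ℝ 1 (fun y => dN (fderiv ℝ f y))).clm_apply hw
  exact h1.comp (prH m n).contDiff

theorem contDiff_fldH {f : E m → E n} {Ψ : E m → E m →L[ℝ] E n} (hf : ContDiff ℝ 2 f)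
    (hΨ : ContDiff ℝ 1 Ψ) : ContDiff ℝ 1 (fldH f Ψ) := by
  have h1 : ContDiff ℝ 1 (fun y => dF (fderiv ℝ f y)) := by
    have := contDiff_dF_Du (k := 1) (u := f) (by exact_mod_cast hf)
    exact_mod_cast this
  have h2 : ContDiff ℝ 1 (fun y => adj (Ψ y)) := contDiff_adjoint.comp hΨ
  have h3 : ContDiff ℝ 1 (zet f) := contDiff_zet (k := 1) (hf.of_le (by norm_num))
  unfold fldH
  exact (h1.comp (prH m n).contDiff).clm_apply ((h2.comp (prH m n).contDiff).clm_apply h3)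

theorem contDiff_fldJ {f w : E m → E n} (hf : ContDiff ℝ 3 f) (hw : ContDiff ℝ 2 w) :
    ContDiff ℝ 1 (fldJ f w) :=
  (contDiff_fldV (hf.of_le (by norm_num)) (hw.of_le (by norm_num))).sub
    (contDiff_fldH (hf.of_le (by norm_num)) (contDiff_PhiW hf hw))

theorem contDiff_fldC {f : E m → E n} {χ : E m → ℝ} (hf : ContDiff ℝ 2 f) (hχ : ContDiff ℝ 1 χ) :
    ContDiff ℝ 1 (fldC f χ) := by
  have h1 : ContDiff ℝ 1 (Pv f) := by
    have := contDiff_Pv_of (k := 1) (u := f) (by exact_mod_cast hf)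
    exact_mod_cast this
  have h3 : ContDiff ℝ 1 (zet f) := contDiff_zet (k := 1) (hf.of_le (by norm_num))
  unfold fldC
  exact ((hχ.comp (prH m n).contDiff).pow 2).smul
    ((h1.comp (prH m n).contDiff).clm_apply ((inV m n).contDiff.comp h3))

/-- Leibniz bound for a composition of operator fields. -/
theorem norm_fderiv_clm_comp_le {X₀ X₁ X₂ X₃ : Type*} [NormedAddCommGroup X₀] [NormedSpace ℝ X₀]
    [NormedAddCommGroup X₁] [NormedSpace ℝ X₁] [NormedAddCommGroup X₂] [NormedSpace ℝ X₂]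
    [NormedAddCommGroup X₃] [NormedSpace ℝ X₃] {p : X₀ → X₂ →L[ℝ] X₃} {q : X₀ → X₁ →L[ℝ] X₂}
    {y : X₀} (hp : DifferentiableAt ℝ p y) (hq : DifferentiableAt ℝ q y) {P P' Q Q' : ℝ}
    (h1 : ‖p y‖ ≤ P) (h2 : ‖fderiv ℝ p y‖ ≤ P') (h3 : ‖q y‖ ≤ Q) (h4 : ‖fderiv ℝ q y‖ ≤ Q') :
    ‖fderiv ℝ (fun y => p y ∘L q y) y‖ ≤ P * Q' + P' * Q := by
  have hP : 0 ≤ P := (norm_nonneg _).trans h1
  have hP' : 0 ≤ P' := (norm_nonneg (fderiv ℝ p y)).trans h2
  have hQ : 0 ≤ Q := (norm_nonneg _).trans h3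
  have hQ' : 0 ≤ Q' := (norm_nonneg (fderiv ℝ q y)).trans h4
  rw [(hp.hasFDerivAt.clm_comp hq.hasFDerivAt).fderiv]
  refine ContinuousLinearMap.opNorm_le_bound _ (by positivity) fun v => ?_
  simp only [add_apply, ContinuousLinearMap.comp_apply, ContinuousLinearMap.compL_apply,
    ContinuousLinearMap.flip_apply]
  calc ‖p y ∘L fderiv ℝ q y v + fderiv ℝ p y v ∘L q y‖
      ≤ ‖p y‖ * ‖fderiv ℝ q y v‖ + ‖fderiv ℝ p y v‖ * ‖q y‖ :=
        (norm_add_le _ _).trans (add_le_add (ContinuousLinearMap.opNorm_comp_le _ _)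
          (ContinuousLinearMap.opNorm_comp_le _ _))
    _ ≤ P * (Q' * ‖v‖) + (P' * ‖v‖) * Q := by
        gcongr
        · exact ((fderiv ℝ q y).le_opNorm v).trans (by gcongr)
        · exact ((fderiv ℝ p y).le_opNorm v).trans (by gcongr)
    _ = (P * Q' + P' * Q) * ‖v‖ := by ring

theorem fderiv_Gf_apply {f : E m → E n} (hf : ContDiff ℝ 2 f) (y a : E m) :
    fderiv ℝ (Gf f) y a = -(Gf f y ∘L (adj (fderiv ℝ f y) ∘L D2 f y a
      + adj (D2 f y a) ∘L fderiv ℝ f y) ∘L Gf f y) := by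
  have hG : DifferentiableAt ℝ (Gf f) y :=
    (contDiff_gmat_inverse_Du (k := 1) (u := f) (by exact_mod_cast hf)).differentiable
      (by norm_num) y
  have h1 := hG.hasFDerivAt.clm_comp (Base.Exit.hasFDerivAt_gmat hf y)
  have h2 : (fun y => Gf f y ∘L gmat (fderiv ℝ f y)) = fun _ => ContinuousLinearMap.id ℝ (E m) :=
    funext fun y => gmat_inverse_comp _
  rw [h2] at h1
  have h3 := congrArg (fun T => T a) (h1.unique (hasFDerivAt_const _ y))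
  simp only [add_apply, ContinuousLinearMap.comp_apply, ContinuousLinearMap.compL_apply,
    ContinuousLinearMap.flip_apply, zero_apply] at h3
  set D := fderiv ℝ (Gf f) y a with hD
  set K := adj (fderiv ℝ f y) ∘L D2 f y a + adj (D2 f y a) ∘L fderiv ℝ f y with hK
  have h4 : Gf f y ∘L K + D ∘L gmat (fderiv ℝ f y) = 0 := h3
  have h5 : (D ∘L gmat (fderiv ℝ f y)) ∘L Gf f y = D := by
    rw [ContinuousLinearMap.comp_assoc]
    unfold Gf
    rw [gmat_comp_inverse, ContinuousLinearMap.comp_id]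
  have h6 : D ∘L gmat (fderiv ℝ f y) = -(Gf f y ∘L K) := by
    rw [eq_neg_iff_add_eq_zero, add_comm]; exact h4
  rw [← h5, h6, ContinuousLinearMap.neg_comp, ContinuousLinearMap.comp_assoc]

theorem norm_fderiv_Gf_le {κ : ℝ} {f : E m → E n} (hf : Geo κ f) (y : E m) :
    ‖fderiv ℝ (Gf f) y‖ ≤ κ := by
  refine ContinuousLinearMap.opNorm_le_bound _ hf.nonneg fun a => ?_
  rw [fderiv_Gf_apply hf.c2, norm_neg]
  have hG : ‖Gf f y‖ ≤ 1 := norm_gmat_inverse_le _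
  have hA : ‖fderiv ℝ f y‖ ≤ 1 / 2 := hf.slope y
  have hD : ‖D2 f y a‖ ≤ κ * ‖a‖ :=
    ((D2 f y).le_opNorm a).trans (by gcongr; exact hf.norm_D2_le y)
  have hκa : 0 ≤ κ * ‖a‖ := mul_nonneg hf.nonneg (norm_nonneg _)
  have hK : ‖adj (fderiv ℝ f y) ∘L D2 f y a + adj (D2 f y a) ∘L fderiv ℝ f y‖ ≤ κ * ‖a‖ := by
    refine (norm_add_le _ _).trans ?_
    have e1 : ‖adj (fderiv ℝ f y) ∘L D2 f y a‖ ≤ 1 / 2 * (κ * ‖a‖) :=
      norm_comp_le' _ _ (by rw [LinearIsometryEquiv.norm_map]; exact hA) hD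
    have e2 : ‖adj (D2 f y a) ∘L fderiv ℝ f y‖ ≤ (κ * ‖a‖) * (1 / 2) :=
      norm_comp_le' _ _ (by rw [LinearIsometryEquiv.norm_map]; exact hD) hA
    linarith
  have := norm_comp_le' _ _ hG (norm_comp_le' _ _ hK hG)
  linarith

theorem norm_adjL_le (a b : ℕ) : ‖adjL a b‖ ≤ 1 :=
  ContinuousLinearMap.opNorm_le_bound _ zero_le_one fun A => by
    rw [adjL_apply, LinearIsometryEquiv.norm_map, one_mul]

theorem norm_apply_clm_le {a b : ℕ} (v : E a) : ‖ContinuousLinearMap.apply ℝ (E b) v‖ ≤ ‖v‖ := by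
  refine ContinuousLinearMap.opNorm_le_bound _ (norm_nonneg _) fun A => ?_
  rw [ContinuousLinearMap.apply_apply, mul_comm]
  exact A.le_opNorm v

theorem Sop_inV_eq (f w : E m → E n) :
    (fun y => Sop f y (inV m n (w y)))
      = fun y => ContinuousLinearMap.apply ℝ (E m) (w y) ∘L (adjL m n ∘L D2 f y) := by
  funext y
  ext1 a
  rw [Sop_apply, prV_inV]
  rfl

set_option maxSynthPendingDepth 4 in
theorem norm_fderiv_Sop_le {κ : ℝ} {f w : E m → E n} (hf : Geo κ f) (hw : ContDiff ℝ 1 w) (y : E m) :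
    ‖fderiv ℝ (fun y => Sop f y (inV m n (w y))) y‖ ≤ κ * (‖w y‖ + ‖fderiv ℝ w y‖) := by
  rw [Sop_inV_eq]
  have hwd : HasFDerivAt w (fderiv ℝ w y) y := (hw.differentiable one_ne_zero y).hasFDerivAt
  have hp : HasFDerivAt (fun y => ContinuousLinearMap.apply ℝ (E m) (w y))
      (ContinuousLinearMap.apply ℝ (E m) ∘L fderiv ℝ w y) y :=
    (ContinuousLinearMap.apply ℝ (E m)).hasFDerivAt.comp y hwd
  have hq : HasFDerivAt (fun y => adjL m n ∘L D2 f y)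
      (ContinuousLinearMap.compL ℝ (E m) (E m →L[ℝ] E n) (E n →L[ℝ] E m) (adjL m n) ∘L
        fderiv ℝ (D2 f) y) y :=
    (ContinuousLinearMap.compL ℝ (E m) (E m →L[ℝ] E n) (E n →L[ℝ] E m)
      (adjL m n)).hasFDerivAt.comp y (hasFDerivAt_D2 hf.c3 y)
  have h1 : ‖ContinuousLinearMap.apply ℝ (E m) (w y)‖ ≤ ‖w y‖ := norm_apply_clm_le _
  have h2 : ‖fderiv ℝ (fun y => ContinuousLinearMap.apply ℝ (E m) (w y)) y‖ ≤ ‖fderiv ℝ w y‖ := by
    rw [hp.fderiv]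
    refine ContinuousLinearMap.opNorm_le_bound _ (norm_nonneg _) fun a => ?_
    rw [ContinuousLinearMap.comp_apply]
    exact (norm_apply_clm_le _).trans ((fderiv ℝ w y).le_opNorm a)
  have h3 : ‖adjL m n ∘L D2 f y‖ ≤ κ := by
    have := (ContinuousLinearMap.opNorm_comp_le (adjL m n) (D2 f y)).trans
      (mul_le_mul (norm_adjL_le m n) (hf.norm_D2_le y) (norm_nonneg _) zero_le_one)
    linarith
  have h4 : ‖fderiv ℝ (fun y => adjL m n ∘L D2 f y) y‖ ≤ κ := by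
    rw [hq.fderiv]
    refine ContinuousLinearMap.opNorm_le_bound _ hf.nonneg fun a => ?_
    rw [ContinuousLinearMap.comp_apply, ContinuousLinearMap.compL_apply]
    have e1 : ‖fderiv ℝ (D2 f) y a‖ ≤ κ * ‖a‖ :=
      (norm_D3_apply_le f y a).trans (by gcongr; exact hf.d3 y)
    have := (ContinuousLinearMap.opNorm_comp_le (adjL m n) (fderiv ℝ (D2 f) y a)).trans
      (mul_le_mul (norm_adjL_le m n) e1 (norm_nonneg _) zero_le_one)
    linarith
  have := norm_fderiv_clm_comp_le hp.differentiableAt hq.differentiableAt h1 h2 h3 h4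
  linarith

set_option maxSynthPendingDepth 4 in
/-- sup bounds of `Φ_w` and of its derivative.  (`|G| ≤ 1`, `|DG| ≤ 2 |A| |D²f| ≤ κ`, `|S_w| ≤ κ |w|`,
`|D S_w| ≤ κ (|w| + |Dw|)`; Leibniz.) -/
theorem norm_PhiW_le {κ : ℝ} {f w : E m → E n} (hf : Geo κ f) (hw : ContDiff ℝ 2 w) (y : E m) :
    ‖PhiW f w y‖ ≤ ‖fderiv ℝ w y‖ + κ * ‖w y‖ ∧
    ‖fderiv ℝ (PhiW f w) y‖ ≤ ‖D2 w y‖ + 10 * κ * (‖fderiv ℝ w y‖ + ‖w y‖) := by
  have hκ := hf.nonneg
  have hκ1 := hf.le_one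
  have hG : ‖Gf f y‖ ≤ 1 := norm_gmat_inverse_le _
  have hG' : ‖fderiv ℝ (Gf f) y‖ ≤ κ := norm_fderiv_Gf_le hf y
  have hA : ‖fderiv ℝ f y‖ ≤ 1 / 2 := hf.slope y
  have hA' : ‖fderiv ℝ (fderiv ℝ f) y‖ ≤ κ := hf.norm_D2_le y
  have hS : ‖Sop f y (inV m n (w y))‖ ≤ κ * ‖w y‖ := by
    refine (norm_Sop_le f y _).trans ?_
    rw [norm_inV]
    gcongr
    exact hf.norm_D2_le y
  have hS' := norm_fderiv_Sop_le hf (hw.of_le (by norm_num)) y
  have hW : ‖fderiv ℝ w y‖ ≤ ‖fderiv ℝ w y‖ := le_rfl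
  have hW' : ‖fderiv ℝ (fderiv ℝ w) y‖ ≤ ‖D2 w y‖ := le_rfl
  have dG : DifferentiableAt ℝ (Gf f) y :=
    (contDiff_gmat_inverse_Du (k := 1) (u := f) (by exact_mod_cast hf.c2)).differentiable
      (by norm_num) y
  have dA : DifferentiableAt ℝ (fderiv ℝ f) y := (hasFDerivAt_Du hf.c2).differentiableAt
  have dW : DifferentiableAt ℝ (fderiv ℝ w) y := (hasFDerivAt_Du hw).differentiableAt
  have dS : DifferentiableAt ℝ (fun y => Sop f y (inV m n (w y))) y :=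
    (contDiff_Sop_inV (k := 1) (f := f) (w := w) (by exact_mod_cast hf.c3)
      (hw.of_le (by norm_num))).differentiable (by norm_num) y
  have hw0 := norm_nonneg (w y)
  have hw1 := norm_nonneg (fderiv ℝ w y)
  -- the products
  have b1 : ‖Sop f y (inV m n (w y)) ∘L Gf f y‖ ≤ κ * ‖w y‖ * 1 := norm_comp_le' _ _ hS hG
  have d1 : DifferentiableAt ℝ (fun y => Sop f y (inV m n (w y)) ∘L Gf f y) y := dS.clm_comp dG
  have c1 := norm_fderiv_clm_comp_le dS dG hS hS' hG hG'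
  have b2 : ‖Gf f y ∘L Sop f y (inV m n (w y)) ∘L Gf f y‖ ≤ 1 * (κ * ‖w y‖ * 1) :=
    norm_comp_le' _ _ hG b1
  have d2 : DifferentiableAt ℝ (fun y => Gf f y ∘L Sop f y (inV m n (w y)) ∘L Gf f y) y :=
    dG.clm_comp d1
  have c2 := norm_fderiv_clm_comp_le dG d1 hG hG' b1 c1
  have b3 : ‖fderiv ℝ f y ∘L Gf f y ∘L Sop f y (inV m n (w y)) ∘L Gf f y‖
      ≤ 1 / 2 * (1 * (κ * ‖w y‖ * 1)) := norm_comp_le' _ _ hA b2
  have d3 : DifferentiableAt ℝ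
      (fun y => fderiv ℝ f y ∘L Gf f y ∘L Sop f y (inV m n (w y)) ∘L Gf f y) y := dA.clm_comp d2
  have c3 := norm_fderiv_clm_comp_le dA d2 hA hA' b2 c2
  have b4 : ‖fderiv ℝ w y ∘L Gf f y‖ ≤ ‖fderiv ℝ w y‖ * 1 := norm_comp_le' _ _ hW hG
  have d4 : DifferentiableAt ℝ (fun y => fderiv ℝ w y ∘L Gf f y) y := dW.clm_comp dG
  have c4 := norm_fderiv_clm_comp_le dW dG hW hW' hG hG'
  constructor
  · unfold PhiW
    refine (norm_add_le _ _).trans ?_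
    rw [norm_smul, Real.norm_eq_abs, abs_of_pos (by norm_num : (0 : ℝ) < 2)]
    linarith
  · have e : fderiv ℝ (PhiW f w) y = fderiv ℝ (fun y => fderiv ℝ w y ∘L Gf f y) y
        + (2 : ℝ) • fderiv ℝ
          (fun y => fderiv ℝ f y ∘L Gf f y ∘L Sop f y (inV m n (w y)) ∘L Gf f y) y :=
      (d4.hasFDerivAt.add (d3.hasFDerivAt.const_smul (2 : ℝ))).fderiv
    rw [e]
    refine (norm_add_le _ _).trans ?_
    rw [norm_smul, Real.norm_eq_abs, abs_of_pos (by norm_num : (0 : ℝ) < 2)]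
    have k1 : κ * κ ≤ κ := by nlinarith
    have k2 : κ * κ * ‖w y‖ ≤ κ * ‖w y‖ := by gcongr
    have k3 := mul_nonneg hκ hw0
    have k4 := mul_nonneg hκ hw1
    nlinarith

/-! ### leaf L-Fit-Fits-AV : the normal field -/

theorem hs_eq (B Φ : E m →L[ℝ] E n) : hs B Φ = trc (adj B ∘L Φ) := by
  unfold hs
  rw [← trc_adjoint, ContinuousLinearMap.adjoint_comp, ContinuousLinearMap.adjoint_adjoint]

theorem hs_add (B Φ₁ Φ₂ : E m →L[ℝ] E n) : hs B (Φ₁ + Φ₂) = hs B Φ₁ + hs B Φ₂ := by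
  rw [hs_eq, hs_eq, hs_eq, ContinuousLinearMap.comp_add, trc_add]

theorem hs_smul (B Φ : E m →L[ℝ] E n) (c : ℝ) : hs B (c • Φ) = c * hs B Φ := by
  rw [hs_eq, hs_eq, ContinuousLinearMap.comp_smul, trc_smul]

theorem adjoint_bet (A : E m →L[ℝ] E n) {P : E (m + n) →L[ℝ] E (m + n)} (hP : IsProj m P) :
    adj (bet A P) = adj (dF A) ∘L P ∘L dN A := by
  unfold bet
  rw [ContinuousLinearMap.adjoint_comp, ContinuousLinearMap.adjoint_comp,
    ContinuousLinearMap.adjoint_adjoint, IsProj.adjoint_eq hP]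
  rfl

theorem adjoint_dF_comp_inH (A : E m →L[ℝ] E n) : adj (dF A) ∘L inH m n = 𝟙 := by
  ext1 a
  rw [ContinuousLinearMap.comp_apply, adjoint_dF_apply, prH_inH, prV_inH, map_zero, add_zero]
  rfl

theorem dFp_comp_inH (A : E m →L[ℝ] E n) : dFp A ∘L inH m n = (gmat A).inverse := by
  unfold dFp
  rw [ContinuousLinearMap.comp_assoc, adjoint_dF_comp_inH, ContinuousLinearMap.comp_id]

theorem dFp_comp_dN (A : E m →L[ℝ] E n) : dFp A ∘L dN A = 0 := by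
  unfold dFp
  rw [ContinuousLinearMap.comp_assoc, adjoint_dF_comp_dN, ContinuousLinearMap.comp_zero]

/-- `prH V = - G Aᵀ Nᵀ`. -/
theorem prH_comp_compl_PhA (A : E m →L[ℝ] E n) :
    prH m n ∘L (𝟙 - PhA A) = -((gmat A).inverse ∘L adj A ∘L adj (dN A)) := by
  have h := congrArg adj (compl_PhA_comp_inH A)
  rw [ContinuousLinearMap.adjoint_comp, IsProj.adjoint_compl (isProj_PhA A), map_neg,
    ContinuousLinearMap.adjoint_comp, ContinuousLinearMap.adjoint_comp, adjoint_gmat_inverse] at h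
  have h2 : adj (inH m n) = prH m n := by
    unfold inH
    rw [ContinuousLinearMap.adjoint_adjoint]
  rw [h2] at h
  rw [h]
  rfl

theorem hasFDerivAt_dN_Du {f : E m → E n} (hf : ContDiff ℝ 2 f) (y : E m) :
    HasFDerivAt (fun y => dN (fderiv ℝ f y))
      (-((ContinuousLinearMap.compL ℝ (E n) (E m) (E (m + n)) (inH m n)) ∘L adjL m n ∘L D2 f y)) y := by
  unfold dN
  have h1 : HasFDerivAt (fun y => adj (fderiv ℝ f y)) (adjL m n ∘L D2 f y) y :=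
    (adjL m n).hasFDerivAt.comp y (hasFDerivAt_Du hf)
  have h2 := (ContinuousLinearMap.compL ℝ (E n) (E m) (E (m + n)) (inH m n)).hasFDerivAt.comp y h1
  exact h2.const_sub (inV m n)

/-- the derivative of `y ↦ N(Df y) (w y)` is `M = N Dw - inH S_w`. -/
theorem hasFDerivAt_dN_apply {f w : E m → E n} (hf : ContDiff ℝ 2 f) (hw : ContDiff ℝ 1 w) (y : E m) :
    HasFDerivAt (fun y => dN (fderiv ℝ f y) (w y))
      (dN (fderiv ℝ f y) ∘L fderiv ℝ w y - inH m n ∘L Sop f y (inV m n (w y))) y := by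
  have h1 := (hasFDerivAt_dN_Du hf y).clm_apply (hw.differentiable one_ne_zero y).hasFDerivAt
  have h2 : dN (fderiv ℝ f y) ∘L fderiv ℝ w y - inH m n ∘L Sop f y (inV m n (w y))
      = dN (fderiv ℝ f y) ∘L fderiv ℝ w y +
        (-((ContinuousLinearMap.compL ℝ (E n) (E m) (E (m + n)) (inH m n)) ∘L
          adjL m n ∘L D2 f y)).flip (w y) := by
    ext1 a
    simp only [sub_apply, add_apply, ContinuousLinearMap.comp_apply, ContinuousLinearMap.flip_apply,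
      neg_apply, Sop_apply, prV_inV]
    rw [sub_eq_add_neg]
    rfl
  rw [h2]
  exact h1

theorem fderiv_fldV {f w : E m → E n} (hf : ContDiff ℝ 2 f) (hw : ContDiff ℝ 1 w) (X : E (m + n)) :
    fderiv ℝ (fldV f w) X
      = (dN (fderiv ℝ f (prH m n X)) ∘L fderiv ℝ w (prH m n X)
          - inH m n ∘L Sop f (prH m n X) (inV m n (w (prH m n X)))) ∘L prH m n :=
  ((hasFDerivAt_dN_apply hf hw (prH m n X)).comp X (prH m n).hasFDerivAt).fderiv

theorem trc_Gf_Sop {f : E m → E n} (hf : ContDiff ℝ 2 f) (y : E m) (v : E n) :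
    trc ((gmat (fderiv ℝ f y)).inverse ∘L Sop f y (inV m n v)) = inner ℝ (mssOp f y) v := by
  rw [trc_eq_sum]
  unfold mssOp
  rw [sum_inner]
  refine Finset.sum_congr rfl fun a _ => ?_
  rw [ContinuousLinearMap.comp_apply, gmat_inverse_symm, inner_Sop, inner_inV_left, prV_inV,
    real_inner_comm, D2_symm hf]
  rfl

/-- the three main traces of (V) for abstract operators. -/
theorem trace_V_abs {T iH : E m →L[ℝ] E (m + n)} {Tp pH : E (m + n) →L[ℝ] E m}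
    {Nn : E n →L[ℝ] E (m + n)} {G S : E m →L[ℝ] E m} {A Dw : E m →L[ℝ] E n}
    {H V P : E (m + n) →L[ℝ] E (m + n)}
    (hH : H = T ∘L Tp) (hTp : Tp = G ∘L adj T) (hpT : pH ∘L T = 𝟙) (hTN : Tp ∘L Nn = 0)
    (hTi : Tp ∘L iH = G) (hVN : V ∘L Nn = Nn) (hVi : V ∘L iH = -(Nn ∘L A ∘L G))
    (hpV : pH ∘L V = -(G ∘L adj A ∘L adj Nn)) (hG : adj G = G) (hS : adj S = S) (hP : adj P = P) :
    trc (H ∘L ((Nn ∘L Dw - iH ∘L S) ∘L pH)) = -trc (G ∘L S) ∧
    trc (H ∘L P ∘L V ∘L ((Nn ∘L Dw - iH ∘L S) ∘L pH))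
      = hs (adj Nn ∘L P ∘L T) ((Dw + A ∘L G ∘L S) ∘L G) ∧
    trc (V ∘L P ∘L H ∘L ((Nn ∘L Dw - iH ∘L S) ∘L pH))
      = hs (adj Nn ∘L P ∘L T) (A ∘L G ∘L S ∘L G) := by
  have hTM : Tp ∘L (Nn ∘L Dw - iH ∘L S) = -(G ∘L S) := by
    rw [ContinuousLinearMap.comp_sub, ← ContinuousLinearMap.comp_assoc, hTN,
      ContinuousLinearMap.zero_comp, ← ContinuousLinearMap.comp_assoc, hTi, zero_sub]
  have hVM : V ∘L (Nn ∘L Dw - iH ∘L S) = Nn ∘L (Dw + A ∘L G ∘L S) := by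
    rw [ContinuousLinearMap.comp_sub, ← ContinuousLinearMap.comp_assoc, hVN,
      ← ContinuousLinearMap.comp_assoc, hVi, ContinuousLinearMap.neg_comp,
      sub_neg_eq_add, ContinuousLinearMap.comp_add]
    simp only [ContinuousLinearMap.comp_assoc]
  generalize Nn ∘L Dw - iH ∘L S = M at hTM hVM ⊢
  have hadjβ : adj (adj Nn ∘L P ∘L T) = adj T ∘L P ∘L Nn := by
    rw [ContinuousLinearMap.adjoint_comp, ContinuousLinearMap.adjoint_comp,
      ContinuousLinearMap.adjoint_adjoint, hP, ContinuousLinearMap.comp_assoc]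
  refine ⟨?_, ?_, ?_⟩
  · calc trc (H ∘L (M ∘L pH)) = trc (T ∘L (Tp ∘L M ∘L pH)) := by
          rw [hH, ContinuousLinearMap.comp_assoc]
      _ = trc ((Tp ∘L M ∘L pH) ∘L T) := trc_comp_comm _ _
      _ = trc ((Tp ∘L M) ∘L (pH ∘L T)) := by simp only [ContinuousLinearMap.comp_assoc]
      _ = trc (Tp ∘L M) := by rw [hpT, ContinuousLinearMap.comp_id]
      _ = -trc (G ∘L S) := by rw [hTM, trc_neg]
  · calc trc (H ∘L P ∘L V ∘L (M ∘L pH))
        = trc (T ∘L (Tp ∘L P ∘L (V ∘L M) ∘L pH)) := by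
          rw [hH]; simp only [ContinuousLinearMap.comp_assoc]
      _ = trc ((Tp ∘L P ∘L (V ∘L M) ∘L pH) ∘L T) := trc_comp_comm _ _
      _ = trc ((Tp ∘L P ∘L (V ∘L M)) ∘L (pH ∘L T)) := by simp only [ContinuousLinearMap.comp_assoc]
      _ = trc (Tp ∘L P ∘L (V ∘L M)) := by rw [hpT, ContinuousLinearMap.comp_id]
      _ = trc (G ∘L (adj T ∘L P ∘L Nn ∘L (Dw + A ∘L G ∘L S))) := by
          rw [hVM, hTp]; simp only [ContinuousLinearMap.comp_assoc]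
      _ = trc ((adj T ∘L P ∘L Nn ∘L (Dw + A ∘L G ∘L S)) ∘L G) := trc_comp_comm _ _
      _ = hs (adj Nn ∘L P ∘L T) ((Dw + A ∘L G ∘L S) ∘L G) := by
          rw [hs_eq, hadjβ]; simp only [ContinuousLinearMap.comp_assoc]
  · calc trc (V ∘L P ∘L H ∘L (M ∘L pH))
        = trc (V ∘L (P ∘L T ∘L (Tp ∘L M) ∘L pH)) := by
          rw [hH]; simp only [ContinuousLinearMap.comp_assoc]
      _ = trc ((P ∘L T ∘L (Tp ∘L M) ∘L pH) ∘L V) := trc_comp_comm _ _
      _ = trc ((P ∘L T ∘L (Tp ∘L M)) ∘L (pH ∘L V)) := by simp only [ContinuousLinearMap.comp_assoc]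
      _ = trc ((P ∘L T ∘L (-(G ∘L S))) ∘L (-(G ∘L adj A ∘L adj Nn))) := by rw [hTM, hpV]
      _ = trc ((P ∘L T ∘L (G ∘L S ∘L G ∘L adj A)) ∘L adj Nn) := by
          rw [ContinuousLinearMap.comp_neg, ContinuousLinearMap.comp_neg,
            ContinuousLinearMap.comp_neg, ContinuousLinearMap.neg_comp, neg_neg]
          simp only [ContinuousLinearMap.comp_assoc]
      _ = trc (adj Nn ∘L (P ∘L T ∘L (G ∘L S ∘L G ∘L adj A))) := trc_comp_comm _ _
      _ = trc ((adj Nn ∘L P ∘L T) ∘L (G ∘L S ∘L G ∘L adj A)) := by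
          simp only [ContinuousLinearMap.comp_assoc]
      _ = trc ((G ∘L S ∘L G ∘L adj A) ∘L (adj Nn ∘L P ∘L T)) := trc_comp_comm _ _
      _ = hs (adj Nn ∘L P ∘L T) (A ∘L G ∘L S ∘L G) := by
          unfold hs
          rw [ContinuousLinearMap.adjoint_comp, ContinuousLinearMap.adjoint_comp,
            ContinuousLinearMap.adjoint_comp, hG, hS]
          simp only [ContinuousLinearMap.comp_assoc]

/-- the three main traces of (V), pure linear algebra. -/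
theorem trace_V_alg (A : E m →L[ℝ] E n) {P : E (m + n) →L[ℝ] E (m + n)} (hP : IsProj m P)
    (Dw : E m →L[ℝ] E n) (S : E m →L[ℝ] E m) (hS : adj S = S) :
    trc (PhA A ∘L ((dN A ∘L Dw - inH m n ∘L S) ∘L prH m n)) = -trc ((gmat A).inverse ∘L S) ∧
    trc (PhA A ∘L P ∘L (𝟙 - PhA A) ∘L ((dN A ∘L Dw - inH m n ∘L S) ∘L prH m n))
      = hs (bet A P) ((Dw + A ∘L (gmat A).inverse ∘L S) ∘L (gmat A).inverse) ∧
    trc ((𝟙 - PhA A) ∘L P ∘L PhA A ∘L ((dN A ∘L Dw - inH m n ∘L S) ∘L prH m n))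
      = hs (bet A P) (A ∘L (gmat A).inverse ∘L S ∘L (gmat A).inverse) :=
  trace_V_abs (PhA_eq A) rfl (prH_comp_dF A) (dFp_comp_dN A) (dFp_comp_inH A)
    (compl_PhA_comp_dN A) (compl_PhA_comp_inH A) (prH_comp_compl_PhA A) (adjoint_gmat_inverse A) hS
    (IsProj.adjoint_eq hP)

/-- **(V)** `tr (P D(N w)) = - ⟨mss f, w⟩ + ⟨β, Φ_w⟩ + O(e (|Dw| + κ |w|))`. -/
theorem trace_fldV {κ : ℝ} {f w : E m → E n} (hf : Geo κ f) (hw : ContDiff ℝ 1 w)
    {P : E (m + n) →L[ℝ] E (m + n)} (hP : IsProj m P) (X : E (m + n)) :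
    |tdiv P (fderiv ℝ (fldV f w) X) + inner ℝ (mssOp f (prH m n X)) (w (prH m n X))
        - hs (bet (fderiv ℝ f (prH m n X)) P) (PhiW f w (prH m n X))|
      ≤ tiV f P X * (3 * ‖fderiv ℝ w (prH m n X)‖ + 2 * κ * ‖w (prH m n X)‖) := by
  set y := prH m n X with hy
  set A := fderiv ℝ f y with hA
  set S := Sop f y (inV m n (w y)) with hS
  set Dw := fderiv ℝ w y with hDw
  have he0 : 0 ≤ tiV f P X := tiV_nonneg f hP X
  have heq : tiV f P X = tdiv P (𝟙 - PhA A) := rfl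
  obtain ⟨ha, hb, hc⟩ := trace_V_alg A hP Dw S (adjoint_Sop hf.c2 y _)
  have hblock := abs_trc_block_le (isProj_PhA A) hP ((dN A ∘L Dw - inH m n ∘L S) ∘L prH m n)
  rw [ha, hb, hc, trc_Gf_Sop hf.c2, ← heq] at hblock
  have hPhi : hs (bet A P) (PhiW f w y)
      = hs (bet A P) ((Dw + A ∘L (gmat A).inverse ∘L S) ∘L (gmat A).inverse)
        + hs (bet A P) (A ∘L (gmat A).inverse ∘L S ∘L (gmat A).inverse) := by
    rw [← hs_add]
    congr 1
    unfold PhiW Gf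
    ext1 v
    simp only [add_apply, smul_apply, ContinuousLinearMap.comp_apply, two_smul]
    abel
  have hnorm : ‖(dN A ∘L Dw - inH m n ∘L S) ∘L prH m n‖ ≤ 3 / 2 * ‖Dw‖ + κ * ‖w y‖ := by
    have h1 : ‖prH m n‖ ≤ 1 :=
      ContinuousLinearMap.opNorm_le_bound _ zero_le_one fun v => by
        rw [one_mul]; exact norm_prH_le v
    have h2 : ‖dN A‖ ≤ 3 / 2 := (norm_dN_le A).trans (by linarith [hf.slope y])
    have h3 : ‖S‖ ≤ κ * ‖w y‖ := by
      refine (norm_Sop_le f y _).trans ?_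
      rw [norm_inV]
      gcongr
      exact hf.norm_D2_le y
    have h4 : ‖inH m n ∘L S‖ ≤ ‖S‖ :=
      ContinuousLinearMap.opNorm_le_bound _ (norm_nonneg _) fun v => by
        rw [ContinuousLinearMap.comp_apply, norm_inH]; exact S.le_opNorm v
    have h5 : ‖dN A ∘L Dw‖ ≤ 3 / 2 * ‖Dw‖ :=
      (ContinuousLinearMap.opNorm_comp_le _ _).trans (by gcongr)
    calc ‖(dN A ∘L Dw - inH m n ∘L S) ∘L prH m n‖
        ≤ ‖dN A ∘L Dw - inH m n ∘L S‖ * ‖prH m n‖ := ContinuousLinearMap.opNorm_comp_le _ _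
      _ ≤ ‖dN A ∘L Dw - inH m n ∘L S‖ * 1 := by gcongr
      _ ≤ 3 / 2 * ‖Dw‖ + κ * ‖w y‖ := by
          rw [mul_one]
          exact (norm_sub_le _ _).trans (add_le_add h5 (h4.trans h3))
  rw [fderiv_fldV hf.c2 hw, tdiv_eq_trc, hPhi]
  calc _ = |trc (P ∘L (dN A ∘L Dw - inH m n ∘L S) ∘L prH m n) -
        (-inner ℝ (mssOp f y) (w y) +
          hs (bet A P) ((Dw + A ∘L (gmat A).inverse ∘L S) ∘L (gmat A).inverse) +
          hs (bet A P) (A ∘L (gmat A).inverse ∘L S ∘L (gmat A).inverse))| := by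
        congr 1
        ring
    _ ≤ 2 * tiV f P X * ‖(dN A ∘L Dw - inH m n ∘L S) ∘L prH m n‖ := hblock
    _ ≤ 2 * tiV f P X * (3 / 2 * ‖Dw‖ + κ * ‖w y‖) := by gcongr
    _ = tiV f P X * (3 * ‖Dw‖ + 2 * κ * ‖w y‖) := by ring

/-! ### leaf L-Fit-Fits-AH : the tangential field -/

/-- derivative of the tangential field: `D(T Ψᵀ ζ) = T Ψᵀ Nᵀ + M ∘ prH`. -/
theorem hasFDerivAt_fldH {f : E m → E n} {Ψ : E m → E m →L[ℝ] E n} (hf : ContDiff ℝ 2 f)
    (hΨ : ContDiff ℝ 1 Ψ) (X : E (m + n)) :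
    HasFDerivAt (fldH f Ψ)
      (dF (fderiv ℝ f (prH m n X)) ∘L adj (Ψ (prH m n X)) ∘L adj (dN (fderiv ℝ f (prH m n X)))
        + (dF (fderiv ℝ f (prH m n X)) ∘L ((adjL m n ∘L fderiv ℝ Ψ (prH m n X)).flip (zet f X))
          + inV m n ∘L ((D2 f (prH m n X)).flip (adj (Ψ (prH m n X)) (zet f X)))) ∘L prH m n) X := by
  have hT : HasFDerivAt (fun X => dF (fderiv ℝ f (prH m n X))) _ X :=
    (hasFDerivAt_dF_Du (y := prH m n X) hf).comp X (prH m n).hasFDerivAt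
  have hP : HasFDerivAt (fun X => adj (Ψ (prH m n X))) _ X :=
    ((adjL m n).hasFDerivAt.comp (prH m n X)
      (hΨ.differentiable one_ne_zero (prH m n X)).hasFDerivAt).comp X (prH m n).hasFDerivAt
  have hζ := hasFDerivAt_zet (hf.of_le (by norm_num)) X
  have h := hT.clm_apply (hP.clm_apply hζ)
  refine h.congr_fderiv ?_
  ext1 b
  simp only [add_apply, ContinuousLinearMap.comp_apply, ContinuousLinearMap.flip_apply,
    ContinuousLinearMap.compL_apply, map_add]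
  abel

/-- the traces of (H) for abstract operators. -/
theorem trace_H_abs {T : E m →L[ℝ] E (m + n)} {Tp pH : E (m + n) →L[ℝ] E m}
    {Nn : E n →L[ℝ] E (m + n)} {Ψ : E m →L[ℝ] E n} {H P : E (m + n) →L[ℝ] E (m + n)}
    (M : E m →L[ℝ] E (m + n)) (hH : H = T ∘L Tp) (hpT : pH ∘L T = 𝟙) :
    trc (P ∘L (T ∘L adj Ψ ∘L adj Nn + M ∘L pH))
      = hs (adj Nn ∘L P ∘L T) Ψ + trc (Tp ∘L M) + trc ((P - H) ∘L (M ∘L pH)) := by
  have h1 : trc (P ∘L (T ∘L adj Ψ ∘L adj Nn)) = hs (adj Nn ∘L P ∘L T) Ψ := by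
    calc trc (P ∘L (T ∘L adj Ψ ∘L adj Nn)) = trc ((P ∘L T ∘L adj Ψ) ∘L adj Nn) := by
          simp only [ContinuousLinearMap.comp_assoc]
      _ = trc (adj Nn ∘L (P ∘L T ∘L adj Ψ)) := trc_comp_comm _ _
      _ = trc ((adj Nn ∘L P ∘L T) ∘L adj Ψ) := by simp only [ContinuousLinearMap.comp_assoc]
      _ = trc (adj Ψ ∘L (adj Nn ∘L P ∘L T)) := trc_comp_comm _ _
  have h2 : trc (H ∘L (M ∘L pH)) = trc (Tp ∘L M) := by
    calc trc (H ∘L (M ∘L pH)) = trc (T ∘L (Tp ∘L M ∘L pH)) := by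
          rw [hH, ContinuousLinearMap.comp_assoc]
      _ = trc ((Tp ∘L M ∘L pH) ∘L T) := trc_comp_comm _ _
      _ = trc ((Tp ∘L M) ∘L (pH ∘L T)) := by simp only [ContinuousLinearMap.comp_assoc]
      _ = trc (Tp ∘L M) := by rw [hpT, ContinuousLinearMap.comp_id]
  rw [ContinuousLinearMap.comp_add, trc_add, h1, ContinuousLinearMap.sub_comp, trc_sub, h2]
  ring

theorem trc_flip_adjL (D : E m →L[ℝ] E m →L[ℝ] E n) (ζ : E n) :
    trc ((adjL m n ∘L D).flip ζ)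
      = inner ℝ ζ (∑ a : Fin m, D (EuclideanSpace.single a 1) (EuclideanSpace.single a 1)) := by
  rw [trc_eq_sum, inner_sum]
  refine Finset.sum_congr rfl fun a _ => ?_
  rw [ContinuousLinearMap.flip_apply, ContinuousLinearMap.comp_apply, adjL_apply,
    ContinuousLinearMap.adjoint_inner_left]

theorem inner_sum_smul_single (L : E m →L[ℝ] ℝ) (η : E m) :
    inner ℝ (∑ b : Fin m, L (EuclideanSpace.single b 1) • EuclideanSpace.single b (1 : ℝ)) η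
      = L η := by
  have h1 : η = ∑ b : Fin m, η b • EuclideanSpace.single b (1 : ℝ) := by
    have := ((EuclideanSpace.basisFun (Fin m) ℝ).sum_repr η).symm
    simpa using this
  conv_rhs => rw [h1]
  rw [sum_inner, map_sum]
  refine Finset.sum_congr rfl fun b _ => ?_
  rw [inner_smul_left, EuclideanSpace.inner_single_left, map_smul]
  simp [mul_comm]

theorem inner_lamV (f : E m → E n) (y η : E m) :
    inner ℝ (lamV f y) η = trc (Gf f y ∘L adj (fderiv ℝ f y) ∘L D2 f y η) := by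
  have h : ∀ α, trW f y α = trc (Gf f y ∘L adj (fderiv ℝ f y) ∘L D2 f y α) := by
    intro α
    rw [trW_apply]
    unfold Wop Gf
    rw [← ContinuousLinearMap.comp_assoc, Base.Exit.dFp_comp_inV, ContinuousLinearMap.comp_assoc]
  unfold lamV
  simp only [← h]
  exact inner_sum_smul_single (trW f y) η

/-- **(H)** `tr (P D(T Ψᵀ ζ)) = ⟨β, Ψ⟩ + ⟨ζ, div Ψ + Ψ λ⟩ + O(sqrt e |ζ| (|DΨ| + κ |Ψ|))`. -/
theorem trace_fldH {κ : ℝ} {f : E m → E n} {Ψ : E m → E m →L[ℝ] E n} (hf : Geo κ f)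
    (hΨ : ContDiff ℝ 1 Ψ) {P : E (m + n) →L[ℝ] E (m + n)} (hP : IsProj m P) (X : E (m + n)) :
    |tdiv P (fderiv ℝ (fldH f Ψ) X) - hs (bet (fderiv ℝ f (prH m n X)) P) (Ψ (prH m n X))
        - inner ℝ (zet f X) (dvg Ψ (prH m n X) + Ψ (prH m n X) (lamV f (prH m n X)))|
      ≤ 4 * (m + n) * Real.sqrt (tiV f P X) * ‖zet f X‖ *
          (3 / 2 * ‖fderiv ℝ Ψ (prH m n X)‖ + κ * ‖Ψ (prH m n X)‖) := by
  set y := prH m n X with hy
  set A := fderiv ℝ f y with hA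
  set ζ := zet f X with hζ
  set Φ₁ := (adjL m n ∘L fderiv ℝ Ψ y).flip ζ with hΦ₁
  set Φ₂ := (D2 f y).flip (adj (Ψ y) ζ) with hΦ₂
  have heq : tiV f P X = tdiv P (𝟙 - PhA A) := rfl
  have hκ := hf.nonneg
  have habs := trace_H_abs (P := P) (Ψ := Ψ y) (Nn := dN A) (dF A ∘L Φ₁ + inV m n ∘L Φ₂)
    (PhA_eq A) (prH_comp_dF A)
  have hTM : trc (dFp A ∘L (dF A ∘L Φ₁ + inV m n ∘L Φ₂))
      = inner ℝ ζ (dvg Ψ y + Ψ y (lamV f y)) := by
    rw [ContinuousLinearMap.comp_add, ← ContinuousLinearMap.comp_assoc, dFp_comp_dF,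
      ContinuousLinearMap.id_comp, ← ContinuousLinearMap.comp_assoc, Base.Exit.dFp_comp_inV,
      trc_add, hΦ₁, trc_flip_adjL, inner_add_right]
    congr 1
    have h1 : Φ₂ = D2 f y (adj (Ψ y) ζ) := by
      ext1 a
      rw [hΦ₂, ContinuousLinearMap.flip_apply, D2_symm hf.c2]
    rw [h1, ContinuousLinearMap.comp_assoc, ← ContinuousLinearMap.adjoint_inner_left,
      real_inner_comm, inner_lamV]
    rfl
  have hsub := abs_trc_sub_comp_le (isProj_PhA A) hP ((dF A ∘L Φ₁ + inV m n ∘L Φ₂) ∘L prH m n)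
  rw [← heq] at hsub
  have hnorm : ‖(dF A ∘L Φ₁ + inV m n ∘L Φ₂) ∘L prH m n‖
      ≤ ‖ζ‖ * (3 / 2 * ‖fderiv ℝ Ψ y‖ + κ * ‖Ψ y‖) := by
    have h1 : ‖prH m n‖ ≤ 1 :=
      ContinuousLinearMap.opNorm_le_bound _ zero_le_one fun v => by
        rw [one_mul]; exact norm_prH_le v
    have h2 : ‖dF A‖ ≤ 3 / 2 := hf.norm_dF_le y
    have h3 : ‖Φ₁‖ ≤ ‖fderiv ℝ Ψ y‖ * ‖ζ‖ := by
      refine ContinuousLinearMap.opNorm_le_bound _ (by positivity) fun a => ?_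
      rw [hΦ₁, ContinuousLinearMap.flip_apply, ContinuousLinearMap.comp_apply, adjL_apply]
      refine ((adj (fderiv ℝ Ψ y a)).le_opNorm ζ).trans ?_
      rw [LinearIsometryEquiv.norm_map]
      calc ‖fderiv ℝ Ψ y a‖ * ‖ζ‖ ≤ (‖fderiv ℝ Ψ y‖ * ‖a‖) * ‖ζ‖ := by
            gcongr; exact (fderiv ℝ Ψ y).le_opNorm a
        _ = ‖fderiv ℝ Ψ y‖ * ‖ζ‖ * ‖a‖ := by ring
    have h4 : ‖adj (Ψ y) ζ‖ ≤ ‖Ψ y‖ * ‖ζ‖ := by
      refine ((adj (Ψ y)).le_opNorm ζ).trans ?_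
      rw [LinearIsometryEquiv.norm_map]
    have h5 : ‖Φ₂‖ ≤ κ * (‖Ψ y‖ * ‖ζ‖) := by
      refine ContinuousLinearMap.opNorm_le_bound _ (by positivity) fun a => ?_
      rw [hΦ₂, ContinuousLinearMap.flip_apply]
      calc ‖D2 f y a (adj (Ψ y) ζ)‖ ≤ ‖D2 f y a‖ * ‖adj (Ψ y) ζ‖ := (D2 f y a).le_opNorm _
        _ ≤ (κ * ‖a‖) * (‖Ψ y‖ * ‖ζ‖) := by
            gcongr
            exact ((D2 f y).le_opNorm a).trans (by gcongr; exact hf.norm_D2_le y)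
        _ = κ * (‖Ψ y‖ * ‖ζ‖) * ‖a‖ := by ring
    have h6 : ‖inV m n ∘L Φ₂‖ ≤ ‖Φ₂‖ :=
      ContinuousLinearMap.opNorm_le_bound _ (norm_nonneg _) fun v => by
        rw [ContinuousLinearMap.comp_apply, norm_inV]; exact Φ₂.le_opNorm v
    have h7 : ‖dF A ∘L Φ₁‖ ≤ 3 / 2 * (‖fderiv ℝ Ψ y‖ * ‖ζ‖) := norm_comp_le' _ _ h2 h3
    calc ‖(dF A ∘L Φ₁ + inV m n ∘L Φ₂) ∘L prH m n‖
        ≤ ‖dF A ∘L Φ₁ + inV m n ∘L Φ₂‖ * ‖prH m n‖ := ContinuousLinearMap.opNorm_comp_le _ _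
      _ ≤ ‖dF A ∘L Φ₁ + inV m n ∘L Φ₂‖ * 1 := by gcongr
      _ ≤ 3 / 2 * (‖fderiv ℝ Ψ y‖ * ‖ζ‖) + κ * (‖Ψ y‖ * ‖ζ‖) := by
          rw [mul_one]
          exact (norm_add_le _ _).trans (add_le_add h7 (h6.trans h5))
      _ = ‖ζ‖ * (3 / 2 * ‖fderiv ℝ Ψ y‖ + κ * ‖Ψ y‖) := by ring
  rw [(hasFDerivAt_fldH hf.c2 hΨ X).fderiv, tdiv_eq_trc, habs, hTM]
  have hs0 := Real.sqrt_nonneg (tiV f P X)
  calc _ = |trc ((P - PhA A) ∘L ((dF A ∘L Φ₁ + inV m n ∘L Φ₂) ∘L prH m n))| := by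
        congr 1
        unfold bet
        ring
    _ ≤ (2 * ((m + n : ℕ) : ℝ) + 2 * m) * Real.sqrt (tiV f P X) *
          ‖(dF A ∘L Φ₁ + inV m n ∘L Φ₂) ∘L prH m n‖ := hsub
    _ ≤ (4 * (m + n)) * Real.sqrt (tiV f P X) *
          (‖ζ‖ * (3 / 2 * ‖fderiv ℝ Ψ y‖ + κ * ‖Ψ y‖)) := by
        gcongr
        push_cast
        have : (0 : ℝ) ≤ n := Nat.cast_nonneg n
        linarith
    _ = _ := by ring

/-! ### glue: the field of the weak Jacobi estimate -/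

/-- **(J)** `tr (P D(fldJ f w)) = - ⟨mss f, w⟩ - ⟨ζ, LL f w⟩ + O(e (|Dw| + κ|w|) + sqrt e |ζ| (|D²w| + κ|Dw| + κ|w|))`. -/
theorem trace_fldJ (m n : ℕ) : ∃ C : ℝ, 0 < C ∧ ∀ (κ : ℝ) (f w : E m → E n), Geo κ f → ContDiff ℝ 2 w →
    ∀ P : E (m + n) →L[ℝ] E (m + n), IsProj m P → ∀ X : E (m + n),
    |tdiv P (fderiv ℝ (fldJ f w) X) + inner ℝ (mssOp f (prH m n X)) (w (prH m n X))
        + inner ℝ (zet f X) (LL f w (prH m n X))|
      ≤ C * (tiV f P X * (‖fderiv ℝ w (prH m n X)‖ + κ * ‖w (prH m n X)‖)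
          + Real.sqrt (tiV f P X) * ‖zet f X‖ *
            (‖D2 w (prH m n X)‖ + κ * ‖fderiv ℝ w (prH m n X)‖ + κ * ‖w (prH m n X)‖)) := by
  have hmn : (0 : ℝ) ≤ (m : ℝ) + n := by positivity
  refine ⟨3 + 64 * (m + n), by positivity, fun κ f w hf hw P hP X => ?_⟩
  have hw1 : ContDiff ℝ 1 w := hw.of_le (by norm_num)
  have hΦ := contDiff_PhiW hf.c3 hw
  have hV := trace_fldV hf hw1 hP X
  have hH := trace_fldH hf hΦ hP X
  obtain ⟨hn1, hn2⟩ := norm_PhiW_le hf hw (prH m n X)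
  have hκ := hf.nonneg
  have hκ1 := hf.le_one
  have he := tiV_nonneg f hP X
  have hsq := Real.sqrt_nonneg (tiV f P X)
  have hd : fderiv ℝ (fldJ f w) X = fderiv ℝ (fldV f w) X - fderiv ℝ (fldH f (PhiW f w)) X :=
    (((contDiff_fldV hf.c2 hw1).differentiable one_ne_zero X).hasFDerivAt.sub
      ((contDiff_fldH hf.c2 hΦ).differentiable one_ne_zero X).hasFDerivAt).fderiv
  have ht : tdiv P (fderiv ℝ (fldJ f w) X)
      = tdiv P (fderiv ℝ (fldV f w) X) - tdiv P (fderiv ℝ (fldH f (PhiW f w)) X) := by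
    rw [hd, tdiv_eq_trc, tdiv_eq_trc, tdiv_eq_trc, ContinuousLinearMap.comp_sub, trc_sub]
  rw [ht]
  set y := prH m n X with hy
  set a := tdiv P (fderiv ℝ (fldV f w) X)
  set b := tdiv P (fderiv ℝ (fldH f (PhiW f w)) X)
  set e := tiV f P X
  set z := ‖zet f X‖ with hz
  have hz0 : 0 ≤ z := norm_nonneg _
  set d0 := ‖w y‖ with hd0
  set d1 := ‖fderiv ℝ w y‖ with hd1
  set d2 := ‖D2 w y‖ with hd2
  have p0 : 0 ≤ d0 := norm_nonneg _
  have p1 : 0 ≤ d1 := norm_nonneg _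
  have p2 : 0 ≤ d2 := norm_nonneg (D2 w y)
  have hLL : LL f w y = dvg (PhiW f w) y + PhiW f w y (lamV f y) := rfl
  rw [hLL]
  have hΦb : 3 / 2 * ‖fderiv ℝ (PhiW f w) y‖ + κ * ‖PhiW f w y‖ ≤ 16 * (d2 + κ * d1 + κ * d0) := by
    have k1 : κ * ‖PhiW f w y‖ ≤ κ * (d1 + κ * d0) := by gcongr
    have k2 : κ * (κ * d0) ≤ κ * d0 := by
      have : κ * d0 ≤ 1 * d0 := by gcongr
      nlinarith
    have k3 := mul_nonneg hκ p0
    have k4 := mul_nonneg hκ p1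
    nlinarith
  calc _ = |(a + inner ℝ (mssOp f y) (w y) - hs (bet (fderiv ℝ f y) P) (PhiW f w y))
          - (b - hs (bet (fderiv ℝ f y) P) (PhiW f w y)
            - inner ℝ (zet f X) (dvg (PhiW f w) y + PhiW f w y (lamV f y)))| := by
        congr 1; ring
    _ ≤ e * (3 * d1 + 2 * κ * d0) + 4 * (m + n) * Real.sqrt e * z *
          (3 / 2 * ‖fderiv ℝ (PhiW f w) y‖ + κ * ‖PhiW f w y‖) :=
        (abs_sub _ _).trans (add_le_add hV hH)
    _ ≤ e * (3 * (d1 + κ * d0)) + 4 * (m + n) * Real.sqrt e * z *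
          (16 * (d2 + κ * d1 + κ * d0)) := by
        gcongr
        nlinarith [mul_nonneg hκ p0]
    _ ≤ (3 + 64 * (m + n)) * (e * (d1 + κ * d0) + Real.sqrt e * z * (d2 + κ * d1 + κ * d0)) := by
        have q1 : 0 ≤ e * (d1 + κ * d0) := by positivity
        have q2 : 0 ≤ Real.sqrt e * z * (d2 + κ * d1 + κ * d0) := by positivity
        nlinarith [mul_nonneg hmn q1, mul_nonneg hmn q2]

/-! ### leaf L-Fit-Fits-AC : the Caccioppoli field -/

/-- derivative of the Caccioppoli field. -/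
theorem hasFDerivAt_fldC {f : E m → E n} {χ : E m → ℝ} (hf : ContDiff ℝ 2 f) (hχ : ContDiff ℝ 1 χ)
    (X : E (m + n)) :
    HasFDerivAt (fldC f χ)
      (χ (prH m n X) ^ 2 • (Pv f (prH m n X)
          - ((fderiv ℝ (Ph f) (prH m n X)).flip (inV m n (zet f X))) ∘L prH m n)
        + (2 * χ (prH m n X)) • ((fderiv ℝ χ (prH m n X) ∘L prH m n).smulRight
            (Pv f (prH m n X) (inV m n (zet f X))))) X := by
  have h1 : HasFDerivAt (fun X => χ (prH m n X)) (fderiv ℝ χ (prH m n X) ∘L prH m n) X :=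
    (hχ.differentiable one_ne_zero (prH m n X)).hasFDerivAt.comp X (prH m n).hasFDerivAt
  have h2 := h1.pow 2
  have hV : HasFDerivAt (fun X => Pv f (prH m n X)) _ X :=
    (hasFDerivAt_Pv hf (prH m n X)).comp X (prH m n).hasFDerivAt
  have hz : HasFDerivAt (fun X => inV m n (zet f X)) _ X :=
    (inV m n).hasFDerivAt.comp X (hasFDerivAt_zet (hf.of_le (by norm_num)) X)
  have h := h2.smul (hV.clm_apply hz)
  have e : Pv f (prH m n X) ∘L inV m n ∘L adj (dN (fderiv ℝ f (prH m n X))) = Pv f (prH m n X) :=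
    compl_PhA_comp_inV_adjoint_dN _
  rw [e] at h
  refine h.congr_fderiv ?_
  ext1 b
  simp only [add_apply, sub_apply, smul_apply, ContinuousLinearMap.comp_apply,
    ContinuousLinearMap.flip_apply, ContinuousLinearMap.smulRight_apply, neg_apply]
  simp only [smul_eq_mul, smul_smul, sub_eq_add_neg]
  norm_num

theorem trc_proj_comp_pH {T : E m →L[ℝ] E (m + n)} {Tp pH : E (m + n) →L[ℝ] E m}
    {H : E (m + n) →L[ℝ] E (m + n)} (M : E m →L[ℝ] E (m + n)) (hH : H = T ∘L Tp)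
    (hpT : pH ∘L T = 𝟙) : trc (H ∘L (M ∘L pH)) = trc (Tp ∘L M) := by
  calc trc (H ∘L (M ∘L pH)) = trc (T ∘L (Tp ∘L M ∘L pH)) := by
        rw [hH, ContinuousLinearMap.comp_assoc]
    _ = trc ((Tp ∘L M ∘L pH) ∘L T) := trc_comp_comm _ _
    _ = trc ((Tp ∘L M) ∘L (pH ∘L T)) := by simp only [ContinuousLinearMap.comp_assoc]
    _ = trc (Tp ∘L M) := by rw [hpT, ContinuousLinearMap.comp_id]

/-- `T⁺ Ṗ_α v = G S_{V v} α`. -/
theorem dFp_dPh_apply {f : E m → E n} (hf : ContDiff ℝ 2 f) (y α : E m) (v : E (m + n)) :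
    dFp (fderiv ℝ f y) (dPh f y α v) = (gmat (fderiv ℝ f y)).inverse (Sop f y (Pv f y v) α) := by
  rw [dPh_eq hf, add_apply, map_add]
  have h1 : dFp (fderiv ℝ f y) (Zop f y α v) = 0 := by
    have : dFp (fderiv ℝ f y) (Zop f y α v)
        = (dFp (fderiv ℝ f y) ∘L Pv f y) ((Wop f y α ∘L dFp (fderiv ℝ f y)) v) := rfl
    rw [this, dFp_comp_Pv, zero_apply]
  have h2 : adj (Zop f y α) = adj (dFp (fderiv ℝ f y)) ∘L adj (Wop f y α) ∘L Pv f y := by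
    unfold Zop
    rw [ContinuousLinearMap.adjoint_comp, ContinuousLinearMap.adjoint_comp, adjoint_Pv,
      ContinuousLinearMap.comp_assoc]
  rw [h1, zero_add, h2, Sop_eq_adjoint_Wop, ← dFp_comp_adjoint_dFp]
  rfl

theorem trc_Ph_dPh {f : E m → E n} (hf : ContDiff ℝ 2 f) (y : E m) (v : E (m + n)) :
    trc (PhA (fderiv ℝ f y) ∘L (((fderiv ℝ (Ph f) y).flip v) ∘L prH m n)) = inner ℝ (HS f y) v := by
  rw [trc_proj_comp_pH _ (PhA_eq _) (prH_comp_dF _), ← trc_Sop_comp,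
    trc_comp_comm (Sop f y (Pv f y v))]
  refine congrArg trc ?_
  ext1 α
  exact dFp_dPh_apply hf y α v

/-- **(C)** `tr (P D(χ² V inV ζ)) = χ² e - χ² ⟨H_S, inV ζ⟩ + O(sqrt e |ζ| (|χ| |Dχ| + κ χ²))`. -/
theorem trace_fldC {κ : ℝ} {f : E m → E n} {χ : E m → ℝ} (hf : Geo κ f) (hχ : ContDiff ℝ 1 χ)
    {P : E (m + n) →L[ℝ] E (m + n)} (hP : IsProj m P) (X : E (m + n)) :
    |tdiv P (fderiv ℝ (fldC f χ) X) - χ (prH m n X) ^ 2 * tiV f P X
        + χ (prH m n X) ^ 2 * inner ℝ (HS f (prH m n X)) (inV m n (zet f X))|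
      ≤ Real.sqrt (tiV f P X) * ‖zet f X‖ *
          (2 * |χ (prH m n X)| * ‖fderiv ℝ χ (prH m n X)‖
            + 12 * (m + n) * κ * χ (prH m n X) ^ 2) := by
  set y := prH m n X with hy
  set A := fderiv ℝ f y with hA
  set ζ := zet f X with hζ
  set c := χ y with hc
  set Q := ((fderiv ℝ (Ph f) y).flip (inV m n ζ)) ∘L prH m n with hQ
  have heq : tiV f P X = tdiv P (𝟙 - PhA A) := rfl
  have hκ := hf.nonneg
  have hs0 := Real.sqrt_nonneg (tiV f P X)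
  have hprH : ‖prH m n‖ ≤ 1 :=
    ContinuousLinearMap.opNorm_le_bound _ zero_le_one fun v => by
      rw [one_mul]; exact norm_prH_le v
  -- the cut-off term
  have h1 : |trc (P ∘L ((fderiv ℝ χ y ∘L prH m n).smulRight (Pv f y (inV m n ζ))))|
      ≤ ‖fderiv ℝ χ y‖ * (Real.sqrt (tiV f P X) * ‖ζ‖) := by
    have e1 : P ∘L ((fderiv ℝ χ y ∘L prH m n).smulRight (Pv f y (inV m n ζ)))
        = (fderiv ℝ χ y ∘L prH m n).smulRight (P (Pv f y (inV m n ζ))) := by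
      ext1 b
      simp only [ContinuousLinearMap.comp_apply, ContinuousLinearMap.smulRight_apply, map_smul]
    rw [e1, Base.Exit.trc_smulRight, ContinuousLinearMap.comp_apply, ← Real.norm_eq_abs]
    have e2 : ‖P (Pv f y (inV m n ζ))‖ ≤ Real.sqrt (tiV f P X) * ‖ζ‖ := by
      have := (P ∘L (𝟙 - PhA A)).le_opNorm (inV m n ζ)
      rw [norm_inV] at this
      refine this.trans ?_
      gcongr
      rw [heq]
      exact norm_comp_compl_le (isProj_PhA A) hP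
    calc ‖fderiv ℝ χ y (prH m n (P (Pv f y (inV m n ζ))))‖
        ≤ ‖fderiv ℝ χ y‖ * ‖prH m n (P (Pv f y (inV m n ζ)))‖ := (fderiv ℝ χ y).le_opNorm _
      _ ≤ ‖fderiv ℝ χ y‖ * (Real.sqrt (tiV f P X) * ‖ζ‖) := by
          gcongr
          exact (norm_prH_le _).trans e2
  -- the curvature term
  have h2 : trc (P ∘L Q) = inner ℝ (HS f y) (inV m n ζ) + trc ((P - PhA A) ∘L Q) := by
    rw [ContinuousLinearMap.sub_comp, trc_sub, hQ, trc_Ph_dPh hf.c2]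
    ring
  have hQn : ‖Q‖ ≤ 3 * κ * ‖ζ‖ := by
    have e1 : ‖(fderiv ℝ (Ph f) y).flip (inV m n ζ)‖ ≤ 3 * κ * ‖ζ‖ := by
      refine ContinuousLinearMap.opNorm_le_bound _ (by positivity) fun α => ?_
      rw [ContinuousLinearMap.flip_apply]
      calc ‖fderiv ℝ (Ph f) y α (inV m n ζ)‖ ≤ ‖dPh f y α‖ * ‖inV m n ζ‖ :=
            (dPh f y α).le_opNorm _
        _ ≤ (3 * κ * ‖α‖) * ‖ζ‖ := by
            rw [norm_inV]
            gcongr
            exact hf.norm_dPh_le y α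
        _ = 3 * κ * ‖ζ‖ * ‖α‖ := by ring
    have := norm_comp_le' _ _ e1 hprH
    rw [mul_one] at this
    exact this
  have h3 := abs_trc_sub_comp_le (isProj_PhA A) hP Q
  rw [← heq] at h3
  have h4 : |trc ((P - PhA A) ∘L Q)| ≤ 4 * (m + n) * Real.sqrt (tiV f P X) * (3 * κ * ‖ζ‖) := by
    refine h3.trans ?_
    gcongr
    push_cast
    have : (0 : ℝ) ≤ n := Nat.cast_nonneg n
    linarith
  have h5 : tdiv P (fderiv ℝ (fldC f χ) X)
      = c ^ 2 * (tiV f P X - trc (P ∘L Q))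
        + 2 * c * trc (P ∘L ((fderiv ℝ χ y ∘L prH m n).smulRight (Pv f y (inV m n ζ)))) := by
    rw [(hasFDerivAt_fldC hf.c2 hχ X).fderiv, tdiv_eq_trc, ContinuousLinearMap.comp_add,
      ContinuousLinearMap.comp_smul, ContinuousLinearMap.comp_smul, ContinuousLinearMap.comp_sub,
      trc_add, trc_smul, trc_smul, trc_sub]
    rfl
  rw [h5, h2]
  calc _ = |2 * c * trc (P ∘L ((fderiv ℝ χ y ∘L prH m n).smulRight (Pv f y (inV m n ζ))))
          - c ^ 2 * trc ((P - PhA A) ∘L Q)| := by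
        congr 1; ring
    _ ≤ 2 * |c| * (‖fderiv ℝ χ y‖ * (Real.sqrt (tiV f P X) * ‖ζ‖))
          + c ^ 2 * (4 * (m + n) * Real.sqrt (tiV f P X) * (3 * κ * ‖ζ‖)) := by
        refine (abs_sub _ _).trans (add_le_add ?_ ?_)
        · rw [abs_mul, abs_mul, abs_of_pos (by norm_num : (0 : ℝ) < 2)]
          gcongr
        · rw [abs_mul, abs_of_nonneg (sq_nonneg c)]
          gcongr
    _ = _ := by ring

end Claimed.Agent.R322.Fit.Fits
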