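import Claimed.Agent.R322.Fit.Fits.Step
import Claimed.Agent.R322.Fit.Corr.Main

/-!
# Row 322, Fit/Fits/Core: one correction step   (architect helper118)

`core_step`: at the centre `x` and the scale `ℓ`, an old fit `f` of relative height `a` over `ball x (128 ℓ)` is corrected by `v`, `vAl s ℓ v ≤ C a ℓ`, such that `f + v` is almost minimal
on `ball x (80 ℓ)` with a constant INDEPENDENT of the constant `K₁` of the old fit, has first moment `O(a² ℓ^(m+1))` on `ball x (70 ℓ)`, and carries the normal cylinder over `ball 0 72`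
(units of `B_ℓ(x)`) with `D + |M| ≤ C a²` and the quadratic mass comparison.

`core_step` = `core_corr` (A) + `newton_step` + `core_geo` (B).

(A) `core_corr` (glue leaf L-Fit-Fits-CA).  Constants: `(J₁, hc₁)`, `(κ₁, σ₁, C₁)` from `energy_phys m n Q hm hn hQ 124` (own height `hc₁`), `Cj` from `jac_bound`, `(σc, Cc)` from
`Corr.corr m n s Q hm hQ hs 81 120`, `M = (15/4)^m (Q+1) kap m 120^m`.  `s₁ = max (3m+9) J₁`, `σ₀ = σ₁`, `C = Cc ((Cj + M + 3 C₁ + 1) + (3 C₁ + 1) (2 M + Cj + 3 C₁ + 2))`.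
 (0) `κ' = (2π)^s κ`: `VB.geo`, `VB.refGraph_rs` (`RefGraph.mono` to `J₁`), `VB.sup0`, `VB.sup1`.
 (1) `curv_of_amin` with `b = K₁ a²`, `R = 128 ℓ`; `sqrt m (3+2π) K₁ a ≤ 1` gives `η = sqrt m (3+2π) K₁ a² ≤ a`, also `K₁ a² ≤ η`.
 (2) `jac_bound` : `Corr.JacB (muc W 300 1) f x (120 ℓ) ℓ (Cj a² ℓ^m / ℓ)`.
 (3) `energy_phys` with `r = 124`, `u = rs x ℓ f` : `MassC W 300 1 Q f x (124 ℓ) (C₁ (a² + η²) ℓ^m) (C₁ a ℓ^(m+1))`; `Corr.MassB.of_two` : `σ = C₁ (a² + η²) + C₁ a ≤ 3 C₁ a`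
     (`MassB` is monotone in `σ`: repeat the two lines of `WMass.mono`).
 (4) `mass_ovr` with `ρ = 120 ℓ`; a.e. height from `muc_ae` and `StepIn.height`; slopes: `sAl_mono_scale`, `VB.slope`.
 (5) `Corr.corr` with `h = a ℓ`, `ξ = K₁ a²`, `τ = a² / ℓ`:  `M h + Bq + ℓ ξ ≤ (2M + Cj + 3C₁ + 2) a ℓ`, `Bq ≤ (Cj + M + 3C₁ + 1) a² ℓ` (use `K₁ a ≤ 1`, `a ≤ 1`).
(B) `core_geo` (glue leaf L-Fit-Fits-CB).  `(J, hc₀)`, `(κ₂, σ₂, C₂)` from `energy_phys m n Q hm hn hQ 72`, `Cs` from `scl_facts m n J`; `κ₀ = κ₂ / (Cs sqrt m (3+2π))`-type, `u = scl x ℓ f'`,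
`κ_e = Cs κ`, `η = sqrt m (3+2π) b`, curvature by `curv_of_amin` (`R = 80 ℓ ≥ 76 ℓ`), `C = C₂ (1 + m (3+2π)²)`.
-/

set_option autoImplicit false

open scoped ENNReal ContDiff Topology RealInnerProductSpace
open MeasureTheory Filter

namespace Claimed.Agent.R322.Fit.Fits

open Claimed.Agent.R322.Tube Claimed.Agent.R322.Freq

variable {m n : ℕ}

/-- smallness for `m₀ → 0`. -/
theorem fm_ev_small {F : ℝ → ℝ} (hF : Continuous F) (h0 : F 0 = 0) {t : ℝ} (ht : 0 < t) :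
    ∀ᶠ m₀ in 𝓝[>] (0 : ℝ), F m₀ ≤ t := by
  have h1 : Tendsto F (𝓝 0) (𝓝 0) := by
    have := hF.tendsto 0
    rwa [h0] at this
  exact (h1.mono_left nhdsWithin_le_nhds).eventually (Iic_mem_nhds ht)

/-! ### monotonicity of the mass statements -/

theorem WMass.mono {W : SIV m n} {R t : ℝ} {Q : ℕ} {x : E m} {r r' ℓ σ σ' : ℝ}
    (h : WMass W R t Q x r ℓ σ) (hr : r' ≤ r) (hσ : σ ≤ σ') (hℓ : 0 ≤ ℓ) :
    WMass W R t Q x r' ℓ σ' := by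
  intro η A hη hs h0 h1
  have hA : 0 ≤ A := (abs_nonneg _).trans (h0 0)
  refine (h η A hη (hs.trans (Metric.ball_subset_ball hr)) h0 h1).trans ?_
  have : 0 ≤ ℓ ^ m := by positivity
  gcongr

theorem WMass.half {W : SIV m n} {R t : ℝ} {Q : ℕ} {x : E m} {r ℓ σ : ℝ}
    (h : WMass W R t Q x r (2 * ℓ) σ) : WMass W R t Q x r ℓ (2 ^ (m + 1) * σ) := by
  intro η A hη hs h0 h1
  have hA : 0 ≤ A := (abs_nonneg _).trans (h0 0)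
  refine (h η (2 * A) hη hs (fun y => (h0 y).trans (by linarith)) fun y => ?_).trans
    (le_of_eq ?_)
  · have := h1 y
    linarith
  · rw [mul_pow, pow_succ]
    ring

theorem MassC.monoR {W : SIV m n} {R t : ℝ} {Q : ℕ} {f : E m → E n} {x : E m}
    {r r' c₁ c₁' c₂ c₂' : ℝ} (h : MassC W R t Q f x r c₁ c₂) (hr : r' ≤ r) (h1 : c₁ ≤ c₁')
    (h2 : c₂ ≤ c₂') : MassC W R t Q f x r' c₁' c₂' := by
  intro G A₀ A₁ hG hs h0 hd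
  have hA₀ : 0 ≤ A₀ := (abs_nonneg _).trans (h0 0)
  have hA₁ : 0 ≤ A₁ := (norm_nonneg _).trans (hd 0)
  refine (h G A₀ A₁ hG (hs.trans (Metric.ball_subset_ball hr)) h0 hd).trans ?_
  gcongr

theorem Hgt.mono {W : SIV m n} {R t : ℝ} {f : E m → E n} {x : E m} {r r' h h' : ℝ}
    (H : Hgt W R t f x r h) (hr : r' ≤ r) (hh : h ≤ h') : Hgt W R t f x r' h' :=
  fun X hX hZ hx => (H X hX hZ (hx.trans_le hr)).trans hh

/-- input of one correction step. -/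
structure StepIn (W : SIV m n) (Q s : ℕ) (x : E m) (ℓ a κ K₁ σ : ℝ) (f : E m → E n) : Prop where
  reg : VB s 1 f κ
  amin : ∃ Ξ : E m → E n, VB (s - 2) ℓ Ξ (K₁ * a ^ 2 / ℓ) ∧
    ∀ y ∈ Metric.ball x (128 * ℓ), mssOp f y = Ξ y
  height : Hgt W 300 1 f x (128 * ℓ) (a * ℓ)
  wmass : WMass W 300 1 Q x (128 * ℓ) ℓ σ

/-- output of one correction step (`f'` is the new fit). -/
structure StepOut (W : SIV m n) (Q s q : ℕ) (hc : ℝ) (x : E m) (ℓ : ℝ) (hℓ : 0 < ℓ) (a C : ℝ)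
    (f' : E m → E n) : Prop where
  amin : ∃ Ξ : E m → E n, VB (s - 2) ℓ Ξ (C * a ^ 2 / ℓ) ∧
    ∀ y ∈ Metric.ball x (80 * ℓ), mssOp f' y = Ξ y
  height : Hgt W 300 1 f' x (80 * ℓ) (C * a * ℓ)
  moment : ∀ (η : E m → E n) (A : ℝ), ContDiff ℝ q η → tsupport η ⊆ Metric.ball x (70 * ℓ) →
    (∀ i : ℕ, i ≤ q → ∀ y, ℓ ^ i * ‖iteratedFDeriv ℝ i η y‖ ≤ A) →
    |∫ X, ⟪zet f' X, η (prH m n X)⟫ ∂(muc W 300 1)| ≤ C * A * a ^ 2 * ℓ ^ (m + 1)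
  massC : MassC W 300 1 Q f' x (72 * ℓ) (C * a ^ 2 * ℓ ^ m) (C * a * ℓ ^ (m + 1))
  energy : ∃ N : NCyl m n, N.W = Wp W x ℓ hℓ f' ∧ N.u = scl x ℓ f' ∧ N.Ω = Metric.ball 0 72 ∧
    N.h = hc ∧ N.Q = Q ∧ (N.Dm + N.Mabs) (Metric.ball 0 72) ≤ ENNReal.ofReal (C * a ^ 2)

/-- arithmetic of the bounds of `Corr.corr`. -/
theorem core_arith {M Cj C₁ K₁ a ℓ : ℝ} (m : ℕ) (hM : 0 ≤ M) (hCj : 0 ≤ Cj) (hC₁ : 0 ≤ C₁)
    (hK₁ : 0 ≤ K₁) (ha : 0 < a) (ha1 : a ≤ 1) (hKa : K₁ * a ≤ 1) (hℓ : 0 < ℓ) :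
    Cj * a ^ 2 * ℓ ^ m / ℓ * ℓ ^ 2 / ℓ ^ m + (M * (a * ℓ) / ℓ + 3 * C₁ * a) * (K₁ * a ^ 2) * ℓ
        + ℓ ^ 2 * (a ^ 2 / ℓ) ≤ (Cj + M + 3 * C₁ + 1) * a ^ 2 * ℓ ∧
    M * (a * ℓ) + (Cj * a ^ 2 * ℓ ^ m / ℓ * ℓ ^ 2 / ℓ ^ m
        + (M * (a * ℓ) / ℓ + 3 * C₁ * a) * (K₁ * a ^ 2) * ℓ + ℓ ^ 2 * (a ^ 2 / ℓ)) + ℓ * (K₁ * a ^ 2)
      ≤ (2 * M + Cj + 3 * C₁ + 2) * a * ℓ := by
  have e1 : Cj * a ^ 2 * ℓ ^ m / ℓ * ℓ ^ 2 / ℓ ^ m = Cj * a ^ 2 * ℓ := by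
    have : ℓ ^ m ≠ 0 := (pow_pos hℓ m).ne'
    field_simp
  have e2 : (M * (a * ℓ) / ℓ + 3 * C₁ * a) * (K₁ * a ^ 2) * ℓ
      = (M + 3 * C₁) * a ^ 2 * ℓ * (K₁ * a) := by
    field_simp
  have e3 : ℓ ^ 2 * (a ^ 2 / ℓ) = a ^ 2 * ℓ := by field_simp
  have p1 : 0 ≤ (M + 3 * C₁) * a ^ 2 * ℓ := by positivity
  have e4 : (M + 3 * C₁) * a ^ 2 * ℓ * (K₁ * a) ≤ (M + 3 * C₁) * a ^ 2 * ℓ :=
    mul_le_of_le_one_right p1 hKa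
  have first : Cj * a ^ 2 * ℓ ^ m / ℓ * ℓ ^ 2 / ℓ ^ m
      + (M * (a * ℓ) / ℓ + 3 * C₁ * a) * (K₁ * a ^ 2) * ℓ + ℓ ^ 2 * (a ^ 2 / ℓ)
      ≤ (Cj + M + 3 * C₁ + 1) * a ^ 2 * ℓ := by
    rw [e1, e2, e3]
    have : (Cj + M + 3 * C₁ + 1) * a ^ 2 * ℓ
        = Cj * a ^ 2 * ℓ + (M + 3 * C₁) * a ^ 2 * ℓ + a ^ 2 * ℓ := by ring
    linarith
  refine ⟨first, ?_⟩
  have p2 : 0 ≤ (Cj + M + 3 * C₁ + 1) * a * ℓ := by positivity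
  have e5 : (Cj + M + 3 * C₁ + 1) * a ^ 2 * ℓ ≤ (Cj + M + 3 * C₁ + 1) * a * ℓ := by
    calc (Cj + M + 3 * C₁ + 1) * a ^ 2 * ℓ = (Cj + M + 3 * C₁ + 1) * a * ℓ * a := by ring
      _ ≤ _ := mul_le_of_le_one_right p2 ha1
  have e6 : ℓ * (K₁ * a ^ 2) ≤ a * ℓ := by
    calc ℓ * (K₁ * a ^ 2) = a * ℓ * (K₁ * a) := by ring
      _ ≤ _ := mul_le_of_le_one_right (by positivity) hKa
  have : (2 * M + Cj + 3 * C₁ + 2) * a * ℓ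
      = M * (a * ℓ) + (Cj + M + 3 * C₁ + 1) * a * ℓ + a * ℓ := by ring
  linarith

set_option maxHeartbeats 1000000 in
/-- **(A) the correction**: the analytic core applied to a good varifold. -/
theorem core_corr (m n Q : ℕ) (hm : 1 ≤ m) (hn : 1 ≤ n) (hQ : 1 ≤ Q) :
    ∃ s₁ : ℕ, 3 * m + 9 ≤ s₁ ∧ ∀ s : ℕ, s₁ ≤ s →
      ∃ C σ₀ : ℝ, 0 ≤ C ∧ 0 < σ₀ ∧ ∀ K₁ : ℝ, 0 ≤ K₁ → ∃ a₀ : ℝ, 0 < a₀ ∧
      ∀ (W : SIV m n) (eg : ℝ) (x : E m) (ℓ a κ : ℝ) (f Ξ : E m → E n),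
        IsGood W Q eg → 0 ≤ eg → eg ≤ 1 / 2 → ‖x‖ < 5 → 0 < ℓ → ℓ ≤ 1 → 0 < a → a ≤ a₀ → 0 ≤ κ →
        κ ≤ a₀ → VB s 1 f κ → VB (s - 2) ℓ Ξ (K₁ * a ^ 2 / ℓ) →
        (∀ y ∈ Metric.ball x (128 * ℓ), mssOp f y = Ξ y) →
        Hgt W 300 1 f x (128 * ℓ) (a * ℓ) → WMass W 300 1 Q x (128 * ℓ) ℓ σ₀ →
        ∃ v ρ : E m → E n, VB s ℓ v (C * a * ℓ) ∧ VB (s - 2) ℓ ρ (a ^ 2 / ℓ) ∧
          (∀ y ∈ Metric.ball x (81 * ℓ), (pairCoef f f).op v y = - Ξ y + ρ y) ∧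
          ∀ (η : E m → E n) (A : ℝ), ContDiff ℝ (2 * m + 5 : ℕ) η →
            tsupport η ⊆ Metric.ball x (81 * ℓ) →
            (∀ i : ℕ, i ≤ 2 * m + 5 → ∀ y, ℓ ^ i * ‖iteratedFDeriv ℝ i η y‖ ≤ A) →
            |∫ X, ⟪zet f X - v (prH m n X), η (prH m n X)⟫ ∂(muc W 300 1)|
              ≤ C * A * a ^ 2 * ℓ ^ (m + 1) := by
  obtain ⟨J₁, hc₁, hJ₁, hhc₁, HE⟩ := energy_phys m n Q hm hn hQ 124 (by norm_num) (by norm_num)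
  obtain ⟨κ₁, σ₁, C₁, hκ₁, hσ₁, hC₁, HE⟩ := HE hc₁ hhc₁ le_rfl
  obtain ⟨Cj, hCj, HJ⟩ := jac_bound m n Q hm
  refine ⟨max (3 * m + 9) J₁, le_max_left _ _, ?_⟩
  intro s hs
  have hs9 : 3 * m + 9 ≤ s := (le_max_left _ _).trans hs
  have hsJ : J₁ ≤ s := (le_max_right _ _).trans hs
  obtain ⟨σc, Cc, hσc, hCc, HC⟩ := Corr.corr m n s Q hm hQ hs9 81 120 (by norm_num) (by norm_num)
  obtain ⟨M, hM⟩ : ∃ M : ℝ, M = (15 / 4) ^ m * (Q + 1) * kap m * 120 ^ m := ⟨_, rfl⟩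
  have hM0 : 0 ≤ M := by
    rw [hM]
    have := kap_pos m
    positivity
  obtain ⟨B1, hB1⟩ : ∃ B1 : ℝ, B1 = 2 * M + Cj + 3 * C₁ + 2 := ⟨_, rfl⟩
  obtain ⟨B2, hB2⟩ : ∃ B2 : ℝ, B2 = Cj + M + 3 * C₁ + 1 := ⟨_, rfl⟩
  have hB10 : 0 ≤ B1 := by rw [hB1]; positivity
  have hB20 : 0 ≤ B2 := by rw [hB2]; positivity
  refine ⟨Cc * (B2 + (3 * C₁ + 1) * B1), σ₁, by positivity, hσ₁, ?_⟩
  intro K₁ hK₁
  obtain ⟨T, hT⟩ : ∃ T : ℝ, T = Real.sqrt m * (3 + 2 * Real.pi) := ⟨_, rfl⟩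
  have hm1 : (1 : ℝ) ≤ Real.sqrt m := by
    rw [Real.one_le_sqrt]
    exact_mod_cast hm
  have hT1 : 1 ≤ T := by
    rw [hT]
    have : (1 : ℝ) ≤ 3 + 2 * Real.pi := by nlinarith [Real.pi_gt_three]
    calc (1 : ℝ) = 1 * 1 := by ring
      _ ≤ Real.sqrt m * (3 + 2 * Real.pi) := mul_le_mul hm1 this zero_le_one (by positivity)
  have hpi : 0 < 2 * Real.pi := by positivity
  have e1 : ∀ᶠ z in 𝓝[>] (0 : ℝ), z ≤ min 1 κ₁ := fm_ev_small continuous_id rfl (by positivity)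
  have e2 : ∀ᶠ z in 𝓝[>] (0 : ℝ), T * K₁ * z ≤ 1 := fm_ev_small (by fun_prop) (by simp) one_pos
  have e3 : ∀ᶠ z in 𝓝[>] (0 : ℝ), (2 * Real.pi) ^ s * z ≤ min (1 / 8) κ₁ :=
    fm_ev_small (by fun_prop) (by simp) (by positivity)
  have e4 : ∀ᶠ z in 𝓝[>] (0 : ℝ), 2 * Real.pi * m * z ≤ σc :=
    fm_ev_small (by fun_prop) (by simp) hσc
  obtain ⟨a₀, ⟨z1, z2, z3, z4⟩, ha₀⟩ :=
    ((e1.and (e2.and (e3.and e4))).and self_mem_nhdsWithin).exists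
  have ha₀ : 0 < a₀ := ha₀
  refine ⟨a₀, ha₀, ?_⟩
  intro W eg x ℓ a κ f Ξ hW h0 heg hx hℓ hℓ1 ha haa hκ hκa hreg hΞ hΞeq hhgt hwm
  have ha1 : a ≤ 1 := haa.trans (z1.trans (min_le_left _ _))
  have haκ₁ : a ≤ κ₁ := haa.trans (z1.trans (min_le_right _ _))
  have hTK : 0 ≤ T * K₁ := by positivity
  have hTKa : T * K₁ * a ≤ 1 := (mul_le_mul_of_nonneg_left haa hTK).trans z2
  have hKa : K₁ * a ≤ 1 := by
    have : K₁ * a ≤ T * (K₁ * a) := le_mul_of_one_le_left (by positivity) hT1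
    calc K₁ * a ≤ T * (K₁ * a) := this
      _ = T * K₁ * a := by ring
      _ ≤ 1 := hTKa
  have hP : 0 < (2 * Real.pi) ^ s := by positivity
  obtain ⟨κ', hκ'⟩ : ∃ κ' : ℝ, κ' = (2 * Real.pi) ^ s * κ := ⟨_, rfl⟩
  have hκ'le : κ' ≤ min (1 / 8) κ₁ := by
    rw [hκ']
    exact (mul_le_mul_of_nonneg_left hκa hP.le).trans z3
  have hκ'8 : κ' ≤ 1 / 8 := hκ'le.trans (min_le_left _ _)
  have hκ'κ₁ : κ' ≤ κ₁ := hκ'le.trans (min_le_right _ _)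
  have hκκ' : κ ≤ κ' := by
    rw [hκ']
    exact le_mul_of_one_le_left hκ (one_le_pow₀ (by nlinarith [Real.pi_gt_three]))
  have hgeo : Geo κ' f := by
    rw [hκ']
    exact hreg.geo (by omega) hκ (by rw [← hκ']; linarith)
  have href : RefGraph J₁ κ' κ' (rs x ℓ f) := by
    rw [hκ']
    exact (hreg.refGraph_rs (by omega) hκ x hℓ hℓ1).mono hsJ le_rfl le_rfl
  have hsup : ∀ y, ‖f y‖ ≤ κ' := fun y => (hreg.sup0 zero_le_one hκ y).trans hκκ'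
  have hsl : ∀ y, ‖fderiv ℝ f y‖ ≤ κ' := by
    intro y
    have h1 := hreg.sup one_pos hκ (show 1 ≤ s by omega) y
    rw [one_pow, one_mul, norm_iteratedFDeriv_one] at h1
    refine h1.trans ?_
    rw [hκ']
    exact mul_le_mul_of_nonneg_right
      (pow_le_pow_right₀ (by nlinarith [Real.pi_gt_three]) (by omega)) hκ
  have hb0 : 0 ≤ K₁ * a ^ 2 := by positivity
  have hcurv := curv_of_amin (s := s) (by omega) hgeo hℓ hℓ1 hb0 hΞ hΞeq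
  obtain ⟨η, hη⟩ : ∃ η : ℝ, η = T * (K₁ * a ^ 2) := ⟨_, rfl⟩
  have hη0 : 0 ≤ η := by rw [hη]; positivity
  have hηa : η ≤ a := by
    rw [hη]
    calc T * (K₁ * a ^ 2) = a * (T * K₁ * a) := by ring
      _ ≤ a := mul_le_of_le_one_right ha.le hTKa
  have hbη : K₁ * a ^ 2 ≤ η := by rw [hη]; exact le_mul_of_one_le_left hb0 hT1
  -- (2)
  have hJac : Corr.JacB (muc W 300 1) f x (120 * ℓ) ℓ (Cj * a ^ 2 * ℓ ^ m / ℓ) :=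
    fun w A hw hs' hA => HJ W eg x ℓ a κ' f hW h0 heg hx hℓ hℓ1 hgeo
      (fun y => (hsup y).trans (by linarith)) hhgt ha.le ha1
      (fun y hy => ((hcurv y hy).1.trans hbη).trans hηa) w A hw
      (hs'.trans (Metric.ball_subset_ball (by linarith))) hA
  -- (3)
  have e128 : (124 + 4 : ℝ) * ℓ = 128 * ℓ := by norm_num
  obtain ⟨-, hmc⟩ := HE W eg x ℓ a η κ' hℓ f (rs x ℓ f) hW h0 heg hx hℓ1
    (hreg.1.contDiff.of_le (by exact_mod_cast (by omega : 4 ≤ s))) hsl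
    (fun y => (hsup y).trans hκ'8) href hκ'κ₁
    (fun y _ => Filter.EventuallyEq.rfl) (by rw [e128]; exact hhgt) ha.le haκ₁
    (by
      rw [e128]
      intro y hy
      refine ⟨(hcurv y hy).1.trans hbη, ?_⟩
      rw [hη, hT]
      exact (hcurv y hy).2)
    hη0 (hηa.trans haκ₁) (by rw [e128]; exact hwm)
  have hMB0 := Corr.MassB.of_two hℓ (hmc.monoR (r' := 120 * ℓ) (by linarith) le_rfl le_rfl)
  have hσle : (C₁ * (a ^ 2 + η ^ 2) * ℓ ^ m + C₁ * a * ℓ ^ (m + 1) / ℓ) / ℓ ^ m ≤ 3 * C₁ * a := by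
    have hℓm : ℓ ^ m ≠ 0 := (pow_pos hℓ m).ne'
    have e : (C₁ * (a ^ 2 + η ^ 2) * ℓ ^ m + C₁ * a * ℓ ^ (m + 1) / ℓ) / ℓ ^ m
        = C₁ * (a ^ 2 + η ^ 2) + C₁ * a := by
      field_simp
      ring
    rw [e]
    have q1 : a ^ 2 ≤ a := by
      calc a ^ 2 = a * a := by ring
        _ ≤ a := mul_le_of_le_one_right ha.le ha1
    have q2 : η ^ 2 ≤ a := (pow_le_pow_left₀ hη0 hηa 2).trans q1
    have : C₁ * (a ^ 2 + η ^ 2) ≤ C₁ * (a + a) := by gcongr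
    linarith
  have hMB : Corr.MassB (muc W 300 1) f Q x (120 * ℓ) ℓ (3 * C₁ * a) := by
    intro G A g1 g2 g3 g4
    have hA : 0 ≤ A := (abs_nonneg _).trans (g3 0)
    refine (hMB0 G A g1 g2 g3 g4).trans ?_
    gcongr
  -- (4)
  have hflat : Flat W 300 1 := (good_flat hW h0 heg).1
  have hmass : muc W 300 1 (ovr m n x (120 * ℓ)) ≤ ENNReal.ofReal (M * ℓ ^ m) := by
    have := mass_ovr hm hW (by linarith) (hreg.1.contDiff.differentiable (by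
        exact_mod_cast (by omega : s ≠ 0)))
      (fun y => (hsl y).trans (by linarith)) (fun y => (hsup y).trans (by linarith)) hx
      (ρ := 120 * ℓ) (h := a * ℓ) (by positivity) (by linarith) (by nlinarith)
      (hhgt.mono (by linarith) le_rfl)
    refine this.trans (le_of_eq ?_)
    rw [hM, mul_pow]
    ring_nf
  have hae : ∀ᵐ X ∂(muc W 300 1), X ∈ ovr m n x (120 * ℓ) → ‖zet f X‖ ≤ a * ℓ := by
    filter_upwards [muc_ae hflat] with X hX hXo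
    exact hhgt X hX.1 hX.2.1 (lt_of_lt_of_le hXo (by linarith))
  have hslope : sAl (s - 1) ℓ f ≤ ENNReal.ofReal σc := by
    obtain ⟨t, rfl⟩ : ∃ t, s = t + 1 := ⟨s - 1, by omega⟩
    simp only [Nat.add_sub_cancel]
    refine (sAl_mono_scale t hℓ.le hℓ1 f).trans ((hreg.slope one_pos).trans
      (ENNReal.ofReal_le_ofReal ?_))
    rw [div_one]
    exact (mul_le_mul_of_nonneg_left hκa (by positivity)).trans z4
  have hΞb : ENNReal.ofReal ℓ * vAl (s - 2) ℓ Ξ ≤ ENNReal.ofReal (K₁ * a ^ 2) := by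
    refine (mul_le_mul' le_rfl hΞ.2).trans (le_of_eq ?_)
    rw [← ENNReal.ofReal_mul hℓ.le]
    congr 1
    field_simp
  -- (5)
  obtain ⟨v, ρ, hv, -, hρ, heq, hρb, hvb, hmom⟩ := HC (muc W 300 1) f Ξ x ℓ (a * ℓ) M
    (Cj * a ^ 2 * ℓ ^ m / ℓ) (3 * C₁ * a) (K₁ * a ^ 2) (a ^ 2 / ℓ) hℓ (by positivity) hM0
    (by positivity) (by positivity) hb0 (by positivity) hreg.1 hslope hΞ.1
    (fun y hy => hΞeq y (Metric.ball_subset_ball (by linarith) hy)) hΞb hmass hae hJac hMB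
  obtain ⟨A1, A2⟩ := core_arith m hM0 hCj.le hC₁.le hK₁ ha ha1 hKa hℓ
  rw [← hB2] at A1
  rw [← hB1] at A2
  refine ⟨v, ρ, ⟨hv, hvb.trans (ENNReal.ofReal_le_ofReal ?_)⟩, ⟨hρ, hρb⟩, heq, ?_⟩
  · have q1 : B1 ≤ B2 + (3 * C₁ + 1) * B1 := by
      have : 0 ≤ 3 * C₁ * B1 := by positivity
      linarith
    calc Cc * (M * (a * ℓ) + (Cj * a ^ 2 * ℓ ^ m / ℓ * ℓ ^ 2 / ℓ ^ m
          + (M * (a * ℓ) / ℓ + 3 * C₁ * a) * (K₁ * a ^ 2) * ℓ + ℓ ^ 2 * (a ^ 2 / ℓ))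
          + ℓ * (K₁ * a ^ 2)) ≤ Cc * (B1 * a * ℓ) := by gcongr
      _ ≤ Cc * ((B2 + (3 * C₁ + 1) * B1) * a * ℓ) := by gcongr
      _ = _ := by ring
  · intro G A g1 g2 g3
    have hA : 0 ≤ A := by
      have := g3 0 (Nat.zero_le _) 0
      rw [pow_zero, one_mul] at this
      exact (norm_nonneg _).trans this
    refine (hmom G A g1 g2 g3).trans ?_
    have q2 : (Cj * a ^ 2 * ℓ ^ m / ℓ * ℓ ^ 2 / ℓ ^ m
          + (M * (a * ℓ) / ℓ + 3 * C₁ * a) * (K₁ * a ^ 2) * ℓ + ℓ ^ 2 * (a ^ 2 / ℓ))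
        + 3 * C₁ * a * (M * (a * ℓ) + (Cj * a ^ 2 * ℓ ^ m / ℓ * ℓ ^ 2 / ℓ ^ m
          + (M * (a * ℓ) / ℓ + 3 * C₁ * a) * (K₁ * a ^ 2) * ℓ + ℓ ^ 2 * (a ^ 2 / ℓ))
          + ℓ * (K₁ * a ^ 2)) ≤ (B2 + (3 * C₁ + 1) * B1) * a ^ 2 * ℓ := by
      have r1 : 3 * C₁ * a * (M * (a * ℓ) + (Cj * a ^ 2 * ℓ ^ m / ℓ * ℓ ^ 2 / ℓ ^ m
          + (M * (a * ℓ) / ℓ + 3 * C₁ * a) * (K₁ * a ^ 2) * ℓ + ℓ ^ 2 * (a ^ 2 / ℓ))
          + ℓ * (K₁ * a ^ 2)) ≤ 3 * C₁ * a * (B1 * a * ℓ) := by gcongr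
      have r2 : (B2 + (3 * C₁ + 1) * B1) * a ^ 2 * ℓ
          = B2 * a ^ 2 * ℓ + 3 * C₁ * a * (B1 * a * ℓ) + B1 * a ^ 2 * ℓ := by ring
      have r3 : 0 ≤ B1 * a ^ 2 * ℓ := by positivity
      linarith
    calc Cc * ℓ ^ m * ((Cj * a ^ 2 * ℓ ^ m / ℓ * ℓ ^ 2 / ℓ ^ m
          + (M * (a * ℓ) / ℓ + 3 * C₁ * a) * (K₁ * a ^ 2) * ℓ + ℓ ^ 2 * (a ^ 2 / ℓ))
        + 3 * C₁ * a * (M * (a * ℓ) + (Cj * a ^ 2 * ℓ ^ m / ℓ * ℓ ^ 2 / ℓ ^ m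
          + (M * (a * ℓ) / ℓ + 3 * C₁ * a) * (K₁ * a ^ 2) * ℓ + ℓ ^ 2 * (a ^ 2 / ℓ))
          + ℓ * (K₁ * a ^ 2))) * A
        ≤ Cc * ℓ ^ m * ((B2 + (3 * C₁ + 1) * B1) * a ^ 2 * ℓ) * A := by gcongr
      _ = _ := by rw [pow_succ]; ring

/-- **(B) the normal cylinder over the new fit.** -/
theorem core_geo (m n Q : ℕ) (hm : 1 ≤ m) (hn : 1 ≤ n) (hQ : 1 ≤ Q) :
    ∃ (J : ℕ) (hc₀ : ℝ), 5 ≤ J ∧ 0 < hc₀ ∧ ∀ hc : ℝ, 0 < hc → hc ≤ hc₀ →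
      ∃ κ₀ σ₀ C : ℝ, 0 < κ₀ ∧ 0 < σ₀ ∧ 0 < C ∧
      ∀ (s : ℕ) (W : SIV m n) (eg : ℝ) (x : E m) (ℓ a b κ : ℝ) (hℓ : 0 < ℓ) (f' Ξ' : E m → E n),
        J ≤ s → IsGood W Q eg → 0 ≤ eg → eg ≤ 1 / 2 → ‖x‖ < 5 → ℓ ≤ 1 → ContDiff ℝ s f' →
        (∀ j : ℕ, 1 ≤ j → j ≤ s → ∀ y, ℓ ^ (j - 1) * ‖iteratedFDeriv ℝ j f' y‖ ≤ κ) → Geo κ f' →
        (∀ y, ‖f' y‖ ≤ 1 / 8) → κ ≤ κ₀ → VB (s - 2) ℓ Ξ' (b / ℓ) →
        (∀ y ∈ Metric.ball x (80 * ℓ), mssOp f' y = Ξ' y) → 0 ≤ b → b ≤ κ₀ →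
        Hgt W 300 1 f' x (80 * ℓ) (a * ℓ) → 0 ≤ a → a ≤ κ₀ → WMass W 300 1 Q x (128 * ℓ) ℓ σ₀ →
        (∃ N : NCyl m n, N.W = Wp W x ℓ hℓ f' ∧ N.u = scl x ℓ f' ∧ N.Ω = Metric.ball 0 72 ∧
          N.h = hc ∧ N.Q = Q ∧
          (N.Dm + N.Mabs) (Metric.ball 0 72) ≤ ENNReal.ofReal (C * (a ^ 2 + b ^ 2))) ∧
        MassC W 300 1 Q f' x (72 * ℓ) (C * (a ^ 2 + b ^ 2) * ℓ ^ m) (C * a * ℓ ^ (m + 1)) := by
  obtain ⟨J, hc₀, hJ, hhc₀, HE⟩ := energy_phys m n Q hm hn hQ 72 (by norm_num) (by norm_num)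
  refine ⟨J, hc₀, hJ, hhc₀, ?_⟩
  intro hc hhc hhc'
  obtain ⟨κ₂, σ₂, C₂, hκ₂, hσ₂, hC₂, HE⟩ := HE hc hhc hhc'
  obtain ⟨Cs, hCs, HS⟩ := scl_facts m n J (by omega)
  obtain ⟨T, hT⟩ : ∃ T : ℝ, T = Real.sqrt m * (3 + 2 * Real.pi) := ⟨_, rfl⟩
  have hm1 : (1 : ℝ) ≤ Real.sqrt m := by
    rw [Real.one_le_sqrt]
    exact_mod_cast hm
  have hT1 : 1 ≤ T := by
    rw [hT]
    have : (1 : ℝ) ≤ 3 + 2 * Real.pi := by nlinarith [Real.pi_gt_three]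
    calc (1 : ℝ) = 1 * 1 := by ring
      _ ≤ Real.sqrt m * (3 + 2 * Real.pi) := mul_le_mul hm1 this zero_le_one (by positivity)
  have hT0 : 0 < T := by linarith
  have hCs0 : 0 < Cs := by linarith
  refine ⟨min (κ₂ / Cs) (κ₂ / T), σ₂, C₂ * T ^ 2, lt_min (by positivity) (by positivity), hσ₂,
    by positivity, ?_⟩
  intro s W eg x ℓ a b κ hℓ f' Ξ' hJs hW h0 heg hx hℓ1 hreg hsc hgeo hsup hκ hΞ' heq hb hbκ hhgt ha haκ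
    hwm
  have hκ0 : 0 ≤ κ := (norm_nonneg _).trans (hgeo.d2 0)
  have hκ₂le : κ₂ / T ≤ κ₂ := div_le_self hκ₂.le hT1
  obtain ⟨S1, S2, -⟩ := HS f' x ℓ κ hℓ hκ0 (hreg.of_le (by exact_mod_cast hJs))
    (fun j hj1 hj y => hsc j hj1 (hj.trans hJs) y)
  have hcurv := curv_of_amin (s := s) (by omega) hgeo hℓ hℓ1 hb hΞ' heq
  have hsl : ∀ y, ‖fderiv ℝ f' y‖ ≤ Cs * κ := by
    intro y
    have := hsc 1 le_rfl (by omega) y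
    rw [Nat.sub_self, pow_zero, one_mul, norm_iteratedFDeriv_one] at this
    exact this.trans (le_mul_of_one_le_left hκ0 hCs)
  have hCκ : Cs * κ ≤ κ₂ := by
    have := hκ.trans (min_le_left _ _)
    rwa [le_div_iff₀ hCs0, mul_comm] at this
  have hTb : T * b ≤ κ₂ := by
    have := hbκ.trans (min_le_right _ _)
    rwa [le_div_iff₀ hT0, mul_comm] at this
  have e76 : (72 + 4 : ℝ) * ℓ = 76 * ℓ := by norm_num
  obtain ⟨hen, hmc⟩ := HE W eg x ℓ a (T * b) (Cs * κ) hℓ f' (scl x ℓ f') hW h0 heg hx hℓ1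
    (hreg.of_le (by exact_mod_cast (by omega : 4 ≤ s))) hsl hsup S2 hCκ
    (by rw [show (72 + 4 : ℝ) = 76 by norm_num]; exact S1)
    (by rw [e76]; exact hhgt.mono (by linarith) le_rfl) ha
    (haκ.trans ((min_le_right _ _).trans hκ₂le))
    (by
      rw [e76]
      intro y hy
      obtain ⟨c1, c2⟩ := hcurv y (Metric.ball_subset_ball (by linarith) hy)
      refine ⟨c1.trans (le_mul_of_one_le_left hb hT1), ?_⟩
      rw [hT]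
      exact c2)
    (by positivity) hTb
    (by rw [e76]; exact hwm.mono (by linarith) le_rfl hℓ.le)
  have hq : C₂ * (a ^ 2 + (T * b) ^ 2) ≤ C₂ * T ^ 2 * (a ^ 2 + b ^ 2) := by
    have hT2 : 1 ≤ T ^ 2 := one_le_pow₀ hT1
    have : a ^ 2 ≤ T ^ 2 * a ^ 2 := le_mul_of_one_le_left (by positivity) hT2
    calc C₂ * (a ^ 2 + (T * b) ^ 2) = C₂ * (a ^ 2 + T ^ 2 * b ^ 2) := by ring
      _ ≤ C₂ * (T ^ 2 * a ^ 2 + T ^ 2 * b ^ 2) := by gcongr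
      _ = _ := by ring
  constructor
  · obtain ⟨N, n1, n2, n3, n4, n5, n6⟩ := hen
    exact ⟨N, n1, n2, n3, n4, n5, n6.trans (ENNReal.ofReal_le_ofReal hq)⟩
  · refine hmc.monoR le_rfl (by gcongr) ?_
    have hT2 : 1 ≤ T ^ 2 := one_le_pow₀ hT1
    have : C₂ ≤ C₂ * T ^ 2 := le_mul_of_one_le_right hC₂.le hT2
    gcongr

/-- derivatives of the corrected fit. -/
theorem core_deriv {s : ℕ} {f v : E m → E n} {κ b ℓ : ℝ} (hf : VB s 1 f κ) (hv : VB s ℓ v (b * ℓ))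
    (hℓ : 0 < ℓ) (hℓ1 : ℓ ≤ 1) (hκ : 0 ≤ κ) (hb : 0 ≤ b) {j : ℕ} (hj1 : 1 ≤ j) (hj : j ≤ s) (y : E m) :
    ℓ ^ (j - 1) * ‖iteratedFDeriv ℝ j (fun y => f y + v y) y‖ ≤ (2 * Real.pi) ^ s * (κ + b) ∧
    (j ≤ 3 → ‖iteratedFDeriv ℝ j (fun y => f y + v y) y‖ ≤ (2 * Real.pi) ^ s * (κ + b / ℓ ^ 2)) := by
  have hpi : (1 : ℝ) ≤ 2 * Real.pi := by nlinarith [Real.pi_gt_three]
  have hpj : (2 * Real.pi) ^ j ≤ (2 * Real.pi) ^ s := pow_le_pow_right₀ hpi hj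
  have hP : 0 < (2 * Real.pi) ^ s := by positivity
  have hadd : iteratedFDeriv ℝ j (fun y => f y + v y) y
      = iteratedFDeriv ℝ j f y + iteratedFDeriv ℝ j v y :=
    fun_iteratedFDeriv_add_apply ((hf.1.contDiff.of_le (by exact_mod_cast hj)).contDiffAt)
      ((hv.1.contDiff.of_le (by exact_mod_cast hj)).contDiffAt)
  have h1 : ‖iteratedFDeriv ℝ j f y‖ ≤ (2 * Real.pi) ^ s * κ := by
    have := hf.sup one_pos hκ hj y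
    rw [one_pow, one_mul] at this
    exact this.trans (mul_le_mul_of_nonneg_right hpj hκ)
  obtain ⟨t, rfl⟩ : ∃ t, j = t + 1 := ⟨j - 1, by omega⟩
  have h2 : ℓ ^ t * ‖iteratedFDeriv ℝ (t + 1) v y‖ ≤ (2 * Real.pi) ^ s * b := by
    have := hv.sup hℓ (by positivity) hj y
    have h3 : ℓ * (ℓ ^ t * ‖iteratedFDeriv ℝ (t + 1) v y‖) ≤ ℓ * ((2 * Real.pi) ^ s * b) := by
      calc ℓ * (ℓ ^ t * ‖iteratedFDeriv ℝ (t + 1) v y‖)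
          = ℓ ^ (t + 1) * ‖iteratedFDeriv ℝ (t + 1) v y‖ := by rw [pow_succ]; ring
        _ ≤ (2 * Real.pi) ^ (t + 1) * (b * ℓ) := this
        _ ≤ (2 * Real.pi) ^ s * (b * ℓ) := mul_le_mul_of_nonneg_right hpj (by positivity)
        _ = _ := by ring
    exact le_of_mul_le_mul_left h3 hℓ
  have hn := norm_add_le (iteratedFDeriv ℝ (t + 1) f y) (iteratedFDeriv ℝ (t + 1) v y)
  have ht1 : ℓ ^ t ≤ 1 := pow_le_one₀ hℓ.le hℓ1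
  have ht0 : 0 < ℓ ^ t := by positivity
  rw [hadd]
  simp only [Nat.add_sub_cancel]
  constructor
  · calc ℓ ^ t * ‖iteratedFDeriv ℝ (t + 1) f y + iteratedFDeriv ℝ (t + 1) v y‖
        ≤ ℓ ^ t * (‖iteratedFDeriv ℝ (t + 1) f y‖ + ‖iteratedFDeriv ℝ (t + 1) v y‖) := by gcongr
      _ = ℓ ^ t * ‖iteratedFDeriv ℝ (t + 1) f y‖ + ℓ ^ t * ‖iteratedFDeriv ℝ (t + 1) v y‖ := by ring
      _ ≤ 1 * ((2 * Real.pi) ^ s * κ) + (2 * Real.pi) ^ s * b := by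
          refine add_le_add (mul_le_mul ht1 h1 (norm_nonneg _) zero_le_one) h2
      _ = _ := by ring
  · intro h3
    have h4 : ℓ ^ 2 ≤ ℓ ^ t := pow_le_pow_of_le_one hℓ.le hℓ1 (by omega)
    have h5 : ‖iteratedFDeriv ℝ (t + 1) v y‖ ≤ (2 * Real.pi) ^ s * b / ℓ ^ 2 := by
      rw [le_div_iff₀ (by positivity)]
      calc ‖iteratedFDeriv ℝ (t + 1) v y‖ * ℓ ^ 2 ≤ ‖iteratedFDeriv ℝ (t + 1) v y‖ * ℓ ^ t := by gcongr
        _ = ℓ ^ t * ‖iteratedFDeriv ℝ (t + 1) v y‖ := by ring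
        _ ≤ _ := h2
    calc ‖iteratedFDeriv ℝ (t + 1) f y + iteratedFDeriv ℝ (t + 1) v y‖
        ≤ (2 * Real.pi) ^ s * κ + (2 * Real.pi) ^ s * b / ℓ ^ 2 := hn.trans (add_le_add h1 h5)
      _ = _ := by ring

set_option maxHeartbeats 1000000 in
/-- **one correction step.** -/
theorem core_step (m n Q : ℕ) (hm : 1 ≤ m) (hn : 1 ≤ n) (hQ : 1 ≤ Q) :
    ∃ (q s₀ : ℕ) (hc₀ : ℝ), 1 ≤ q ∧ q + m + 4 ≤ s₀ ∧ 0 < hc₀ ∧
      ∀ s : ℕ, s₀ ≤ s → ∀ hc : ℝ, 0 < hc → hc ≤ hc₀ →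
      ∃ C σ₀ : ℝ, 1 ≤ C ∧ 0 < σ₀ ∧ ∀ K₁ : ℝ, 0 ≤ K₁ → ∃ a₀ : ℝ, 0 < a₀ ∧
      ∀ (W : SIV m n) (eg : ℝ) (x : E m) (ℓ a κ : ℝ) (hℓ : 0 < ℓ) (f : E m → E n),
        IsGood W Q eg → 0 ≤ eg → eg ≤ 1 / 2 → ‖x‖ < 5 → ℓ ≤ 1 → 0 < a → a ≤ a₀ * ℓ ^ 2 → 0 ≤ κ →
        κ ≤ a₀ → StepIn W Q s x ℓ a κ K₁ σ₀ f →
        ∃ v : E m → E n, VB s ℓ v (C * a * ℓ) ∧
          StepOut W Q s q hc x ℓ hℓ a C (fun y => f y + v y) := by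
  obtain ⟨s₁, hs₁, HA⟩ := core_corr m n Q hm hn hQ
  obtain ⟨J, hc₀, hJ, hhc₀, HB⟩ := core_geo m n Q hm hn hQ
  refine ⟨2 * m + 5, max s₁ J, hc₀, by omega, le_trans (by omega) (le_max_left _ _), hhc₀, ?_⟩
  intro s hs hc hhc hhc'
  have hs1 : s₁ ≤ s := (le_max_left _ _).trans hs
  have hsJ : J ≤ s := (le_max_right _ _).trans hs
  obtain ⟨Cv, σA, hCv, hσA, HA⟩ := HA s hs1
  obtain ⟨κB, σB, CB, hκB, hσB, hCB, HB⟩ := HB hc hhc hhc'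
  obtain ⟨σn, Cn, hσn, hCn, HN⟩ := newton_step m n s (by omega)
  obtain ⟨K₀, hK₀⟩ : ∃ K₀ : ℝ, K₀ = 1 + Cn * Cv ^ 2 := ⟨_, rfl⟩
  have hK₀0 : 0 ≤ K₀ := by rw [hK₀]; positivity
  obtain ⟨C, hC⟩ : ∃ C : ℝ, C = 1 + Cv + K₀ + CB * ((1 + Cv) ^ 2 + K₀ ^ 2) + CB * (1 + Cv) :=
    ⟨_, rfl⟩
  have u1 : 0 ≤ CB * ((1 + Cv) ^ 2 + K₀ ^ 2) := by positivity
  have u2 : 0 ≤ CB * (1 + Cv) := by positivity
  refine ⟨C, min σA σB, by rw [hC]; linarith, lt_min hσA hσB, ?_⟩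
  intro K₁ hK₁
  obtain ⟨aA, haA, HA⟩ := HA K₁ hK₁
  have hpi : 0 < 2 * Real.pi := by positivity
  have e1 : ∀ᶠ z in 𝓝[>] (0 : ℝ), z ≤ min aA (min 1 σn) :=
    fm_ev_small continuous_id rfl (by positivity)
  have e2 : ∀ᶠ z in 𝓝[>] (0 : ℝ), Cv * z ≤ σn := fm_ev_small (by fun_prop) (by simp) hσn
  have e3 : ∀ᶠ z in 𝓝[>] (0 : ℝ), (2 * Real.pi) ^ s * (z + Cv * z) ≤ min (1 / 2) κB :=
    fm_ev_small (by fun_prop) (by simp) (by positivity)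
  have e4 : ∀ᶠ z in 𝓝[>] (0 : ℝ), z + Cv * z ≤ 1 / 8 :=
    fm_ev_small (by fun_prop) (by simp) (by norm_num)
  have e5 : ∀ᶠ z in 𝓝[>] (0 : ℝ), K₀ * z ≤ κB := fm_ev_small (by fun_prop) (by simp) hκB
  have e6 : ∀ᶠ z in 𝓝[>] (0 : ℝ), (1 + Cv) * z ≤ κB := fm_ev_small (by fun_prop) (by simp) hκB
  obtain ⟨a₀, ⟨z1, z2, z3, z4, z5, z6⟩, ha₀⟩ :=
    ((e1.and (e2.and (e3.and (e4.and (e5.and e6))))).and self_mem_nhdsWithin).exists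
  have ha₀ : 0 < a₀ := ha₀
  refine ⟨a₀, ha₀, ?_⟩
  intro W eg x ℓ a κ hℓ f hW h0 heg hx hℓ1 ha haℓ hκ hκa hin
  have z1a : a₀ ≤ aA := z1.trans (min_le_left _ _)
  have z1b : a₀ ≤ 1 := z1.trans ((min_le_right _ _).trans (min_le_left _ _))
  have z1c : a₀ ≤ σn := z1.trans ((min_le_right _ _).trans (min_le_right _ _))
  have hℓ2 : ℓ ^ 2 ≤ 1 := pow_le_one₀ hℓ.le hℓ1
  have hℓ2p : 0 < ℓ ^ 2 := by positivity
  have haa : a ≤ a₀ := haℓ.trans (mul_le_of_le_one_right ha₀.le hℓ2)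
  have ha1 : a ≤ 1 := haa.trans z1b
  have had : a / ℓ ^ 2 ≤ a₀ := by rw [div_le_iff₀ hℓ2p]; exact haℓ
  obtain ⟨Ξ, hΞ, hΞeq⟩ := hin.amin
  obtain ⟨v, ρ, hv, hρ, heq, hmom⟩ := HA W eg x ℓ a κ f Ξ hW h0 heg hx hℓ hℓ1 ha (haa.trans z1a) hκ
    (hκa.trans z1a) hin.reg hΞ hΞeq hin.height (hin.wmass.mono le_rfl (min_le_left _ _) hℓ.le)
  have hCva : Cv * a ≤ σn := (mul_le_mul_of_nonneg_left haa hCv).trans z2
  obtain ⟨Ξ', hΞ', hΞ'eq⟩ := HN f v Ξ ρ x ℓ (81 * ℓ) (Cv * a) (a ^ 2 / ℓ) hℓ hℓ1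
    (hin.reg.mono le_rfl zero_le_one (hκa.trans z1c)) hv (by positivity) hCva hρ (by positivity)
    (fun y hy => hΞeq y (Metric.ball_subset_ball (by linarith) hy)) heq
  have hΞ'' : VB (s - 2) ℓ Ξ' (K₀ * a ^ 2 / ℓ) := hΞ'.mono le_rfl hℓ.le (le_of_eq (by
    rw [hK₀]; ring))
  have hΞ80 : ∀ y ∈ Metric.ball x (80 * ℓ), mssOp (fun y => f y + v y) y = Ξ' y := fun y hy =>
    hΞ'eq y (Metric.ball_subset_ball (by linarith) hy)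
  -- the new fit
  obtain ⟨κ', hκ'⟩ : ∃ κ' : ℝ, κ' = (2 * Real.pi) ^ s * (κ + Cv * a / ℓ ^ 2) := ⟨_, rfl⟩
  have hP : 0 < (2 * Real.pi) ^ s := by positivity
  have hκ'le : κ' ≤ (2 * Real.pi) ^ s * (a₀ + Cv * a₀) := by
    rw [hκ', mul_div_assoc]
    gcongr
  have hκ'1 : κ' ≤ 1 / 2 := hκ'le.trans (z3.trans (min_le_left _ _))
  have hκ'2 : κ' ≤ κB := hκ'le.trans (z3.trans (min_le_right _ _))
  have hale : Cv * a ≤ Cv * a / ℓ ^ 2 := by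
    rw [le_div_iff₀ hℓ2p]
    exact mul_le_of_le_one_right (by positivity) hℓ2
  have hder := fun (j : ℕ) (hj1 : 1 ≤ j) (hj : j ≤ s) (y : E m) =>
    core_deriv hin.reg hv hℓ hℓ1 hκ (by positivity : 0 ≤ Cv * a) hj1 hj y
  have hreg' : ContDiff ℝ s (fun y => f y + v y) := hin.reg.1.contDiff.add hv.1.contDiff
  have hs5 : 5 ≤ s := hJ.trans hsJ
  have hgeo : Geo κ' (fun y => f y + v y) := by
    refine ⟨hreg'.of_le (by exact_mod_cast (by omega : 4 ≤ s)), fun y => ?_, fun y => ?_,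
      fun y => ?_, by linarith⟩
    · rw [← norm_iteratedFDeriv_one]
      exact (((hder 1 le_rfl (by omega) y).2 (by norm_num)).trans (le_of_eq hκ'.symm)).trans hκ'1
    · exact ((hder 2 (by norm_num) (by omega) y).2 (by norm_num)).trans (le_of_eq hκ'.symm)
    · exact ((hder 3 (by norm_num) (by omega) y).2 (by norm_num)).trans (le_of_eq hκ'.symm)
  have hsc : ∀ j : ℕ, 1 ≤ j → j ≤ s → ∀ y,
      ℓ ^ (j - 1) * ‖iteratedFDeriv ℝ j (fun y => f y + v y) y‖ ≤ κ' := by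
    intro j hj1 hj y
    refine (hder j hj1 hj y).1.trans ?_
    rw [hκ']
    gcongr
  have hvsup : ∀ y, ‖v y‖ ≤ Cv * a * ℓ := fun y => hv.sup0 hℓ.le (by positivity) y
  have hsup : ∀ y, ‖f y + v y‖ ≤ 1 / 8 := by
    intro y
    have b1 := hin.reg.sup0 zero_le_one hκ y
    have b2 := hvsup y
    have b3 : Cv * a * ℓ ≤ Cv * a₀ :=
      (mul_le_of_le_one_right (by positivity) hℓ1).trans (mul_le_mul_of_nonneg_left haa hCv)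
    have := norm_add_le (f y) (v y)
    linarith
  have hzet : ∀ X, zet (fun y => f y + v y) X = zet f X - v (prH m n X) := by
    intro X
    simp only [zet]
    abel
  have hhgt : Hgt W 300 1 (fun y => f y + v y) x (80 * ℓ) ((1 + Cv) * a * ℓ) := by
    intro X hX hZ hlt
    rw [hzet]
    have b1 := hin.height X hX hZ (hlt.trans_le (by linarith))
    have b2 := hvsup (prH m n X)
    have := norm_sub_le (zet f X) (v (prH m n X))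
    have e : (1 + Cv) * a * ℓ = a * ℓ + Cv * a * ℓ := by ring
    linarith
  have hb0 : 0 ≤ K₀ * a ^ 2 := by positivity
  have hbκ : K₀ * a ^ 2 ≤ κB := by
    have : a ^ 2 ≤ a₀ := by
      calc a ^ 2 = a * a := by ring
        _ ≤ 1 * a₀ := mul_le_mul ha1 haa ha.le zero_le_one
        _ = a₀ := one_mul _
    exact (mul_le_mul_of_nonneg_left this hK₀0).trans z5
  have haκ : (1 + Cv) * a ≤ κB := (mul_le_mul_of_nonneg_left haa (by positivity)).trans z6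
  obtain ⟨hen, hmc⟩ := HB s W eg x ℓ ((1 + Cv) * a) (K₀ * a ^ 2) κ' hℓ (fun y => f y + v y) Ξ' hsJ hW h0
    heg hx hℓ1 hreg' hsc hgeo hsup hκ'2 hΞ'' hΞ80 hb0 hbκ hhgt (by positivity) haκ
    (hin.wmass.mono le_rfl (min_le_right _ _) hℓ.le)
  have hquad : CB * (((1 + Cv) * a) ^ 2 + (K₀ * a ^ 2) ^ 2) ≤ C * a ^ 2 := by
    have q1 : (K₀ * a ^ 2) ^ 2 ≤ K₀ ^ 2 * a ^ 2 := by
      have : a ^ 2 ≤ 1 := pow_le_one₀ ha.le ha1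
      have h6 : 0 ≤ K₀ ^ 2 * a ^ 2 := by positivity
      calc (K₀ * a ^ 2) ^ 2 = (K₀ ^ 2 * a ^ 2) * a ^ 2 := by ring
        _ ≤ (K₀ ^ 2 * a ^ 2) * 1 := by gcongr
        _ = _ := by ring
    calc CB * (((1 + Cv) * a) ^ 2 + (K₀ * a ^ 2) ^ 2)
        ≤ CB * (((1 + Cv) * a) ^ 2 + K₀ ^ 2 * a ^ 2) := by gcongr
      _ = CB * ((1 + Cv) ^ 2 + K₀ ^ 2) * a ^ 2 := by ring
      _ ≤ C * a ^ 2 := by
          refine mul_le_mul_of_nonneg_right ?_ (by positivity)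
          rw [hC]; linarith
  have hCv_le : Cv ≤ C := by rw [hC]; linarith
  refine ⟨v, hv.mono le_rfl hℓ.le (by gcongr), ?_, ?_, ?_, ?_, ?_⟩
  · refine ⟨Ξ', hΞ''.mono le_rfl hℓ.le ?_, hΞ80⟩
    have : K₀ ≤ C := by rw [hC]; linarith
    gcongr
  · refine hhgt.mono le_rfl ?_
    have : 1 + Cv ≤ C := by rw [hC]; linarith
    gcongr
  · intro η A hη hs' hA
    have hA0 : 0 ≤ A := by
      have := hA 0 (Nat.zero_le _) 0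
      rw [pow_zero, one_mul] at this
      exact (norm_nonneg _).trans this
    have := hmom η A hη (hs'.trans (Metric.ball_subset_ball (by linarith))) hA
    simp only [hzet]
    refine this.trans ?_
    gcongr
  · refine hmc.monoR le_rfl (by gcongr) ?_
    have : CB * ((1 + Cv) * a) ≤ C * a := by
      have h7 : CB * (1 + Cv) ≤ C := by rw [hC]; linarith
      calc CB * ((1 + Cv) * a) = CB * (1 + Cv) * a := by ring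
        _ ≤ C * a := by gcongr
    gcongr
  · obtain ⟨N, n1, n2, n3, n4, n5, n6⟩ := hen
    exact ⟨N, n1, n2, n3, n4, n5, n6.trans (ENNReal.ofReal_le_ofReal hquad)⟩

end Claimed.Agent.R322.Fit.Fits
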