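import Claimed.Agent.R322.Pack058
import Claimed.Agent.R322.Pack050
import Claimed.Agent.R322.Pack016
import Claimed.Agent.R322.Pack049
import Claimed.Agent.R322.Pack017
import Claimed.Agent.R322.Pack001
import Claimed.Agent.R322.Pack002

/-!
# Row 322, Fit/Fits/EnAux: proofs of the small leaves of `Fit/Fits/Energy.lean`   (helper137)

E2 (`foot_facts_aux`, `tilt_le_aux`, `vdens_sub_one_le_aux`), E7 (`wmass_aux`), S3 (`rs_facts_aux`, `rs_curv_aux`, `scl_facts_aux`),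
S4 (`curv_of_mss_aux`, `mass_ovr_aux`, `good_flat_aux`).  The definitions `rs`, `MassC` of `Energy.lean` appear here in unfolded form.
`scl_facts_aux` needs `1 ≤ J` (for `J = 0` the hypotheses say nothing about `f`).
-/

set_option autoImplicit false

open scoped ENNReal ContDiff Topology
open MeasureTheory

namespace Claimed.Agent.R322.Fit.Fits

open Claimed.Agent.R322.Tube Claimed.Agent.R322.Freq

variable {m n : ℕ}

local notation "adj" => ContinuousLinearMap.adjoint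

/-! ### E2 : foot points, tilts -/

theorem sub_Fg_prH (u : E m → E n) (X : E (m + n)) : X - Fg u (prH m n X) = inV m n (zet u X) := by
  conv_lhs => rw [← mkHV_prH_prV X]
  unfold Fg zet
  rw [prH_mkHV, ← mkHV_sub, sub_self, inV_apply]

theorem en_lip_of_slope {κ : ℝ} {u : E m → E n} (hd : Differentiable ℝ u)
    (hs : ∀ y, ‖fderiv ℝ u y‖ ≤ κ) (y y' : E m) : ‖u y - u y'‖ ≤ κ * ‖y - y'‖ :=
  Convex.norm_image_sub_le_of_norm_fderiv_le (s := Set.univ) (fun z _ => hd z) (fun z _ => hs z)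
    convex_univ (Set.mem_univ _) (Set.mem_univ _)

theorem foot_facts_aux {κ : ℝ} {u : E m → E n} (hu : Geo κ u) (hs : ∀ y, ‖fderiv ℝ u y‖ ≤ κ)
    {X : E (m + n)} (hX : ‖zet u X‖ < 2 / 9) :
    X ∈ Tub u (2 / 9) ∧ ‖zz u X‖ ≤ ‖zet u X‖ ∧ ‖prH m n X - npr u X‖ ≤ κ * ‖zz u X‖ ∧
      ‖zet u X‖ ≤ (1 + κ) ^ 2 * ‖zz u X‖ := by
  have hκ : 0 ≤ κ := hu.nonneg
  have hc : Continuous u := hu.differentiable.continuous
  have h0 : ‖X - Fg u (prH m n X)‖ = ‖zet u X‖ := by rw [sub_Fg_prH, norm_inV]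
  have h1 : X ∈ Tub u (2 / 9) := ⟨prH m n X, by rw [h0]; exact hX⟩
  have h2 : ‖zz u X‖ ≤ ‖zet u X‖ := by
    rw [← h0]
    exact npr_spec hc X _
  have hfo : adj (dF (fderiv ℝ u (npr u X))) (zz u X) = 0 :=
    adjoint_dF_eq_zero_of_nearest hu.differentiable (npr_spec hc X)
  have hH : prH m n (zz u X) = prH m n X - npr u X := by
    unfold zz Fg
    rw [map_sub, prH_mkHV]
  have hV : prV m n (zz u X) = prV m n X - u (npr u X) := by
    unfold zz Fg
    rw [map_sub, prV_mkHV]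
  have h3 : ‖prH m n X - npr u X‖ ≤ κ * ‖zz u X‖ := by
    rw [adjoint_dF_apply] at hfo
    have h4 : prH m n (zz u X) = - adj (fderiv ℝ u (npr u X)) (prV m n (zz u X)) :=
      eq_neg_of_add_eq_zero_left hfo
    rw [← hH, h4, norm_neg]
    calc ‖adj (fderiv ℝ u (npr u X)) (prV m n (zz u X))‖
        ≤ ‖adj (fderiv ℝ u (npr u X))‖ * ‖prV m n (zz u X)‖ := ContinuousLinearMap.le_opNorm _ _
      _ ≤ κ * ‖zz u X‖ := by
          rw [LinearIsometryEquiv.norm_map]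
          exact mul_le_mul (hs _) (norm_prV_le _) (norm_nonneg _) hκ
  refine ⟨h1, h2, h3, ?_⟩
  have e : zet u X = prV m n (zz u X) + (u (npr u X) - u (prH m n X)) := by
    rw [hV]
    unfold zet
    abel
  have h5 : ‖u (npr u X) - u (prH m n X)‖ ≤ κ * (κ * ‖zz u X‖) := by
    refine (en_lip_of_slope hu.differentiable hs _ _).trans (mul_le_mul_of_nonneg_left ?_ hκ)
    rw [norm_sub_rev]
    exact h3
  calc ‖zet u X‖ ≤ ‖prV m n (zz u X)‖ + ‖u (npr u X) - u (prH m n X)‖ := by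
        rw [e]
        exact norm_add_le _ _
    _ ≤ ‖zz u X‖ + κ * (κ * ‖zz u X‖) := add_le_add (norm_prV_le _) h5
    _ ≤ (1 + κ) ^ 2 * ‖zz u X‖ := by nlinarith [norm_nonneg (zz u X)]

theorem tdiv_proj_eq_sum {N : ℕ} {P V : E N →L[ℝ] E N} (hPa : adj P = P) (hPi : P ∘L P = P)
    (hVa : adj V = V) (hVi : V ∘L V = V) :
    tdiv P V = ∑ i : Fin N, ‖V (P (EuclideanSpace.single i 1))‖ ^ 2 := by
  have h1 := trc_adjoint_comp_self (V ∘L P)
  rw [ContinuousLinearMap.adjoint_comp, hPa, hVa] at h1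
  have h2 : (P ∘L V) ∘L (V ∘L P) = (P ∘L V) ∘L P := by
    rw [ContinuousLinearMap.comp_assoc, ← ContinuousLinearMap.comp_assoc V V P, hVi,
      ContinuousLinearMap.comp_assoc]
  rw [h2, trc_comp_comm, ← ContinuousLinearMap.comp_assoc, hPi] at h1
  rw [tdiv_eq_trc, h1]
  rfl

theorem tilt_le_aux {κ : ℝ} {u : E m → E n} (hu : Geo κ u) {P : E (m + n) →L[ℝ] E (m + n)}
    (hP : IsProj m P) (X : E (m + n)) :
    tilt u P X ≤ 2 * tiV u P X + 18 * (m + n) * κ ^ 2 * ‖prH m n X - npr u X‖ ^ 2 := by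
  have hκ : 0 ≤ κ := hu.nonneg
  obtain ⟨y, hy⟩ : ∃ y, y = prH m n X := ⟨_, rfl⟩
  obtain ⟨y', hy'⟩ : ∃ y', y' = npr u X := ⟨_, rfl⟩
  have e1 : tilt u P X = ∑ i : Fin (m + n), ‖Pv u y' (P (EuclideanSpace.single i 1))‖ ^ 2 := by
    unfold tilt
    rw [← hy']
    exact tdiv_proj_eq_sum (Tube.IsProj.adjoint_eq hP) hP.idem (adjoint_Pv u y') (Pv_comp_Pv u y')
  have e2 : tiV u P X = ∑ i : Fin (m + n), ‖Pv u y (P (EuclideanSpace.single i 1))‖ ^ 2 := by
    unfold tiV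
    rw [← hy]
    exact tdiv_proj_eq_sum (Tube.IsProj.adjoint_eq hP) hP.idem (adjoint_Pv u y) (Pv_comp_Pv u y)
  have hd : ‖Pv u y' - Pv u y‖ ≤ 3 * κ * ‖y - y'‖ := by
    have e3 : Pv u y' - Pv u y = -(Ph u y' - Ph u y) := by
      unfold Pv
      abel
    rw [e3, norm_neg]
    refine (hu.norm_Ph_sub_le y y').trans ?_
    have := hu.norm_Du_sub_le y y'
    rw [norm_sub_rev y y']
    linarith
  rw [e1, e2, ← hy, ← hy', Finset.mul_sum]
  have hterm : ∀ i : Fin (m + n), ‖Pv u y' (P (EuclideanSpace.single i 1))‖ ^ 2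
      ≤ 2 * ‖Pv u y (P (EuclideanSpace.single i 1))‖ ^ 2 + 18 * κ ^ 2 * ‖y - y'‖ ^ 2 := by
    intro i
    obtain ⟨v, hv⟩ : ∃ v, v = P (EuclideanSpace.single i (1 : ℝ)) := ⟨_, rfl⟩
    rw [← hv]
    have hv1 : ‖v‖ ≤ 1 := by
      rw [hv]
      refine (P.le_opNorm _).trans ?_
      have h1 : ‖(EuclideanSpace.single i (1 : ℝ) : E (m + n))‖ = 1 := by simp
      rw [h1, mul_one]
      exact hP.norm_le_one
    have h3 : ‖(Pv u y' - Pv u y) v‖ ≤ 3 * κ * ‖y - y'‖ :=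
      ((Pv u y' - Pv u y).le_opNorm v).trans
        ((mul_le_mul hd hv1 (norm_nonneg _) (by positivity)).trans (by rw [mul_one]))
    have h4 : Pv u y' v = Pv u y v + (Pv u y' - Pv u y) v := by
      rw [_root_.sub_apply]
      abel
    have h5 : ‖Pv u y' v‖ ≤ ‖Pv u y v‖ + 3 * κ * ‖y - y'‖ := by
      rw [h4]
      exact (norm_add_le _ _).trans (add_le_add le_rfl h3)
    have h6 : ‖Pv u y' v‖ ^ 2 ≤ (‖Pv u y v‖ + 3 * κ * ‖y - y'‖) ^ 2 :=
      pow_le_pow_left₀ (norm_nonneg _) h5 2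
    nlinarith [sq_nonneg (‖Pv u y v‖ - 3 * κ * ‖y - y'‖)]
  refine (Finset.sum_le_sum fun i _ => hterm i).trans (le_of_eq ?_)
  rw [Finset.sum_add_distrib, Finset.sum_const, Finset.card_univ, Fintype.card_fin, nsmul_eq_mul]
  push_cast
  ring

/-! ### E2 : the volume density -/

theorem one_add_pow_le_lin (k : ℕ) {t : ℝ} (h0 : 0 ≤ t) (h1 : t ≤ 1) :
    (1 + t) ^ k ≤ 1 + (2 ^ k - 1) * t := by
  induction k with
  | zero => simp
  | succ k ih =>
    have h2 : (1 : ℝ) ≤ 2 ^ k := one_le_pow₀ (by norm_num)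
    calc (1 + t) ^ (k + 1) = (1 + t) ^ k * (1 + t) := pow_succ _ _
      _ ≤ (1 + (2 ^ k - 1) * t) * (1 + t) := mul_le_mul_of_nonneg_right ih (by linarith)
      _ ≤ 1 + (2 ^ (k + 1) - 1) * t := by
          rw [pow_succ]
          nlinarith [mul_nonneg (sub_nonneg.2 h2) (mul_nonneg h0 (sub_nonneg.2 h1))]

theorem dtm_gmat_le (A : E m →L[ℝ] E n) : dtm (gmat A) ≤ (1 + ‖A‖ ^ 2) ^ m := by
  obtain ⟨c, hc⟩ : ∃ c : ℝ, c = 1 + ‖A‖ ^ 2 := ⟨_, rfl⟩
  have hc0 : 0 < c := by rw [hc]; positivity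
  have hq : ∀ v, inner ℝ (gmat A v) v = ‖v‖ ^ 2 + ‖A v‖ ^ 2 := by
    intro v
    rw [inner_gmat, real_inner_self_eq_norm_sq, real_inner_self_eq_norm_sq]
  have hb := dtm_bounds_of_symm (c⁻¹ • gmat A)
    (fun v w => by
      simp only [_root_.smul_apply, inner_smul_left, inner_smul_right, conj_trivial]
      rw [gmat_symm])
    (fun v => by
      simp only [_root_.smul_apply, inner_smul_left, conj_trivial]
      rw [hq]
      positivity)
    (fun v => by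
      simp only [_root_.smul_apply, inner_smul_left, conj_trivial]
      rw [hq, inv_mul_le_iff₀ hc0, hc]
      have h1 : ‖A v‖ ^ 2 ≤ (‖A‖ * ‖v‖) ^ 2 := pow_le_pow_left₀ (norm_nonneg _) (A.le_opNorm v) 2
      nlinarith)
  have h2 : dtm (c⁻¹ • gmat A) = c⁻¹ ^ m * dtm (gmat A) := by
    unfold dtm
    have := LinearMap.det_smul c⁻¹ ((gmat A : E m →L[ℝ] E m) : E m →ₗ[ℝ] E m)
    rw [finrank_euclideanSpace_fin] at this
    exact this
  have h3 := hb.2.1
  rw [h2, inv_pow, inv_mul_le_iff₀ (pow_pos hc0 m), mul_one] at h3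
  rw [← hc]
  exact h3

theorem vdens_sub_one_le_aux (m n : ℕ) : ∃ C : ℝ, 0 < C ∧ ∀ A : E m →L[ℝ] E n, ‖A‖ ≤ 1 →
    1 ≤ vdens A ∧ vdens A ≤ 1 + C * ‖A‖ ^ 2 := by
  refine ⟨2 ^ m, by positivity, fun A hA => ⟨Base.Exit.one_le_vdens A, ?_⟩⟩
  have h0 : (0 : ℝ) ≤ ‖A‖ ^ 2 := by positivity
  have h1 : ‖A‖ ^ 2 ≤ 1 := pow_le_one₀ (norm_nonneg _) hA
  have h2 : vdens A ^ 2 ≤ (1 + ‖A‖ ^ 2) ^ m := by
    rw [vdens_sq]
    exact dtm_gmat_le A
  have h3 := one_add_pow_le_lin m h0 h1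
  have h4 := Base.Exit.one_le_vdens A
  have h5 : vdens A ≤ vdens A ^ 2 := by nlinarith
  nlinarith

/-! ### E7 -/

theorem en_continuous_vdens : Continuous (vdens : (E m →L[ℝ] E n) → ℝ) := by
  unfold vdens
  exact Real.continuous_sqrt.comp
    (ContinuousLinearMap.continuous_det.comp (contDiff_gmatA (k := 0)).continuous)

theorem hasCompactSupport_of_tsupport_subset_ball {F : Type*} [Zero F] {η : E m → F} {x : E m}
    {r : ℝ} (h : tsupport η ⊆ Metric.ball x r) : HasCompactSupport η :=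
  (Metric.isBounded_ball.subset h).isCompact_closure.of_isClosed_subset
    (isClosed_tsupport η) subset_closure

/-- unfolded form of `MassC.wmass`. -/
theorem wmass_aux (m n Q : ℕ) : ∃ C : ℝ, 0 < C ∧ ∀ (W : SIV m n) (R t κ : ℝ) (f : E m → E n) (x : E m)
    (r ℓ c₁ c₂ : ℝ), 0 < ℓ → 0 < r → (∀ y, ‖fderiv ℝ f y‖ ≤ κ) → κ ≤ 1 → Continuous (fderiv ℝ f) →
    0 ≤ c₁ → 0 ≤ c₂ →
    (∀ (G : E m → ℝ) (A₀ A₁ : ℝ), ContDiff ℝ 1 G → tsupport G ⊆ Metric.ball x (r * ℓ) →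
      (∀ y, |G y| ≤ A₀) → (∀ y, ‖fderiv ℝ G y‖ ≤ A₁) →
      |∫ X, G (prH m n X) ∂(muc W R t)
          - Q * ∫ y, G y * vdens (fderiv ℝ f y) ∂(μH[(m : ℝ)] : Measure (E m))|
        ≤ c₁ * ℓ ^ m * A₀ + c₂ * ℓ ^ (m + 1) * A₁) →
    WMass W R t Q x (r * ℓ) ℓ (c₁ + c₂ + C * κ ^ 2 * r ^ m) := by
  obtain ⟨C', hC', hv⟩ := vdens_sub_one_le_aux m n
  have hk := kap_pos m
  refine ⟨Q * C' * kap m + 1, by positivity, ?_⟩
  intro W R t κ f x r ℓ c₁ c₂ hℓ hr hs hκ hc hc₁ hc₂ hM η A hη hsupp hA hA'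
  have := isAddHaar_hausdorff m
  have hA0 : 0 ≤ A := (abs_nonneg _).trans (hA 0)
  have hκ0 : 0 ≤ κ := (norm_nonneg _).trans (hs 0)
  have hrl : 0 < r * ℓ := mul_pos hr hℓ
  have h1 := hM η A (A / ℓ) hη hsupp hA (fun y => by
    rw [le_div_iff₀ hℓ, mul_comm]
    exact hA' y)
  have hcs : HasCompactSupport η := hasCompactSupport_of_tsupport_subset_ball hsupp
  have hvc : Continuous (fun y => vdens (fderiv ℝ f y)) := en_continuous_vdens.comp hc
  have hi1 : Integrable η (μH[(m : ℝ)] : Measure (E m)) :=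
    hη.continuous.integrable_of_hasCompactSupport hcs
  have hi2 : Integrable (fun y => η y * vdens (fderiv ℝ f y)) (μH[(m : ℝ)] : Measure (E m)) :=
    (hη.continuous.mul hvc).integrable_of_hasCompactSupport hcs.mul_right
  have h2 : |∫ y, η y * vdens (fderiv ℝ f y) ∂(μH[(m : ℝ)] : Measure (E m))
      - ∫ y, η y ∂(μH[(m : ℝ)] : Measure (E m))| ≤ A * (C' * κ ^ 2) * (kap m * (r * ℓ) ^ m) := by
    rw [← integral_sub hi2 hi1]
    have e : (fun y => η y * vdens (fderiv ℝ f y) - η y)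
        = (Metric.ball x (r * ℓ)).indicator (fun y => η y * vdens (fderiv ℝ f y) - η y) := by
      funext y
      by_cases hy : y ∈ Metric.ball x (r * ℓ)
      · rw [Set.indicator_of_mem hy]
      · rw [Set.indicator_of_notMem hy]
        have : η y = 0 := image_eq_zero_of_notMem_tsupport fun h => hy (hsupp h)
        rw [this]
        ring
    rw [e, integral_indicator Metric.isOpen_ball.measurableSet, ← Real.norm_eq_abs]
    have hfin : (μH[(m : ℝ)] : Measure (E m)) (Metric.ball x (r * ℓ)) < ⊤ := measure_ball_lt_top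
    refine (norm_setIntegral_le_of_norm_le_const hfin (C := A * (C' * κ ^ 2)) fun y _ => ?_).trans
      (le_of_eq ?_)
    · have h3 := hv (fderiv ℝ f y) ((hs y).trans hκ)
      have h4 : ‖fderiv ℝ f y‖ ^ 2 ≤ κ ^ 2 := pow_le_pow_left₀ (norm_nonneg _) (hs y) 2
      have e2 : η y * vdens (fderiv ℝ f y) - η y = η y * (vdens (fderiv ℝ f y) - 1) := by ring
      have h5 : 0 ≤ vdens (fderiv ℝ f y) - 1 := by linarith [h3.1]
      rw [e2, norm_mul, Real.norm_eq_abs, Real.norm_eq_abs, abs_of_nonneg h5]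
      refine mul_le_mul (hA y) ?_ h5 hA0
      nlinarith [h3.2]
    · rw [Measure.real, hausdorff_ball m x hrl, ENNReal.toReal_ofReal (by positivity)]
  have h3 : |∫ X, η (prH m n X) ∂(muc W R t) - Q * ∫ y, η y ∂(μH[(m : ℝ)] : Measure (E m))|
      ≤ (c₁ * ℓ ^ m * A + c₂ * ℓ ^ (m + 1) * (A / ℓ))
        + Q * (A * (C' * κ ^ 2) * (kap m * (r * ℓ) ^ m)) := by
    have e3 : ∫ X, η (prH m n X) ∂(muc W R t) - Q * ∫ y, η y ∂(μH[(m : ℝ)] : Measure (E m))
        = (∫ X, η (prH m n X) ∂(muc W R t)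
            - Q * ∫ y, η y * vdens (fderiv ℝ f y) ∂(μH[(m : ℝ)] : Measure (E m)))
          + Q * (∫ y, η y * vdens (fderiv ℝ f y) ∂(μH[(m : ℝ)] : Measure (E m))
            - ∫ y, η y ∂(μH[(m : ℝ)] : Measure (E m))) := by ring
    rw [e3]
    refine (abs_add_le _ _).trans (add_le_add h1 ?_)
    rw [abs_mul, abs_of_nonneg (Nat.cast_nonneg Q)]
    exact mul_le_mul_of_nonneg_left h2 (Nat.cast_nonneg Q)
  refine h3.trans ?_
  have e4 : c₂ * ℓ ^ (m + 1) * (A / ℓ) = c₂ * ℓ ^ m * A := by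
    field_simp
    ring
  rw [e4, mul_pow]
  have h5 : 0 ≤ κ ^ 2 * r ^ m * ℓ ^ m * A := by positivity
  nlinarith

/-! ### S3 : the graph function in the new units -/

/-- translation of the graph function: `y ↦ f (x + y) - c`. -/
noncomputable def enTr (x : E m) (c : E n) (f : E m → E n) (y : E m) : E n := f (x + y) - c

section tr
variable (x : E m) (c : E n) (f : E m → E n)

theorem fderiv_enTr : fderiv ℝ (enTr x c f) = fun y => fderiv ℝ f (x + y) := by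
  funext y
  unfold enTr
  rw [fderiv_sub_const, fderiv_comp_add_left]

theorem D2_enTr (y : E m) : D2 (enTr x c f) y = D2 f (x + y) := by
  unfold D2
  rw [fderiv_enTr, fderiv_comp_add_left]

theorem Pv_enTr (y : E m) : Pv (enTr x c f) y = Pv f (x + y) := by
  unfold Pv Ph
  rw [fderiv_enTr]

theorem HS_enTr : HS (enTr x c f) = fun y => HS f (x + y) := by
  funext y
  unfold HS II
  simp only [Pv_enTr, D2_enTr, fderiv_enTr]

theorem DHS_enTr (y a : E m) : DHS (enTr x c f) y a = DHS f (x + y) a := by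
  unfold DHS
  rw [Pv_enTr, HS_enTr, fderiv_comp_add_left]

theorem DHSsq_enTr (y : E m) : DHSsq (enTr x c f) y = DHSsq f (x + y) := by
  unfold DHSsq
  simp only [DHS_enTr, fderiv_enTr]

theorem contDiff_enTr {f : E m → E n} {k : WithTop ℕ∞} (hf : ContDiff ℝ k f) :
    ContDiff ℝ k (enTr x c f) :=
  (hf.comp (contDiff_const.add contDiff_id)).sub contDiff_const

theorem iteratedFDeriv_enTr {f : E m → E n} {j : ℕ} (hf : ContDiff ℝ j f) (hj : j ≠ 0) (y : E m) :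
    iteratedFDeriv ℝ j (enTr x c f) y = iteratedFDeriv ℝ j f (x + y) := by
  have e : enTr x c f = (fun y => f (x + y)) - fun _ => c := rfl
  have h1 : ContDiff ℝ j (fun y => f (x + y)) := hf.comp (contDiff_const.add contDiff_id)
  rw [e, iteratedFDeriv_sub_apply h1.contDiffAt contDiff_const.contDiffAt,
    iteratedFDeriv_const_of_ne hj, iteratedFDeriv_comp_add_left]
  simp

end tr

theorem rs_eq_dilU (x : E m) {ℓ : ℝ} (f : E m → E n) :
    (fun y => ℓ⁻¹ • (f (x + ℓ • y) - f x)) = dilU ℓ⁻¹ (enTr x (f x) f) := by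
  funext y
  simp [dilU, enTr]

theorem rs_facts_aux {f : E m → E n} {J : ℕ} (hf : ContDiff ℝ J f) (x : E m) {ℓ : ℝ} (hℓ : 0 < ℓ) :
    ContDiff ℝ J (fun y => ℓ⁻¹ • (f (x + ℓ • y) - f x)) ∧
    (fun y => ℓ⁻¹ • (f (x + ℓ • y) - f x)) 0 = 0 ∧
    ∀ j : ℕ, 1 ≤ j → j ≤ J → ∀ y,
      ‖iteratedFDeriv ℝ j (fun y => ℓ⁻¹ • (f (x + ℓ • y) - f x)) y‖
        = ℓ ^ (j - 1) * ‖iteratedFDeriv ℝ j f (x + ℓ • y)‖ := by
  refine ⟨?_, by simp, fun j hj1 hjJ y => ?_⟩
  · rw [rs_eq_dilU]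
    exact contDiff_dilU (contDiff_enTr x (f x) hf) _
  · rw [rs_eq_dilU, norm_iteratedFDeriv_dilU (contDiff_enTr x (f x) hf) (inv_pos.2 hℓ) hjJ, inv_inv,
      iteratedFDeriv_enTr x (f x) (hf.of_le (by exact_mod_cast hjJ)) (by omega)]
    congr 1
    obtain ⟨k, rfl⟩ : ∃ k, j = k + 1 := ⟨j - 1, by omega⟩
    rw [Nat.add_sub_cancel, pow_succ]
    field_simp

theorem rs_curv_aux (f : E m → E n) (x : E m) {ℓ : ℝ} (hℓ : 0 < ℓ) (y : E m) :
    ‖HS (fun y => ℓ⁻¹ • (f (x + ℓ • y) - f x)) y‖ = ℓ * ‖HS f (x + ℓ • y)‖ ∧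
      DHSsq (fun y => ℓ⁻¹ • (f (x + ℓ • y) - f x)) y = ℓ ^ 4 * DHSsq f (x + ℓ • y) := by
  have h0 : ℓ⁻¹ ≠ 0 := (inv_pos.2 hℓ).ne'
  rw [rs_eq_dilU, HS_dilU _ h0, DHSsq_dilU _ h0, HS_enTr, DHSsq_enTr]
  simp only [inv_inv, norm_smul, Real.norm_eq_abs, abs_of_pos hℓ, inv_pow, true_and]

theorem exists_cut7_bound (m J : ℕ) : ∃ M : ℝ, 1 ≤ M ∧ ∀ i : ℕ, i ≤ J → ∀ y,
    ‖iteratedFDeriv ℝ i (cut7 m) y‖ ≤ M := by
  have h : ∀ i : ℕ, ∃ C : ℝ, ∀ y, ‖iteratedFDeriv ℝ i (cut7 m) y‖ ≤ C := fun i =>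
    ((cut7 m).contDiff.continuous_iteratedFDeriv (m := i) (n := ∞)
      (by exact_mod_cast le_top)).bounded_above_of_compact_support
      ((cut7 m).hasCompactSupport.iteratedFDeriv i)
  choose C hC using h
  refine ⟨1 + ∑ i ∈ Finset.range (J + 1), |C i|, ?_, fun i hi y => ?_⟩
  · have : 0 ≤ ∑ i ∈ Finset.range (J + 1), |C i| := Finset.sum_nonneg fun _ _ => abs_nonneg _
    linarith
  · have h1 : |C i| ≤ ∑ i ∈ Finset.range (J + 1), |C i| :=
      Finset.single_le_sum (f := fun i => |C i|) (fun _ _ => abs_nonneg _)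
        (Finset.mem_range.2 (by omega))
    linarith [hC i y, le_abs_self (C i)]

theorem scl_facts_aux (m n J : ℕ) (hJ : 1 ≤ J) : ∃ C : ℝ, 1 ≤ C ∧ ∀ (f : E m → E n) (x : E m) (ℓ κ : ℝ),
    0 < ℓ → 0 ≤ κ →
    ContDiff ℝ J f → (∀ j : ℕ, 1 ≤ j → j ≤ J → ∀ y, ℓ ^ (j - 1) * ‖iteratedFDeriv ℝ j f y‖ ≤ κ) →
    (∀ y ∈ Metric.ball (0 : E m) 76, scl x ℓ f =ᶠ[𝓝 y] fun y => ℓ⁻¹ • (f (x + ℓ • y) - f x)) ∧
    RefGraph J (C * κ) (C * κ) (scl x ℓ f) ∧ ∀ y, ‖scl x ℓ f y‖ ≤ C * κ := by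
  obtain ⟨M, hM1, hM⟩ := exists_cut7_bound m J
  have hpow : (1 : ℝ) ≤ 2 ^ J := one_le_pow₀ (by norm_num)
  refine ⟨2 ^ J * M * 78, by nlinarith, ?_⟩
  intro f x ℓ κ hℓ hκ hf hb
  obtain ⟨g, hg⟩ : ∃ g : E m → E n, g = fun y => ℓ⁻¹ • (f (x + ℓ • y) - f x) := ⟨_, rfl⟩
  obtain ⟨hgc, hg0, hgd⟩ := rs_facts_aux hf x hℓ
  rw [← hg] at hgc hg0 hgd ⊢
  have hscl : scl x ℓ f = fun y => cut7 m y • g y := by
    rw [hg]
    rfl
  have hgb : ∀ j : ℕ, 1 ≤ j → j ≤ J → ∀ y, ‖iteratedFDeriv ℝ j g y‖ ≤ κ := fun j h1 h2 y => by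
    rw [hgd j h1 h2]
    exact hb j h1 h2 _
  have hgdiff : Differentiable ℝ g := hgc.differentiable (by exact_mod_cast (by omega : J ≠ 0))
  have hgs : ∀ y, ‖fderiv ℝ g y‖ ≤ κ := fun y => by
    rw [← norm_iteratedFDeriv_one]
    exact hgb 1 le_rfl hJ y
  have hg1 : ∀ y, ‖g y‖ ≤ κ * ‖y‖ := fun y => by
    have := en_lip_of_slope hgdiff hgs y 0
    rwa [hg0, sub_zero, sub_zero] at this
  have hgall : ∀ k : ℕ, k ≤ J → ∀ y : E m, ‖y‖ ≤ 78 → ‖iteratedFDeriv ℝ k g y‖ ≤ 78 * κ := by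
    intro k hk y hy
    rcases Nat.eq_zero_or_pos k with rfl | hk0
    · rw [norm_iteratedFDeriv_zero]
      refine (hg1 y).trans ?_
      nlinarith
    · refine (hgb k hk0 hk y).trans ?_
      linarith
  have hcut0 : ∀ (i : ℕ) (y : E m), 78 < ‖y‖ → iteratedFDeriv ℝ i (cut7 m) y = 0 := by
    intro i y hy
    refine image_eq_zero_of_notMem_tsupport fun h => ?_
    have h2 := tsupport_iteratedFDeriv_subset (𝕜 := ℝ) i h
    rw [(cut7 m).tsupport_eq, Metric.mem_closedBall, dist_zero_right] at h2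
    have h3 : (cut7 m).rOut = 78 := rfl
    linarith
  have hcc : ContDiff ℝ J (cut7 m : E m → ℝ) := (cut7 m).contDiff
  have key : ∀ j : ℕ, j ≤ J → ∀ y, ‖iteratedFDeriv ℝ j (scl x ℓ f) y‖ ≤ 2 ^ J * M * 78 * κ := by
    intro j hj y
    rw [hscl]
    refine (norm_iteratedFDeriv_smul_le hcc hgc y (n := j) (by exact_mod_cast hj)).trans ?_
    have hterm : ∀ i ∈ Finset.range (j + 1),
        (j.choose i : ℝ) * ‖iteratedFDeriv ℝ i (cut7 m) y‖ * ‖iteratedFDeriv ℝ (j - i) g y‖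
          ≤ (j.choose i : ℝ) * (M * (78 * κ)) := by
      intro i hi
      have hi' : i ≤ j := by
        have := Finset.mem_range.1 hi
        omega
      rw [mul_assoc]
      refine mul_le_mul_of_nonneg_left ?_ (Nat.cast_nonneg _)
      rcases le_or_gt ‖y‖ 78 with hy | hy
      · exact mul_le_mul (hM i (hi'.trans hj) y) (hgall (j - i) (by omega) y hy) (norm_nonneg _)
          (by linarith)
      · rw [hcut0 i y hy, norm_zero, zero_mul]
        positivity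
    refine (Finset.sum_le_sum hterm).trans ?_
    rw [← Finset.sum_mul]
    have h2 : (∑ i ∈ Finset.range (j + 1), (j.choose i : ℝ)) = 2 ^ j := by
      exact_mod_cast Nat.sum_range_choose j
    rw [h2]
    have h3 : (2 : ℝ) ^ j ≤ 2 ^ J := pow_le_pow_right₀ (by norm_num) hj
    have h4 : 0 ≤ M * (78 * κ) := by positivity
    calc (2 : ℝ) ^ j * (M * (78 * κ)) ≤ 2 ^ J * (M * (78 * κ)) := mul_le_mul_of_nonneg_right h3 h4
      _ = 2 ^ J * M * 78 * κ := by ring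
  refine ⟨fun y hy => ?_, ⟨?_, fun y => ?_, fun j _ hj y => key j hj y⟩, fun y => ?_⟩
  · filter_upwards [Metric.isOpen_ball.mem_nhds hy] with z hz
    rw [hscl]
    have h1 : z ∈ Metric.closedBall (0 : E m) (cut7 m).rIn := Metric.ball_subset_closedBall hz
    show cut7 m z • g z = g z
    rw [(cut7 m).one_of_mem_closedBall h1, one_smul]
  · rw [hscl]
    exact hcc.smul hgc
  · rw [← norm_iteratedFDeriv_one]
    exact key 1 hJ y
  · rw [← norm_iteratedFDeriv_zero (𝕜 := ℝ)]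
    exact key 0 (Nat.zero_le _) y

/-! ### S4 : curvature -/

theorem HS_eq_mssOp (f : E m → E n) (y : E m) : HS f y = Pv f y (inV m n (mssOp f y)) :=
  Base.Exit.HS_eq f y

theorem curv_of_mss_aux {κ : ℝ} {f Ξ : E m → E n} (hf : Geo κ f) (hΞ : ContDiff ℝ 1 Ξ) {y : E m}
    (h : mssOp f =ᶠ[𝓝 y] Ξ) :
    ‖HS f y‖ ≤ ‖Ξ y‖ ∧
      Real.sqrt (DHSsq f y) ≤ Real.sqrt m * (3 * κ * ‖Ξ y‖ + ‖fderiv ℝ Ξ y‖) := by
  have hκ := hf.nonneg
  constructor
  · rw [HS_eq_mssOp, h.eq_of_nhds]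
    exact (norm_Pv_apply_le f y _).trans (le_of_eq (norm_inV _))
  have e1 : HS f =ᶠ[𝓝 y] fun z => Pv f z (inV m n (Ξ z)) := by
    filter_upwards [h] with z hz
    rw [HS_eq_mssOp, hz]
  have hPv : HasFDerivAt (Pv f) (- fderiv ℝ (Ph f) y) y := by
    unfold Pv
    exact (hasFDerivAt_Ph hf.c2 y).const_sub _
  have hX : HasFDerivAt (fun z => inV m n (Ξ z)) (inV m n ∘L fderiv ℝ Ξ y) y :=
    (inV m n).hasFDerivAt.comp y (hΞ.differentiable one_ne_zero y).hasFDerivAt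
  have hF := hPv.clm_apply hX
  have e2 : fderiv ℝ (HS f) y = (Pv f y).comp (inV m n ∘L fderiv ℝ Ξ y)
      + (- fderiv ℝ (Ph f) y).flip (inV m n (Ξ y)) := by
    rw [e1.fderiv_eq]
    exact hF.fderiv
  have h3 : ‖fderiv ℝ (HS f) y‖ ≤ 3 * κ * ‖Ξ y‖ + ‖fderiv ℝ Ξ y‖ := by
    refine ContinuousLinearMap.opNorm_le_bound _ (by positivity) fun a => ?_
    rw [e2]
    simp only [_root_.add_apply, ContinuousLinearMap.comp_apply, ContinuousLinearMap.flip_apply,
      _root_.neg_apply]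
    have h4 : ‖Pv f y (inV m n (fderiv ℝ Ξ y a))‖ ≤ ‖fderiv ℝ Ξ y‖ * ‖a‖ :=
      (norm_Pv_apply_le f y _).trans (by rw [norm_inV]; exact (fderiv ℝ Ξ y).le_opNorm a)
    have h5 : ‖fderiv ℝ (Ph f) y a (inV m n (Ξ y))‖ ≤ 3 * κ * ‖a‖ * ‖Ξ y‖ := by
      refine ((fderiv ℝ (Ph f) y a).le_opNorm _).trans ?_
      rw [norm_inV]
      exact mul_le_mul_of_nonneg_right (hf.norm_dPh_le y a) (norm_nonneg _)
    calc _ ≤ ‖Pv f y (inV m n (fderiv ℝ Ξ y a))‖ + ‖-(fderiv ℝ (Ph f) y a (inV m n (Ξ y)))‖ :=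
          norm_add_le _ _
      _ ≤ ‖fderiv ℝ Ξ y‖ * ‖a‖ + 3 * κ * ‖a‖ * ‖Ξ y‖ := by
          rw [norm_neg]
          exact add_le_add h4 h5
      _ = _ := by ring
  calc Real.sqrt (DHSsq f y) ≤ Real.sqrt (m * ‖fderiv ℝ (HS f) y‖ ^ 2) :=
        Real.sqrt_le_sqrt (v4_DHSsq_le f y)
    _ = Real.sqrt m * ‖fderiv ℝ (HS f) y‖ := by
        rw [Real.sqrt_mul (Nat.cast_nonneg m), Real.sqrt_sq (norm_nonneg _)]
    _ ≤ _ := mul_le_mul_of_nonneg_left h3 (Real.sqrt_nonneg _)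

/-! ### S4 : mass -/

theorem norm_mkHV_le (a : E m) (b : E n) : ‖mkHV a b‖ ≤ ‖a‖ + ‖b‖ := by
  rw [mkHV_eq]
  refine (norm_add_le _ _).trans ?_
  rw [norm_inH, norm_inV]

theorem en_norm_le_prH_add_prV (X : E (m + n)) : ‖X‖ ≤ ‖prH m n X‖ + ‖prV m n X‖ := by
  conv_lhs => rw [← mkHV_prH_prV X]
  exact norm_mkHV_le _ _

theorem en_isOpen_ovr (x : E m) (r : ℝ) : IsOpen (ovr m n x r) :=
  isOpen_lt (((prH m n).continuous.sub continuous_const).norm) continuous_const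

theorem mass_ovr_aux (hm : 1 ≤ m) {W : SIV m n} {Q : ℕ} {eg : ℝ} (hW : IsGood W Q eg) (heg : eg ≤ 1)
    {f : E m → E n} (hf : Differentiable ℝ f) (hs : ∀ y, ‖fderiv ℝ f y‖ ≤ 1) (hsup : ∀ y, ‖f y‖ ≤ 1)
    {x : E m} (hx : ‖x‖ < 5) {ρ h : ℝ} (hρ : 0 < ρ) (hρ' : ρ ≤ 200) (hh : h ≤ ρ)
    (hH : Hgt W 300 1 f x ρ h) :
    muc W 300 1 (ovr m n x ρ) ≤ ENNReal.ofReal ((15 / 4) ^ m * (Q + 1) * kap m * ρ ^ m) := by
  obtain ⟨p, hp⟩ : ∃ p, p = mkHV x (f x) := ⟨_, rfl⟩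
  have hk := kap_pos m
  have hpn : ‖p‖ ≤ 10 := by
    rw [hp]
    refine (norm_mkHV_le _ _).trans ?_
    linarith [hsup x]
  have hsub : ovr m n x ρ ∩ Zc m n 300 1 ⊆ Metric.ball p (3 * ρ) ∪ W.supportᶜ := by
    intro X hX
    by_cases hXs : X ∈ W.support
    · left
      have h1 : ‖prH m n X - x‖ < ρ := hX.1
      have h2 := hH X hXs hX.2 h1
      have e : X - p = mkHV (prH m n X - x) (prV m n X - f x) := by
        rw [mkHV_sub, mkHV_prH_prV, hp]
      have h3 : ‖prV m n X - f x‖ ≤ ‖zet f X‖ + ‖f (prH m n X) - f x‖ := by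
        have : prV m n X - f x = zet f X + (f (prH m n X) - f x) := by
          unfold zet
          abel
        rw [this]
        exact norm_add_le _ _
      have h4 := en_lip_of_slope hf hs (prH m n X) x
      rw [Metric.mem_ball, dist_eq_norm, e]
      refine (norm_mkHV_le _ _).trans_lt ?_
      linarith
    · right
      exact hXs
  have hdom : ∀ {q : E (m + n)} {s : ℝ}, ‖q‖ + s ≤ 2000 → Metric.closedBall q s ⊆ W.U := by
    intro q s hqs
    refine Set.Subset.trans ?_ hW.dom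
    refine Metric.closedBall_subset_closedBall' ?_
    rw [dist_zero_right]
    linarith
  have h1 : muc W 300 1 (ovr m n x ρ) ≤ W.μ (Metric.ball p (3 * ρ)) := by
    unfold muc
    rw [Measure.restrict_apply (en_isOpen_ovr x ρ).measurableSet]
    refine (measure_mono hsub).trans ((measure_union_le _ _).trans ?_)
    rw [W.μ_compl_support, add_zero]
  have h2 := W.upper_mass hm (p := p) (r := 3 * ρ) (R := 990) (by positivity) (by linarith)
    (hdom (by linarith))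
  have h3 := W.ratio_le_of_dist (p := 0) (q := p) (r := 990) (δ := 10) (by norm_num)
    (by rw [dist_zero_right]; exact hpn) (hdom (by norm_num))
  have h4 : W.ratio p 990 ≤ (100 / 99) ^ m * (Q + 1) := by
    refine h3.trans ?_
    have e1 : (1 + 10 / 990 : ℝ) = 100 / 99 := by norm_num
    have e2 : (990 + 10 : ℝ) = 1000 := by norm_num
    rw [e1, e2]
    refine mul_le_mul_of_nonneg_left ?_ (by positivity)
    linarith [hW.ratio]
  refine h1.trans (h2.trans (ENNReal.ofReal_le_ofReal ?_))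
  calc W.ratio p 990 * (kap m * (3 * ρ) ^ m)
      ≤ ((100 / 99) ^ m * (Q + 1)) * (kap m * (3 * ρ) ^ m) :=
        mul_le_mul_of_nonneg_right h4 (by positivity)
    _ = (100 / 99 * 3) ^ m * ((Q + 1) * kap m * ρ ^ m) := by
        rw [mul_pow, mul_pow]
        ring
    _ ≤ (15 / 4) ^ m * ((Q + 1) * kap m * ρ ^ m) := by
        refine mul_le_mul_of_nonneg_right ?_ (by positivity)
        exact pow_le_pow_left₀ (by norm_num) (by norm_num) m
    _ = _ := by ring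

/-! ### S4 : good varifolds -/

/-- vertical cutoff: `1` for `|prV X| ≤ 1`, `0` for `|prV X| ≥ 2`. -/
noncomputable def vcut (m n : ℕ) (X : E (m + n)) : ℝ := max 0 (min 1 (2 - ‖prV m n X‖))

theorem vcut_lip : LipschitzWith 1 (vcut m n) := by
  have h : LipschitzWith 1 (fun X : E (m + n) => 2 - ‖prV m n X‖) := by
    refine LipschitzWith.of_dist_le_mul fun X Y => ?_
    rw [Real.dist_eq, dist_eq_norm, NNReal.coe_one, one_mul]
    have e : 2 - ‖prV m n X‖ - (2 - ‖prV m n Y‖) = ‖prV m n Y‖ - ‖prV m n X‖ := by ring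
    rw [e]
    refine (abs_norm_sub_norm_le _ _).trans ?_
    rw [← map_sub, norm_sub_rev X Y]
    exact norm_prV_le _
  exact (h.const_min 1).const_max 0

theorem vcut_nonneg (X : E (m + n)) : 0 ≤ vcut m n X := le_max_left _ _

theorem vcut_le_one (X : E (m + n)) : vcut m n X ≤ 1 :=
  max_le zero_le_one (min_le_left _ _)

theorem vcut_eq_one {X : E (m + n)} (h : ‖prV m n X‖ ≤ 1) : vcut m n X = 1 := by
  unfold vcut
  rw [min_eq_left (by linarith), max_eq_right zero_le_one]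

theorem vcut_eq_zero {X : E (m + n)} (h : 2 ≤ ‖prV m n X‖) : vcut m n X = 0 := by
  unfold vcut
  rw [min_eq_right (by linarith), max_eq_left (by linarith)]

theorem en_isOpen_Zc (R t : ℝ) : IsOpen (Zc m n R t) :=
  (isOpen_lt (prH m n).continuous.norm continuous_const).inter
    (isOpen_lt (prV m n).continuous.norm continuous_const)

theorem good_flat_aux {W : SIV m n} {Q : ℕ} {eg : ℝ} (hW : IsGood W Q eg)
    (heg : eg ≤ 1 / 2) :
    Flat W 300 1 ∧ (∀ X ∈ W.support, X ∈ Zc m n 300 1 → ‖prV m n X‖ ≤ eg) ∧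
      ∀ x : E m, ‖x‖ < 5 → WMass W 300 1 Q x 128 1 (2 * eg) := by
  have hht : ∀ X ∈ W.support, ‖prH m n X‖ < 300 → ‖prV m n X‖ < 2 → ‖prV m n X‖ ≤ eg := by
    intro X hX h1 h2
    refine hW.height X hX ?_
    linarith [en_norm_le_prH_add_prV X]
  refine ⟨⟨one_pos, ?_, ?_⟩, ?_, ?_⟩
  · intro X hX
    refine hW.dom ?_
    rw [Metric.mem_closedBall, dist_zero_right]
    linarith [en_norm_le_prH_add_prV X, hX.1, hX.2]
  · intro X hX h1 h2
    linarith [hht X hX h1 (by linarith)]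
  · intro X hX hZ
    exact hht X hX hZ.1 (by linarith [hZ.2])
  intro x hx η A hη hsupp hA hA'
  have hA0 : 0 ≤ A := (abs_nonneg _).trans (hA 0)
  rcases hA0.eq_or_lt with hAz | hApos
  · have hz : ∀ y, η y = 0 := fun y => abs_eq_zero.1 (le_antisymm (by rw [hAz]; exact hA y)
      (abs_nonneg _))
    simp [hz, ← hAz]
  obtain ⟨χ, hχ⟩ : ∃ χ : E (m + n) → ℝ, χ = fun X => (2 * A)⁻¹ * (η (prH m n X) * vcut m n X) :=
    ⟨_, rfl⟩
  have hηlip : ∀ a b : E m, |η a - η b| ≤ A * ‖a - b‖ := fun a b => by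
    rw [← Real.norm_eq_abs]
    exact Convex.norm_image_sub_le_of_norm_fderiv_le (s := Set.univ)
      (fun z _ => hη.differentiable one_ne_zero z)
      (fun z _ => by have := hA' z; rwa [one_mul] at this) convex_univ (Set.mem_univ _)
      (Set.mem_univ _)
  have hb : ∀ X, |χ X| ≤ 1 := by
    intro X
    rw [hχ]
    simp only
    rw [abs_mul, abs_mul, abs_of_pos (by positivity : 0 < (2 * A)⁻¹), abs_of_nonneg (vcut_nonneg X),
      inv_mul_le_iff₀ (by positivity)]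
    have := mul_le_mul (hA (prH m n X)) (vcut_le_one X) (vcut_nonneg X) hA0
    linarith
  have hlip : LipschitzWith 1 χ := by
    refine LipschitzWith.of_dist_le_mul fun X Y => ?_
    rw [Real.dist_eq, dist_eq_norm, NNReal.coe_one, one_mul, hχ]
    simp only
    rw [← mul_sub, abs_mul, abs_of_pos (by positivity : 0 < (2 * A)⁻¹),
      inv_mul_le_iff₀ (by positivity)]
    have e : η (prH m n X) * vcut m n X - η (prH m n Y) * vcut m n Y
        = (η (prH m n X) - η (prH m n Y)) * vcut m n X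
          + η (prH m n Y) * (vcut m n X - vcut m n Y) := by ring
    have h1 : |η (prH m n X) - η (prH m n Y)| ≤ A * ‖X - Y‖ := by
      refine (hηlip _ _).trans (mul_le_mul_of_nonneg_left ?_ hA0)
      rw [← map_sub]
      exact norm_prH_le _
    have h2 : |vcut m n X - vcut m n Y| ≤ ‖X - Y‖ := by
      have := vcut_lip.dist_le_mul X Y
      rwa [Real.dist_eq, dist_eq_norm, NNReal.coe_one, one_mul] at this
    rw [e]
    refine (abs_add_le _ _).trans ?_
    rw [abs_mul, abs_mul, abs_of_nonneg (vcut_nonneg X)]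
    have h3 := mul_le_mul h1 (vcut_le_one X) (vcut_nonneg X) (by positivity)
    have h4 := mul_le_mul (hA (prH m n Y)) h2 (abs_nonneg _) hA0
    linarith
  have hts : tsupport χ ⊆ Metric.closedBall 0 1000 := by
    refine closure_minimal ?_ Metric.isClosed_closedBall
    intro X hX
    rw [Function.mem_support, hχ] at hX
    have h1 : η (prH m n X) ≠ 0 := fun h => hX (by simp [h])
    have h2 : vcut m n X ≠ 0 := fun h => hX (by simp [h])
    have h3 : prH m n X ∈ Metric.ball x 128 := hsupp (subset_tsupport _ h1)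
    have h4 : ‖prV m n X‖ < 2 := by
      by_contra hcon
      exact h2 (vcut_eq_zero (not_lt.1 hcon))
    rw [Metric.mem_ball, dist_eq_norm] at h3
    have h5 : ‖prH m n X‖ ≤ ‖prH m n X - x‖ + ‖x‖ := by
      have := norm_add_le (prH m n X - x) x
      rwa [sub_add_cancel] at this
    rw [Metric.mem_closedBall, dist_zero_right]
    linarith [en_norm_le_prH_add_prV X]
  have hmass := hW.mass χ hb hlip hts
  have e1 : ∫ X, χ X ∂W.μ = (2 * A)⁻¹ * ∫ X, η (prH m n X) ∂(muc W 300 1) := by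
    unfold muc
    rw [← integral_indicator (en_isOpen_Zc 300 1).measurableSet, ← integral_const_mul]
    refine integral_congr_ae ?_
    have hae : ∀ᵐ X ∂W.μ, X ∈ W.support := by
      rw [ae_iff]
      exact W.μ_compl_support
    filter_upwards [hae] with X hX
    rw [hχ]
    simp only
    congr 1
    by_cases hZ : X ∈ Zc m n 300 1
    · rw [Set.indicator_of_mem hZ, vcut_eq_one (by linarith [hht X hX hZ.1 (by linarith [hZ.2])]),
        mul_one]
    · rw [Set.indicator_of_notMem hZ]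
      by_cases h1 : ‖prH m n X‖ < 300
      · have h2 : 2 ≤ ‖prV m n X‖ := by
          by_contra hcon
          have h3 := hht X hX h1 (not_le.1 hcon)
          exact hZ ⟨h1, by linarith⟩
        rw [vcut_eq_zero h2, mul_zero]
      · have h2 : η (prH m n X) = 0 := by
          refine image_eq_zero_of_notMem_tsupport fun h => ?_
          have h3 := hsupp h
          rw [Metric.mem_ball, dist_eq_norm] at h3
          have h5 : ‖prH m n X‖ ≤ ‖prH m n X - x‖ + ‖x‖ := by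
            have := norm_add_le (prH m n X - x) x
            rwa [sub_add_cancel] at this
          exact h1 (by linarith)
        rw [h2, zero_mul]
  have e2 : ∫ y : E m, χ (mkHV y 0) ∂μH[(m : ℝ)] = (2 * A)⁻¹ * ∫ y, η y ∂μH[(m : ℝ)] := by
    rw [← integral_const_mul]
    refine integral_congr_ae (Filter.Eventually.of_forall fun y => ?_)
    rw [hχ]
    simp only
    rw [prH_mkHV, vcut_eq_one (by rw [prV_mkHV, norm_zero]; exact zero_le_one), mul_one]
  rw [e1, e2] at hmass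
  have e3 : (2 * A)⁻¹ * ∫ X, η (prH m n X) ∂(muc W 300 1)
      - Q * ((2 * A)⁻¹ * ∫ y, η y ∂μH[(m : ℝ)])
      = (2 * A)⁻¹ * (∫ X, η (prH m n X) ∂(muc W 300 1) - Q * ∫ y, η y ∂μH[(m : ℝ)]) := by ring
  rw [e3, abs_mul, abs_of_pos (by positivity : 0 < (2 * A)⁻¹), inv_mul_le_iff₀ (by positivity)]
    at hmass
  rw [one_pow, mul_one]
  linarith

end Claimed.Agent.R322.Fit.Fits
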