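import Claimed.Agent.R322.Fit.Fits.Ident
import Claimed.Agent.R322.Fit.Fits.EnAux
import Claimed.Agent.R322.Tube.Inputs
import Claimed.Agent.R322.Pack045
import Claimed.Agent.R322.Pack048

/-!
# Row 322, Fit/Fits/EnergyU: proof of `energy_unit`   (helper104; statement by architect helper118)

`EU W R t κ h η M r hc u` = the standing assumptions of `energy_unit` (without the weak mass closeness).
 (E1) `EU.ncyl`      : the normal cylinder over `ball 0 ρ`, `ρ ≤ r + 1`;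
 (E3) `EU.DL_le`     : `(D + Λ)(ball 0 (r+1)) ≤ C M (h² + η²)`;
      `EU.cmp`       : `|∫ G(prH X) dμc - ∫ G dν| ≤ L κ h M` for Lipschitz `G` supported in `ball 0 (r + 1/2)`;
 (E4) `EU.count`     : the integer of `scalar_input` is `Q`;
 (E5), (E6)          : covering, `base_restrict`, `intM_le`.
-/

set_option autoImplicit false

open scoped ENNReal ContDiff Topology
open MeasureTheory

namespace Claimed.Agent.R322.Fit.Fits

open Claimed.Agent.R322.Tube Claimed.Agent.R322.Freq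

variable {m n : ℕ}

/-! ### elementary geometry -/

theorem eu_prH_Fg (u : E m → E n) (y : E m) : prH m n (Fg u y) = y := prH_mkHV _ _

theorem eu_prV_Fg (u : E m → E n) (y : E m) : prV m n (Fg u y) = u y := prV_mkHV _ _

theorem eu_prH_eq (u : E m → E n) (X : E (m + n)) :
    prH m n X = npr u X + prH m n (zz u X) := by
  unfold zz
  rw [map_sub, eu_prH_Fg]
  abel

theorem eu_prV_eq (u : E m → E n) (X : E (m + n)) :
    prV m n X = u (npr u X) + prV m n (zz u X) := by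
  unfold zz
  rw [map_sub, eu_prV_Fg]
  abel

/-- the standing assumptions of `energy_unit`. -/
structure EU (W : SIV m n) (R t κ h η M r hc : ℝ) (u : E m → E n) : Prop where
  flat : Flat W R t
  r_ge : 1 ≤ r
  R_ge : r + 4 ≤ R
  hc_pos : 0 < hc
  hc_le : hc ≤ 2 / 9
  t_ge : 4 * hc ≤ t
  geo : Geo κ u
  slope : ∀ y, ‖fderiv ℝ u y‖ ≤ κ
  sup : ∀ y ∈ Metric.ball (0 : E m) (r + 4), ‖u y‖ ≤ t / 4
  hgt : Hgt W R t u 0 (r + 4) h
  h_nonneg : 0 ≤ h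
  h_lt : h < hc / 2
  curv : ∀ y ∈ Metric.ball (0 : E m) (r + 4), ‖HS u y‖ ≤ η ∧ Real.sqrt (DHSsq u y) ≤ η
  η_nonneg : 0 ≤ η
  M_nonneg : 0 ≤ M
  mass : muc W R t (ovr m n 0 (r + 4)) ≤ ENNReal.ofReal M

namespace EU

variable {W : SIV m n} {R t κ h η M r hc : ℝ} {u : E m → E n}

theorem κ_nonneg (H : EU W R t κ h η M r hc u) : 0 ≤ κ := (norm_nonneg _).trans (H.slope 0)

/-- points of the normal cylinder lie in the flat working cylinder. -/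
theorem of_cyl (H : EU W R t κ h η M r hc u) {X : E (m + n)}
    (hX : X ∈ Cyl u (Metric.ball 0 (r + 1)) hc) :
    X ∈ Zc m n R t ∧ ‖prH m n X‖ < r + 3 / 2 := by
  obtain ⟨h1, h2⟩ := hX
  have h1' : ‖npr u X‖ < r + 1 := by simpa using h1
  have h3 : ‖prH m n X‖ ≤ ‖npr u X‖ + ‖zz u X‖ := by
    rw [eu_prH_eq u X]
    exact (norm_add_le _ _).trans (add_le_add le_rfl (norm_prH_le _))
  have h4 : ‖prV m n X‖ ≤ ‖u (npr u X)‖ + ‖zz u X‖ := by
    rw [eu_prV_eq u X]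
    exact (norm_add_le _ _).trans (add_le_add le_rfl (norm_prV_le _))
  have h5 : ‖u (npr u X)‖ ≤ t / 4 := H.sup _ (by
    rw [Metric.mem_ball, dist_zero_right]; linarith)
  have := H.hc_le
  have := H.hc_pos
  have := H.t_ge
  have := H.R_ge
  exact ⟨⟨by linarith, by linarith⟩, by linarith⟩

/-- the two foot points of a support point. -/
theorem foot (H : EU W R t κ h η M r hc u) {X : E (m + n)} (hX : X ∈ W.support)
    (hZ : X ∈ Zc m n R t) (hr : ‖prH m n X‖ < r + 4) :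
    ‖zz u X‖ ≤ h ∧ ‖prH m n X - npr u X‖ ≤ κ * h := by
  have h1 : ‖zet u X‖ ≤ h := H.hgt X hX hZ (by rwa [sub_zero])
  have := H.hc_le
  have := H.h_lt
  obtain ⟨-, h2, h3, -⟩ := foot_facts_aux H.geo H.slope (X := X) (by linarith)
  exact ⟨h2.trans h1, h3.trans (mul_le_mul_of_nonneg_left (h2.trans h1) H.κ_nonneg)⟩

/-- support points over `ball 0 (r + 1/2)` lie in the normal cylinder. -/
theorem mem_cyl (H : EU W R t κ h η M r hc u) {X : E (m + n)} (hX : X ∈ W.support)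
    (hZ : X ∈ Zc m n R t) (hr : ‖prH m n X‖ < r + 1 / 2) :
    X ∈ Cyl u (Metric.ball 0 (r + 1)) hc := by
  obtain ⟨h1, h2⟩ := H.foot hX hZ (by linarith)
  have h3 : ‖npr u X‖ ≤ ‖prH m n X‖ + ‖prH m n X - npr u X‖ := by
    have := norm_sub_le (prH m n X) (prH m n X - npr u X)
    rwa [sub_sub_cancel] at this
  have h4 : κ * h ≤ 1 * h := mul_le_mul_of_nonneg_right H.geo.le_one H.h_nonneg
  have := H.hc_le
  have := H.h_lt
  have := H.hc_pos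
  refine ⟨?_, by linarith⟩
  rw [Metric.mem_ball, dist_zero_right]
  linarith

theorem cyl_mono (u : E m → E n) {ρ ρ' : ℝ} (hρ : ρ ≤ ρ') (hc : ℝ) :
    Cyl u (Metric.ball 0 ρ) hc ⊆ Cyl u (Metric.ball 0 ρ') hc :=
  fun _ hX => ⟨Metric.ball_subset_ball hρ hX.1, hX.2⟩

/-- **(E1)** the normal cylinder over `ball 0 ρ`. -/
noncomputable def ncyl (H : EU W R t κ h η M r hc u) (Q : ℕ) (hQ : 1 ≤ Q) (ρ : ℝ)
    (hρ : ρ ≤ r + 1) : NCyl m n where
  W := W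
  u := u
  Ω := Metric.ball 0 ρ
  h := hc
  h' := hc / 2
  Q := Q
  isOpen_Ω := Metric.isOpen_ball
  h'_pos := by have := H.hc_pos; linarith
  h'_lt := by have := H.hc_pos; linarith
  Q_pos := hQ
  cyl_sub := fun X hX => by
    obtain ⟨h1, -⟩ := H.of_cyl (cyl_mono u hρ hc hX)
    exact H.flat.dom ⟨h1.1.le, h1.2.le⟩
  gap := fun X hX hXc => by
    obtain ⟨h1, h2⟩ := H.of_cyl (cyl_mono u hρ hc hXc)
    exact (H.foot hX h1 (by linarith)).1.trans_lt H.h_lt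

theorem isOpen_cyl (H : EU W R t κ h η M r hc u) (ρ : ℝ) :
    IsOpen (Cyl u (Metric.ball 0 ρ) hc) :=
  cyla_isOpen H.geo Metric.isOpen_ball H.hc_le

theorem cyl_sub_Zc (H : EU W R t κ h η M r hc u) :
    Cyl u (Metric.ball 0 (r + 1)) hc ⊆ Zc m n R t := fun _ hX => (H.of_cyl hX).1

theorem μ_eq (H : EU W R t κ h η M r hc u) (Q : ℕ) (hQ : 1 ≤ Q) :
    (H.ncyl Q hQ (r + 1) le_rfl).μ
      = (muc W R t).restrict (Cyl u (Metric.ball 0 (r + 1)) hc) := by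
  unfold muc
  rw [Measure.restrict_restrict_of_subset H.cyl_sub_Zc]
  rfl

theorem muc_cyl_le (H : EU W R t κ h η M r hc u) :
    muc W R t (Cyl u (Metric.ball 0 (r + 1)) hc) ≤ ENNReal.ofReal M := by
  refine (measure_mono fun X hX => ?_).trans H.mass
  show ‖prH m n X - 0‖ < r + 4
  rw [sub_zero]
  linarith [(H.of_cyl hX).2]

theorem μ_univ_le (H : EU W R t κ h η M r hc u) (Q : ℕ) (hQ : 1 ≤ Q) :
    (H.ncyl Q hQ (r + 1) le_rfl).μ Set.univ ≤ ENNReal.ofReal M := by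
  rw [H.μ_eq, Measure.restrict_apply_univ]
  exact H.muc_cyl_le

theorem hgt_mono (H : EU W R t κ h η M r hc u) {ρ : ℝ} (hρ : ρ ≤ r + 4) : Hgt W R t u 0 ρ h :=
  fun X hX hZ hr => H.hgt X hX hZ (hr.trans_le hρ)

theorem mass_mono (H : EU W R t κ h η M r hc u) {ρ : ℝ} (hρ : ρ ≤ r + 4) :
    muc W R t (ovr m n 0 ρ) ≤ ENNReal.ofReal M :=
  (measure_mono fun X (hX : ‖prH m n X - 0‖ < ρ) => show ‖prH m n X - 0‖ < r + 4 from
    hX.trans_le hρ).trans H.mass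

/-- pointwise bound of the tilt. -/
theorem tilt_le' (H : EU W R t κ h η M r hc u) {X : E (m + n)} (hX : X ∈ W.support)
    (hXc : X ∈ Cyl u (Metric.ball 0 (r + 1)) hc) :
    tilt u (W.P X) X ≤ 2 * tiV u (W.P X) X + 18 * (m + n) * h ^ 2 := by
  obtain ⟨h1, h2⟩ := H.of_cyl hXc
  obtain ⟨-, h3⟩ := H.foot hX h1 (by linarith)
  have h4 := tilt_le_aux H.geo (W.P_proj X) X
  have hκ := H.κ_nonneg
  have hκ1 := H.geo.le_one
  have hh := H.h_nonneg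
  have h5 : κ * h ≤ h := by nlinarith
  have h6 : ‖prH m n X - npr u X‖ ^ 2 ≤ h ^ 2 :=
    pow_le_pow_left₀ (norm_nonneg _) (h3.trans h5) 2
  have h7 : κ ^ 2 ≤ 1 := by nlinarith
  have h8 : κ ^ 2 * ‖prH m n X - npr u X‖ ^ 2 ≤ 1 * h ^ 2 :=
    mul_le_mul h7 h6 (by positivity) (by norm_num)
  have h9 : (0 : ℝ) ≤ 18 * (m + n) := by positivity
  have h10 : 18 * (m + n) * κ ^ 2 * ‖prH m n X - npr u X‖ ^ 2 ≤ 18 * (m + n) * h ^ 2 := by
    have := mul_le_mul_of_nonneg_left h8 h9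
    linarith
  linarith

/-- pointwise bound of the geometric error density. -/
theorem lam_le (H : EU W R t κ h η M r hc u) {X : E (m + n)} (hX : X ∈ W.support)
    (hXc : X ∈ Cyl u (Metric.ball 0 (r + 1)) hc) : lam u X ≤ h ^ 2 + 2 * η ^ 2 := by
  obtain ⟨h1, h2⟩ := H.of_cyl hXc
  obtain ⟨h3, -⟩ := H.foot hX h1 (by linarith)
  obtain ⟨h4, h5⟩ := H.curv (npr u X) (Metric.ball_subset_ball (by linarith) hXc.1)
  have h6 : ‖zz u X‖ ^ 2 ≤ h ^ 2 := pow_le_pow_left₀ (norm_nonneg _) h3 2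
  have h7 : ‖HS u (npr u X)‖ ^ 2 ≤ η ^ 2 := pow_le_pow_left₀ (norm_nonneg _) h4 2
  have h8 : DHSsq u (npr u X) ≤ η ^ 2 := (Real.sqrt_le_left H.η_nonneg).1 h5
  unfold lam
  linarith

end EU

/-- **(E3)** tilt excess and geometric error of the normal cylinder. -/
theorem eu_DL_le (m n : ℕ) : ∃ C : ℝ, 0 < C ∧ ∀ (W : SIV m n) (R t κ h η M r hc : ℝ) (u : E m → E n)
    (H : EU W R t κ h η M r hc u) (Q : ℕ) (hQ : 1 ≤ Q), Lin.CylOK (H.ncyl Q hQ (r + 1) le_rfl) →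
    ((H.ncyl Q hQ (r + 1) le_rfl).Dm + (H.ncyl Q hQ (r + 1) le_rfl).Lm) (Metric.ball 0 (r + 1))
      ≤ ENNReal.ofReal (C * M * (h ^ 2 + η ^ 2)) := by
  obtain ⟨CE, hCE, HE⟩ := energyV m n
  refine ⟨3 * CE + 18 * (m + n) + 2, by positivity, ?_⟩
  intro W R t κ h η M r hc u H Q hQ hOK
  have hr := H.r_ge
  have hM := H.M_nonneg
  have hh := H.h_nonneg
  have hη := H.η_nonneg
  -- the vertical tilt excess
  have hE : ∫⁻ X, ENNReal.ofReal (tiV u (W.P X) X) ∂(H.ncyl Q hQ (r + 1) le_rfl).μ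
      ≤ ENNReal.ofReal (CE * M * (h ^ 2 + η * h)) := by
    have h1 := HE W R t κ u 0 1 (r + 3 / 2) h η M H.flat H.geo one_pos le_rfl (by linarith)
      (Metric.closedBall_subset_ball (by linarith [H.R_ge])) hh hη hM
      (H.hgt_mono (ρ := (r + 3 / 2 + 2) * 1) (by linarith))
      (fun y hy => (H.curv y (Metric.ball_subset_ball (by linarith) hy)).1)
      (by rw [one_pow, mul_one, mul_one]; exact H.mass_mono (ρ := r + 3 / 2 + 2) (by linarith))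
    rw [H.μ_eq]
    refine (lintegral_mono_set fun X hX => ?_).trans (h1.trans (le_of_eq ?_))
    · show ‖prH m n X - 0‖ < (r + 3 / 2) * 1
      rw [sub_zero, mul_one]
      exact (H.of_cyl hX).2
    · congr 1
      ring
  have hD : (H.ncyl Q hQ (r + 1) le_rfl).Dm (Metric.ball 0 (r + 1))
      ≤ 2 * ENNReal.ofReal (CE * M * (h ^ 2 + η * h))
        + ENNReal.ofReal (18 * (m + n) * h ^ 2) * ENNReal.ofReal M := by
    have e : (H.ncyl Q hQ (r + 1) le_rfl).Dm (Metric.ball 0 (r + 1))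
        = ∫⁻ X, ENNReal.ofReal (tilt u (W.P X) X) ∂(H.ncyl Q hQ (r + 1) le_rfl).μ :=
      hOK.push_Ω _
    rw [e]
    calc ∫⁻ X, ENNReal.ofReal (tilt u (W.P X) X) ∂(H.ncyl Q hQ (r + 1) le_rfl).μ
        ≤ ∫⁻ X, (2 * ENNReal.ofReal (tiV u (W.P X) X) + ENNReal.ofReal (18 * (m + n) * h ^ 2))
            ∂(H.ncyl Q hQ (r + 1) le_rfl).μ := by
          refine lintegral_mono_ae ?_
          filter_upwards [hOK.ae_mem] with X hX
          refine (ENNReal.ofReal_le_ofReal (H.tilt_le' hX.1 hX.2.1)).trans ?_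
          refine ENNReal.ofReal_add_le.trans (le_of_eq ?_)
          rw [ENNReal.ofReal_mul (by norm_num), ENNReal.ofReal_ofNat]
      _ = 2 * ∫⁻ X, ENNReal.ofReal (tiV u (W.P X) X) ∂(H.ncyl Q hQ (r + 1) le_rfl).μ
          + ENNReal.ofReal (18 * (m + n) * h ^ 2) * (H.ncyl Q hQ (r + 1) le_rfl).μ Set.univ := by
          rw [lintegral_add_right _ measurable_const, lintegral_const,
            lintegral_const_mul' _ _ (by norm_num)]
      _ ≤ _ := add_le_add (mul_le_mul_right hE _) (mul_le_mul_right (H.μ_univ_le Q hQ) _)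
  have hL : (H.ncyl Q hQ (r + 1) le_rfl).Lm (Metric.ball 0 (r + 1))
      ≤ ENNReal.ofReal (h ^ 2 + 2 * η ^ 2) * ENNReal.ofReal M := by
    have e : (H.ncyl Q hQ (r + 1) le_rfl).Lm (Metric.ball 0 (r + 1))
        = ∫⁻ X, ENNReal.ofReal (lam u X) ∂(H.ncyl Q hQ (r + 1) le_rfl).μ :=
      hOK.push_Ω _
    rw [e]
    calc ∫⁻ X, ENNReal.ofReal (lam u X) ∂(H.ncyl Q hQ (r + 1) le_rfl).μ
        ≤ ∫⁻ _X, ENNReal.ofReal (h ^ 2 + 2 * η ^ 2) ∂(H.ncyl Q hQ (r + 1) le_rfl).μ := by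
          refine lintegral_mono_ae ?_
          filter_upwards [hOK.ae_mem] with X hX
          exact ENNReal.ofReal_le_ofReal (H.lam_le hX.1 hX.2.1)
      _ = ENNReal.ofReal (h ^ 2 + 2 * η ^ 2) * (H.ncyl Q hQ (r + 1) le_rfl).μ Set.univ := by
          rw [lintegral_const]
      _ ≤ _ := mul_le_mul_right (H.μ_univ_le Q hQ) _
  rw [Measure.add_apply]
  refine (add_le_add hD hL).trans ?_
  have e2 : (2 : ℝ≥0∞) = ENNReal.ofReal 2 := by rw [ENNReal.ofReal_ofNat]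
  rw [e2, ← ENNReal.ofReal_mul (by norm_num), ← ENNReal.ofReal_mul (by positivity),
    ← ENNReal.ofReal_mul (by positivity), ← ENNReal.ofReal_add (by positivity) (by positivity),
    ← ENNReal.ofReal_add (by positivity) (by positivity)]
  refine ENNReal.ofReal_le_ofReal ?_
  have h1 : η * h ≤ (h ^ 2 + η ^ 2) / 2 := by nlinarith [sq_nonneg (h - η)]
  have h2 : CE * M * (h ^ 2 + η * h) ≤ CE * M * (3 / 2 * (h ^ 2 + η ^ 2)) :=
    mul_le_mul_of_nonneg_left (by nlinarith [sq_nonneg η]) (by positivity)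
  have h3 : 0 ≤ 18 * ((m : ℝ) + n) * η ^ 2 * M := by positivity
  have h4 : 0 ≤ h ^ 2 * M := by positivity
  nlinarith

/-- a continuous function which vanishes off a ball is bounded. -/
theorem eu_bdd {G : E m → ℝ} (hG : Continuous G) {ρ : ℝ}
    (h0 : ∀ y, y ∉ Metric.ball (0 : E m) ρ → G y = 0) : ∃ B : ℝ, ∀ y, |G y| ≤ B := by
  have hc : HasCompactSupport G :=
    HasCompactSupport.of_support_subset_isCompact (isCompact_closedBall (0 : E m) ρ)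
      (fun y hy => Metric.ball_subset_closedBall (by_contra fun h => hy (h0 y h)))
  obtain ⟨B, hB⟩ := hG.bounded_above_of_compact_support hc
  exact ⟨B, hB⟩

/-- comparison of the vertical and the normal projection of the mass. -/
theorem EU.cmp {W : SIV m n} {R t κ h η M r hc : ℝ} {u : E m → E n}
    (H : EU W R t κ h η M r hc u) (Q : ℕ) (hQ : 1 ≤ Q)
    (hOK : Lin.CylOK (H.ncyl Q hQ (r + 1) le_rfl)) {G : E m → ℝ} {L : ℝ} (hG : Continuous G)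
    (hL0 : 0 ≤ L) (hL : ∀ y y', |G y - G y'| ≤ L * ‖y - y'‖)
    (h0 : ∀ y, y ∉ Metric.ball (0 : E m) (r + 1 / 2) → G y = 0) :
    |∫ X, G (prH m n X) ∂(muc W R t) - ∫ y, G y ∂(H.ncyl Q hQ (r + 1) le_rfl).nu|
      ≤ L * κ * h * M := by
  obtain ⟨B, hB⟩ := eu_bdd hG h0
  have hCm : MeasurableSet (Cyl u (Metric.ball 0 (r + 1)) hc) := (H.isOpen_cyl _).measurableSet
  have e1 : ∫ y, G y ∂(H.ncyl Q hQ (r + 1) le_rfl).nu
      = ∫ X, (Cyl u (Metric.ball 0 (r + 1)) hc).indicator (fun X => G (npr u X)) X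
          ∂(muc W R t) := by
    rw [integral_indicator hCm, ← H.μ_eq Q hQ]
    exact integral_map hOK.aemeasurable_npr hG.aestronglyMeasurable
  have i1 : Integrable (fun X => G (prH m n X)) (muc W R t) := by
    refine integrable_muc H.flat (isCompact_closedBall (0 : E m) (r + 1 / 2))
      (Metric.closedBall_subset_ball (by linarith [H.R_ge])) (B := B)
      (hG.comp (prH m n).continuous).aestronglyMeasurable
      (Filter.Eventually.of_forall fun X => hB _) (fun X hX => h0 _ fun h => hX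
        (Metric.ball_subset_closedBall h))
  have i2 : Integrable ((Cyl u (Metric.ball 0 (r + 1)) hc).indicator (fun X => G (npr u X)))
      (muc W R t) := by
    rw [integrable_indicator_iff hCm]
    have : IsFiniteMeasure ((muc W R t).restrict (Cyl u (Metric.ball 0 (r + 1)) hc)) :=
      ⟨by rw [Measure.restrict_apply_univ]; exact H.muc_cyl_le.trans_lt ENNReal.ofReal_lt_top⟩
    refine Integrable.of_bound ?_ B (Filter.Eventually.of_forall fun X => hB _)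
    rw [← H.μ_eq Q hQ]
    exact hOK.aesm_comp_npr hG
  rw [e1, ← integral_sub i1 i2]
  refine (abs_integral_le_integral_abs).trans ?_
  have hκ := H.κ_nonneg
  have hh := H.h_nonneg
  refine idn_integral_le_const hCm (by positivity) H.M_nonneg H.muc_cyl_le
    (Filter.Eventually.of_forall fun X => abs_nonneg _) ?_
  filter_upwards [muc_ae H.flat] with X hX
  by_cases hXc : X ∈ Cyl u (Metric.ball 0 (r + 1)) hc
  · rw [Set.indicator_of_mem hXc, Set.indicator_of_mem hXc]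
    obtain ⟨-, h2⟩ := H.of_cyl hXc
    obtain ⟨-, h3⟩ := H.foot hX.1 hX.2.1 (by linarith)
    calc |G (prH m n X) - G (npr u X)| ≤ L * ‖prH m n X - npr u X‖ := hL _ _
      _ ≤ L * (κ * h) := mul_le_mul_of_nonneg_left h3 hL0
      _ = L * κ * h := by ring
  · rw [Set.indicator_of_notMem hXc, Set.indicator_of_notMem hXc, sub_zero]
    have : G (prH m n X) = 0 := h0 _ fun h => hXc (H.mem_cyl hX.1 hX.2.1 (by simpa using h))
    rw [this, abs_zero]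

/-! ### the reference volume -/

theorem eu_integral_volS (N : NCyl m n) (g : E m → ℝ) (h0 : ∀ y, y ∉ N.Ω → g y = 0) :
    ∫ y, g y ∂N.volS
      = ∫ y, g y * vdens (fderiv ℝ N.u y) ∂(μH[(m : ℝ)] : Measure (E m)) := by
  unfold NCyl.volS
  rw [integral_withDensity_eq_integral_toReal_smul
    (cyla_measurable_vdens N.u).ennreal_ofReal
    (Filter.Eventually.of_forall fun _ => ENNReal.ofReal_lt_top)]
  rw [setIntegral_eq_integral_of_forall_compl_eq_zero (fun y hy => by rw [h0 y hy, smul_zero])]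
  refine integral_congr_ae (Filter.Eventually.of_forall fun y => ?_)
  show (ENNReal.ofReal (vdens (fderiv ℝ N.u y))).toReal • g y = g y * vdens (fderiv ℝ N.u y)
  rw [ENNReal.toReal_ofReal (zero_le_one.trans (Base.Exit.one_le_vdens _)), smul_eq_mul, mul_comm]

theorem eu_lip {G : E m → ℝ} {A : ℝ} (hG : ContDiff ℝ 1 G) (hA : ∀ y, ‖fderiv ℝ G y‖ ≤ A)
    (y y' : E m) : |G y - G y'| ≤ A * ‖y - y'‖ := by
  have := Convex.norm_image_sub_le_of_norm_fderiv_le (𝕜 := ℝ) (f := G) (s := Set.univ) (C := A)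
    (x := y') (y := y) (fun z _ => hG.differentiable one_ne_zero z) (fun z _ => hA z)
    convex_univ (Set.mem_univ _) (Set.mem_univ _)
  rwa [Real.norm_eq_abs] at this

theorem eu_zero_of_tsupport {G : E m → ℝ} {S : Set (E m)} (h : tsupport G ⊆ S) (y : E m)
    (hy : y ∉ S) : G y = 0 :=
  by_contra fun h0 => hy (h (subset_tsupport _ h0))

/-- `|∫ G - ∫ G √g| ≤ A C κ² |B_ρ|`. -/
theorem eu_vol_cmp {u : E m → E n} {κ Cv A ρ : ℝ} {x : E m} {G : E m → ℝ}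
    (hu : Continuous (fderiv ℝ u)) (hs : ∀ y, ‖fderiv ℝ u y‖ ≤ κ) (hκ1 : κ ≤ 1) (hCv0 : 0 ≤ Cv)
    (hCv : ∀ A : E m →L[ℝ] E n, ‖A‖ ≤ 1 → 1 ≤ vdens A ∧ vdens A ≤ 1 + Cv * ‖A‖ ^ 2)
    (hG : Continuous G) (hsupp : tsupport G ⊆ Metric.ball x ρ) (hρ : 0 < ρ)
    (hA0 : ∀ y, |G y| ≤ A) :
    |∫ y, G y ∂(μH[(m : ℝ)] : Measure (E m))
        - ∫ y, G y * vdens (fderiv ℝ u y) ∂(μH[(m : ℝ)] : Measure (E m))|
      ≤ A * Cv * κ ^ 2 * (kap m * ρ ^ m) := by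
  have : (μH[(m : ℝ)] : Measure (E m)).IsAddHaarMeasure := isAddHaar_hausdorff m
  have hA : 0 ≤ A := (abs_nonneg _).trans (hA0 0)
  have hc : HasCompactSupport G :=
    HasCompactSupport.of_support_subset_isCompact (isCompact_closedBall x ρ)
      ((subset_tsupport G).trans (hsupp.trans Metric.ball_subset_closedBall))
  have hv : Continuous fun y => vdens (fderiv ℝ u y) := Lin.continuous_vdens.comp hu
  have i1 : Integrable G (μH[(m : ℝ)] : Measure (E m)) := hG.integrable_of_hasCompactSupport hc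
  have i2 : Integrable (fun y => G y * vdens (fderiv ℝ u y)) (μH[(m : ℝ)] : Measure (E m)) :=
    (hG.mul hv).integrable_of_hasCompactSupport hc.mul_right
  rw [← integral_sub i1 i2]
  refine abs_integral_le_integral_abs.trans ?_
  have hk := kap_pos m
  refine idn_integral_le_const (S := Metric.ball x ρ) measurableSet_ball (by positivity)
    (by positivity) (hausdorff_ball m x hρ).le (Filter.Eventually.of_forall fun y => abs_nonneg _)
    (Filter.Eventually.of_forall fun y => ?_)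
  by_cases hy : y ∈ Metric.ball x ρ
  · rw [Set.indicator_of_mem hy]
    obtain ⟨h1, h2⟩ := hCv (fderiv ℝ u y) ((hs y).trans hκ1)
    have h3 : ‖fderiv ℝ u y‖ ^ 2 ≤ κ ^ 2 := pow_le_pow_left₀ (norm_nonneg _) (hs y) 2
    have h4 : |1 - vdens (fderiv ℝ u y)| ≤ Cv * κ ^ 2 := by
      rw [abs_sub_comm, abs_of_nonneg (by linarith)]
      have := mul_le_mul_of_nonneg_left h3 hCv0
      linarith
    have e : G y - G y * vdens (fderiv ℝ u y) = G y * (1 - vdens (fderiv ℝ u y)) := by ring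
    rw [e, abs_mul]
    calc |G y| * |1 - vdens (fderiv ℝ u y)| ≤ A * (Cv * κ ^ 2) :=
          mul_le_mul (hA0 y) h4 (abs_nonneg _) hA
      _ = A * Cv * κ ^ 2 := by ring
  · rw [Set.indicator_of_notMem hy, eu_zero_of_tsupport hsupp y hy]
    simp

/-- closeness of `ν` to `Q vol_S`, tested against `C¹` functions. -/
theorem EU.nuQ {W : SIV m n} {R t κ h η M r hc : ℝ} {u : E m → E n}
    (H : EU W R t κ h η M r hc u) (Q : ℕ) (hQ : 1 ≤ Q)
    (hOK : Lin.CylOK (H.ncyl Q hQ (r + 1) le_rfl)) {Cv σ : ℝ} (hCv0 : 0 ≤ Cv)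
    (hCv : ∀ A : E m →L[ℝ] E n, ‖A‖ ≤ 1 → 1 ≤ vdens A ∧ vdens A ≤ 1 + Cv * ‖A‖ ^ 2)
    (hW : WMass W R t Q 0 (r + 4) 1 σ) {G : E m → ℝ} {A ρ : ℝ} {x : E m} (hG : ContDiff ℝ 1 G)
    (hsupp : tsupport G ⊆ Metric.ball x ρ) (hρ : 0 < ρ)
    (hsub : Metric.ball x ρ ⊆ Metric.ball 0 (r + 1 / 2))
    (hA0 : ∀ y, |G y| ≤ A) (hA1 : ∀ y, ‖fderiv ℝ G y‖ ≤ A) :
    |∫ y, G y ∂(H.ncyl Q hQ (r + 1) le_rfl).nu - Q * ∫ y, G y ∂(H.ncyl Q hQ (r + 1) le_rfl).volS|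
      ≤ A * κ * h * M + σ * A + Q * (A * Cv * κ ^ 2 * (kap m * ρ ^ m)) := by
  have hA : 0 ≤ A := (abs_nonneg _).trans (hA0 0)
  have h0 : ∀ y, y ∉ Metric.ball (0 : E m) (r + 1 / 2) → G y = 0 :=
    eu_zero_of_tsupport (hsupp.trans hsub)
  have t1 := H.cmp Q hQ hOK hG.continuous hA (eu_lip hG hA1) h0
  have t2 := hW G A hG (hsupp.trans (hsub.trans (Metric.ball_subset_ball (by linarith)))) hA0
    (fun y => by rw [one_mul]; exact hA1 y)
  have t3 := eu_vol_cmp (u := u) (H.geo.smooth.continuous_fderiv (by norm_num)) H.slope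
    H.geo.le_one hCv0 hCv hG.continuous hsupp hρ hA0
  have e : ∫ y, G y ∂(H.ncyl Q hQ (r + 1) le_rfl).volS
      = ∫ y, G y * vdens (fderiv ℝ u y) ∂(μH[(m : ℝ)] : Measure (E m)) :=
    eu_integral_volS _ G (fun y hy => h0 y fun h => hy (Metric.ball_subset_ball (by linarith) h))
  rw [e]
  rw [one_pow, mul_one] at t2
  have hQ0 : (0 : ℝ) ≤ Q := Nat.cast_nonneg _
  have t3' := mul_le_mul_of_nonneg_left t3 hQ0
  rw [← abs_of_nonneg hQ0, ← abs_mul, abs_of_nonneg hQ0] at t3'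
  rw [abs_le] at t1 t2 t3' ⊢
  constructor <;> nlinarith [t1.1, t1.2, t2.1, t2.2, t3'.1, t3'.2]

/-! ### (E4) the integer of `scalar_input` -/

/-- translated bumps with uniform bounds. -/
theorem eu_exists_bump (m Jsc : ℕ) : ∃ A : ℝ, 1 ≤ A ∧ ∀ x : E m, ∃ η : E m → ℝ, ContDiff ℝ ∞ η ∧
    tsupport η ⊆ Metric.ball x (3 / 8) ∧ (∀ y, 0 ≤ η y ∧ η y ≤ 1) ∧
    (∀ y ∈ Metric.ball x (1 / 4), η y = 1) ∧
    ∀ j : ℕ, j ≤ Jsc + 1 → ∀ y, ‖iteratedFDeriv ℝ j η y‖ ≤ A := by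
  let η₀ : ContDiffBump (0 : E m) := ⟨1 / 4, 5 / 16, by norm_num, by norm_num⟩
  have hsm : ContDiff ℝ ∞ (η₀ : E m → ℝ) := η₀.contDiff
  have hb : ∀ j : ℕ, ∃ C, ∀ y, ‖iteratedFDeriv ℝ j (η₀ : E m → ℝ) y‖ ≤ C := fun j =>
    (hsm.continuous_iteratedFDeriv (m := j) (by exact_mod_cast le_top)).bounded_above_of_compact_support
      (η₀.hasCompactSupport.iteratedFDeriv j)
  choose C hC using hb
  have hC0 : ∀ j, 0 ≤ C j := fun j => (norm_nonneg _).trans (hC j 0)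
  refine ⟨1 + ∑ j ∈ Finset.range (Jsc + 2), C j,
    le_add_of_nonneg_right (Finset.sum_nonneg fun j _ => hC0 j), fun x => ?_⟩
  refine ⟨fun y => η₀ (y - x), hsm.comp (contDiff_id.sub contDiff_const),
    ?_, fun y => ⟨η₀.nonneg, η₀.le_one⟩, fun y hy => ?_, fun j hj y => ?_⟩
  · have h1 : Function.support (fun y => η₀ (y - x)) ⊆ Metric.closedBall x (5 / 16) := by
      intro y hy
      have h2 : y - x ∈ Function.support (η₀ : E m → ℝ) := hy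
      rw [η₀.support_eq, mem_ball_zero_iff] at h2
      rw [mem_closedBall_iff_norm]
      exact h2.le
    exact (closure_minimal h1 Metric.isClosed_closedBall).trans
      (Metric.closedBall_subset_ball (by norm_num))
  · refine η₀.one_of_mem_closedBall ?_
    rw [mem_closedBall_zero_iff]
    exact (mem_ball_iff_norm.1 hy).le
  · rw [iteratedFDeriv_comp_sub (𝕜 := ℝ) (f := (η₀ : E m → ℝ)) j x y]
    have h2 : C j ≤ ∑ j ∈ Finset.range (Jsc + 2), C j :=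
      Finset.single_le_sum (f := C) (fun i _ => hC0 i) (Finset.mem_range.2 (by omega))
    exact (hC j _).trans (by linarith)

theorem eu_vol_lower {u : E m → E n} (hu : Continuous (fderiv ℝ u)) {G : E m → ℝ} {x : E m}
    {ρ ρ' : ℝ} (hG : Continuous G) (hsupp : tsupport G ⊆ Metric.ball x ρ') (hρ : 0 < ρ)
    (h0 : ∀ y, 0 ≤ G y) (h1 : ∀ y ∈ Metric.ball x ρ, G y = 1) :
    kap m * ρ ^ m ≤ ∫ y, G y * vdens (fderiv ℝ u y) ∂(μH[(m : ℝ)] : Measure (E m)) := by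
  have : (μH[(m : ℝ)] : Measure (E m)).IsAddHaarMeasure := isAddHaar_hausdorff m
  have hc : HasCompactSupport G :=
    HasCompactSupport.of_support_subset_isCompact (isCompact_closedBall x ρ')
      ((subset_tsupport G).trans (hsupp.trans Metric.ball_subset_closedBall))
  have hv : Continuous fun y => vdens (fderiv ℝ u y) := Lin.continuous_vdens.comp hu
  have i2 : Integrable (fun y => G y * vdens (fderiv ℝ u y)) (μH[(m : ℝ)] : Measure (E m)) :=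
    (hG.mul hv).integrable_of_hasCompactSupport hc.mul_right
  have hk := kap_pos m
  have hfin : (μH[(m : ℝ)] : Measure (E m)) (Metric.ball x ρ) ≠ ⊤ := by
    rw [hausdorff_ball m x hρ]; exact ENNReal.ofReal_ne_top
  have i1 : Integrable ((Metric.ball x ρ).indicator fun _ => (1 : ℝ))
      (μH[(m : ℝ)] : Measure (E m)) :=
    (integrable_indicator_iff measurableSet_ball).2 (integrableOn_const hfin)
  have e : ∫ y, (Metric.ball x ρ).indicator (fun _ => (1 : ℝ)) y ∂(μH[(m : ℝ)] : Measure (E m))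
      = kap m * ρ ^ m := by
    rw [integral_indicator_const _ measurableSet_ball, smul_eq_mul, mul_one, Measure.real,
      hausdorff_ball m x hρ, ENNReal.toReal_ofReal (by positivity)]
  rw [← e]
  refine integral_mono i1 i2 fun y => ?_
  have hv1 := Base.Exit.one_le_vdens (fderiv ℝ u y)
  by_cases hy : y ∈ Metric.ball x ρ
  · simp only [Set.indicator_of_mem hy]
    rw [h1 y hy, one_mul]
    exact hv1
  · simp only [Set.indicator_of_notMem hy]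
    exact mul_nonneg (h0 y) (by linarith)

/-- two integers with `|I - q V|`, `|I - Q V|` small against `V` agree. -/
theorem eu_q_eq {kp sm C εs A Inu Ivol Mb : ℝ} {q Q : ℕ} (hkp : 0 < kp) (hsm : 0 < sm)
    (hCA : 0 ≤ C * A)
    (hε : εs ≤ kp / (2 * (C * A + 1))) (h1 : |Inu - q * Ivol| ≤ C * εs * sm * A)
    (h2 : |Inu - Q * Ivol| ≤ Mb) (hMb : Mb ≤ εs * sm) (hI : kp * sm ≤ Ivol) : q = Q := by
  have h3 : |(q : ℝ) - Q| * Ivol ≤ εs * (C * A + 1) * sm := by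
    have hI0 : 0 ≤ Ivol := le_trans (by positivity) hI
    rw [← abs_of_nonneg hI0, ← abs_mul]
    have e : ((q : ℝ) - Q) * Ivol = (Inu - Q * Ivol) - (Inu - q * Ivol) := by ring
    rw [e]
    calc |(Inu - Q * Ivol) - (Inu - q * Ivol)| ≤ |Inu - Q * Ivol| + |Inu - q * Ivol| := abs_sub _ _
      _ ≤ εs * sm + C * εs * sm * A := add_le_add (h2.trans hMb) h1
      _ = εs * (C * A + 1) * sm := by ring
  have h4 : εs * (C * A + 1) ≤ kp / 2 := by
    rw [le_div_iff₀ (by positivity)] at hε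
    linarith
  have h5 : |(q : ℝ) - Q| * (kp * sm) ≤ kp / 2 * sm :=
    (mul_le_mul_of_nonneg_left hI (abs_nonneg _)).trans
      (h3.trans (mul_le_mul_of_nonneg_right h4 hsm.le))
  have h6 : |(q : ℝ) - Q| ≤ 1 / 2 := by
    have : |(q : ℝ) - Q| * (kp * sm) ≤ 1 / 2 * (kp * sm) := by linarith
    exact le_of_mul_le_mul_right this (by positivity)
  have h7 : |((q : ℤ) - (Q : ℤ) : ℤ)| < 1 := by
    have : ((|((q : ℤ) - (Q : ℤ) : ℤ)| : ℤ) : ℝ) < 1 := by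
      push_cast
      linarith
    exact_mod_cast this
  have h8 : ((q : ℤ) - (Q : ℤ) : ℤ) = 0 := Int.abs_lt_one_iff.1 h7
  omega

/-- the arithmetic of the smallness conditions. -/
theorem eu_arith {m : ℕ} {a b c κ₁ ε' κ h η : ℝ} (ha : 0 ≤ a) (hb : 0 ≤ b) (hc : 0 ≤ c)
    (hκ₁ : κ₁ ≤ 1) (hD : κ₁ * (2 * 4 ^ m * a + 3 * 4 ^ m * b + 3 * 4 ^ m * c + 1) ≤ ε')
    (hκ0 : 0 ≤ κ) (hκ : κ ≤ κ₁) (hh0 : 0 ≤ h) (hh : h ≤ κ₁) (hη0 : 0 ≤ η) (hη : η ≤ κ₁) :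
    4 ^ m * (a * (h ^ 2 + η ^ 2)) ≤ ε' ∧ b * κ * h ≤ ε' * (1 / 4) ^ m / 3 ∧
      c * κ ^ 2 ≤ ε' * (1 / 4) ^ m / 3 := by
  have hP : (0 : ℝ) < 4 ^ m := by positivity
  have hκ₁0 : 0 ≤ κ₁ := hκ0.trans hκ
  have e : ((1 : ℝ) / 4) ^ m = (4 ^ m)⁻¹ := by rw [one_div, inv_pow]
  have s1 : h ^ 2 ≤ κ₁ := by nlinarith
  have s2 : η ^ 2 ≤ κ₁ := by nlinarith
  have s3 : κ * h ≤ κ₁ := by nlinarith
  have s4 : κ ^ 2 ≤ κ₁ := by nlinarith
  have p1 : 0 ≤ κ₁ * (4 ^ m * a) := by positivity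
  have p2 : 0 ≤ κ₁ * (4 ^ m * b) := by positivity
  have p3 : 0 ≤ κ₁ * (4 ^ m * c) := by positivity
  refine ⟨?_, ?_, ?_⟩
  · have : 4 ^ m * (a * (h ^ 2 + η ^ 2)) ≤ 4 ^ m * (a * (2 * κ₁)) :=
      mul_le_mul_of_nonneg_left (mul_le_mul_of_nonneg_left (by linarith) ha) hP.le
    nlinarith
  · rw [e, le_div_iff₀ (by norm_num), ← div_eq_mul_inv, le_div_iff₀ hP]
    have : 4 ^ m * (b * (κ * h)) ≤ 4 ^ m * (b * κ₁) :=
      mul_le_mul_of_nonneg_left (mul_le_mul_of_nonneg_left s3 hb) hP.le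
    nlinarith
  · rw [e, le_div_iff₀ (by norm_num), ← div_eq_mul_inv, le_div_iff₀ hP]
    have : 4 ^ m * (c * κ ^ 2) ≤ 4 ^ m * (c * κ₁) :=
      mul_le_mul_of_nonneg_left (mul_le_mul_of_nonneg_left s4 hc) hP.le
    nlinarith

/-- **(E4)** the integer selected by `scalar_input` over `ball y (1/4)` is `Q`. -/
theorem EU.count {W : SIV m n} {R t κ h η M r hc : ℝ} {u : E m → E n}
    (H : EU W R t κ h η M r hc u) (Q : ℕ) (hQ : 1 ≤ Q)
    (hOK : Lin.CylOK (H.ncyl Q hQ (r + 1) le_rfl)) {Jsc : ℕ} {Cs ε ε' A Cv σ₀ : ℝ}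
    (hCs : 0 < Cs) (hA : 1 ≤ A) (hCv0 : 0 ≤ Cv)
    (hCv : ∀ A : E m →L[ℝ] E n, ‖A‖ ≤ 1 → 1 ≤ vdens A ∧ vdens A ≤ 1 + Cv * ‖A‖ ^ 2)
    (hW : WMass W R t Q 0 (r + 4) 1 σ₀) (hε' : ε' ≤ kap m / (2 * (Cs * A + 1))) (hεε' : ε ≤ ε')
    (hMb : A * κ * h * M + σ₀ * A + Q * (A * Cv * κ ^ 2 * (kap m * (3 / 8) ^ m))
      ≤ ε' * (1 / 4) ^ m)
    {y : E m} (hy : y ∈ Metric.ball (0 : E m) r) {η₁ : E m → ℝ} (hη1 : ContDiff ℝ ∞ η₁)
    (hη2 : tsupport η₁ ⊆ Metric.ball y (3 / 8)) (hη3 : ∀ z, 0 ≤ η₁ z ∧ η₁ z ≤ 1)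
    (hη4 : ∀ z ∈ Metric.ball y (1 / 4), η₁ z = 1)
    (hη5 : ∀ j : ℕ, j ≤ Jsc + 1 → ∀ z, ‖iteratedFDeriv ℝ j η₁ z‖ ≤ A) {q : ℕ}
    (q2 : ∀ (η : E m → ℝ) (A : ℝ), ContDiff ℝ ∞ η →
      tsupport η ⊆ Metric.ball y ((1 + 2) / 2 * (1 / 4)) →
      (∀ j : ℕ, j ≤ Jsc → ∀ z, (1 / 4 : ℝ) ^ j * ‖iteratedFDeriv ℝ j η z‖ ≤ A) →
      |∫ z, η z ∂(H.ncyl Q hQ (r + 1) le_rfl).nu
          - q * ∫ z, η z ∂(H.ncyl Q hQ (r + 1) le_rfl).volS| ≤ Cs * ε * (1 / 4) ^ m * A) :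
    q = Q := by
  have hA0 : 0 ≤ A := by linarith
  have hsm : (0 : ℝ) < (1 / 4) ^ m := by positivity
  have e38 : ((1 : ℝ) + 2) / 2 * (1 / 4) = 3 / 8 := by norm_num
  have t1 := q2 η₁ A hη1 (by rw [e38]; exact hη2) (fun j hj z => by
    have h1 : ((1 : ℝ) / 4) ^ j ≤ 1 := pow_le_one₀ (by norm_num) (by norm_num)
    calc (1 / 4 : ℝ) ^ j * ‖iteratedFDeriv ℝ j η₁ z‖ ≤ 1 * A :=
          mul_le_mul h1 (hη5 j (by omega) z) (norm_nonneg _) zero_le_one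
      _ = A := one_mul A)
  have t1' : |∫ z, η₁ z ∂(H.ncyl Q hQ (r + 1) le_rfl).nu
      - q * ∫ z, η₁ z ∂(H.ncyl Q hQ (r + 1) le_rfl).volS| ≤ Cs * ε' * (1 / 4) ^ m * A := by
    refine t1.trans ?_
    have : Cs * ε ≤ Cs * ε' := mul_le_mul_of_nonneg_left hεε' hCs.le
    exact mul_le_mul_of_nonneg_right (mul_le_mul_of_nonneg_right this hsm.le) hA0
  have hy' : ‖y‖ < r := by simpa using hy
  have hsub : Metric.ball y (3 / 8) ⊆ Metric.ball (0 : E m) (r + 1 / 2) := by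
    refine Metric.ball_subset_ball' ?_
    rw [dist_zero_right]
    linarith
  have hC1 : ContDiff ℝ 1 η₁ := hη1.of_le (by exact_mod_cast le_top)
  have t2 := H.nuQ Q hQ hOK hCv0 hCv hW (G := η₁) (A := A) (ρ := 3 / 8) (x := y) hC1 hη2
    (by norm_num) hsub (fun z => by
      rw [abs_of_nonneg (hη3 z).1]; exact (hη3 z).2.trans hA)
    (fun z => by rw [← norm_iteratedFDeriv_one]; exact hη5 1 (by omega) z)
  have hI : kap m * (1 / 4) ^ m ≤ ∫ z, η₁ z ∂(H.ncyl Q hQ (r + 1) le_rfl).volS := by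
    rw [eu_integral_volS _ η₁ (fun z hz => eu_zero_of_tsupport
      (hη2.trans (hsub.trans (Metric.ball_subset_ball (by linarith)))) z hz)]
    exact eu_vol_lower (H.geo.smooth.continuous_fderiv (by norm_num)) hC1.continuous hη2
      (by norm_num) (fun z => (hη3 z).1) hη4
  exact eu_q_eq (kap_pos m) hsm (by positivity) hε' t1' t2 hMb hI

theorem EU.nu_le {W : SIV m n} {R t κ h η M r hc : ℝ} {u : E m → E n}
    (H : EU W R t κ h η M r hc u) (Q : ℕ) (hQ : 1 ≤ Q)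
    (hOK : Lin.CylOK (H.ncyl Q hQ (r + 1) le_rfl)) (S : Set (E m)) :
    (H.ncyl Q hQ (r + 1) le_rfl).nu S ≤ ENNReal.ofReal M := by
  refine (measure_mono (Set.subset_univ S)).trans ?_
  rw [hOK.nu_apply MeasurableSet.univ]
  exact H.μ_univ_le Q hQ

/-- **(E3), (E4)** all constants; the mass defect over the balls `ball y (1/4)`, `|y| < r`. -/
theorem eu_ball (m n Q : ℕ) (hm : 1 ≤ m) (hn : 1 ≤ n) (hQ : 1 ≤ Q) (M r : ℝ) (hM : 0 ≤ M) :
    ∃ (J : ℕ) (hc₀ κ₁ σ₀ C : ℝ), 5 ≤ J ∧ 0 < hc₀ ∧ 0 < κ₁ ∧ κ₁ ≤ 1 / 2 ∧ 0 < σ₀ ∧ 0 < C ∧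
      ∀ (W : SIV m n) (R t κ h η hc : ℝ) (u : E m → E n) (H : EU W R t κ h η M r hc u),
        hc ≤ hc₀ → RefGraph J κ κ u → κ ≤ κ₁ → h ≤ κ₁ → η ≤ κ₁ → WMass W R t Q 0 (r + 4) 1 σ₀ →
        Lin.CylOK (H.ncyl Q hQ (r + 1) le_rfl) ∧
        ((H.ncyl Q hQ (r + 1) le_rfl).Dm + (H.ncyl Q hQ (r + 1) le_rfl).Lm)
            (Metric.ball 0 (r + 1)) ≤ ENNReal.ofReal (C * (h ^ 2 + η ^ 2)) ∧
        ∀ y ∈ Metric.ball (0 : E m) r,
          (H.ncyl Q hQ (r + 1) le_rfl).Mabs (Metric.ball y (1 / 4))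
            ≤ ENNReal.ofReal (C * (h ^ 2 + η ^ 2)) := by
  obtain ⟨C3, hC3, H3⟩ := eu_DL_le m n
  obtain ⟨Cv, hCv, HCv⟩ := vdens_sub_one_le_aux m n
  obtain ⟨Jsc, J₁, HS⟩ := scalar_input m n hm hn (4 ^ m * M) 2 (by norm_num)
  obtain ⟨ε₀, h₀, εs, Cs, hε₀, hh₀, hεs, hCs, HS⟩ := HS 1 le_rfl
  obtain ⟨A, hA, HB⟩ := eu_exists_bump m Jsc
  obtain ⟨hK, hhK, HK⟩ := Lin.exists_cylOK m n
  have hk := kap_pos m
  have hA0 : 0 < A := by linarith
  obtain ⟨ε', hε'd⟩ : ∃ ε', ε' = min εs (kap m / (2 * (Cs * A + 1))) := ⟨_, rfl⟩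
  have hε'0 : 0 < ε' := by rw [hε'd]; exact lt_min hεs (by positivity)
  have hε'1 : ε' ≤ εs := by rw [hε'd]; exact min_le_left _ _
  have hε'2 : ε' ≤ kap m / (2 * (Cs * A + 1)) := by rw [hε'd]; exact min_le_right _ _
  obtain ⟨a, had⟩ : ∃ a, a = C3 * M := ⟨_, rfl⟩
  obtain ⟨b, hbd⟩ : ∃ b, b = A * M := ⟨_, rfl⟩
  obtain ⟨c, hcd⟩ : ∃ c, c = Q * (A * Cv * (kap m * (3 / 8) ^ m)) := ⟨_, rfl⟩
  have ha : 0 ≤ a := by rw [had]; positivity
  have hb : 0 ≤ b := by rw [hbd]; positivity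
  have hc0 : 0 ≤ c := by rw [hcd]; positivity
  obtain ⟨D, hDd⟩ : ∃ D, D = 2 * 4 ^ m * a + 3 * 4 ^ m * b + 3 * 4 ^ m * c + 1 := ⟨_, rfl⟩
  have hD : 0 < D := by rw [hDd]; positivity
  obtain ⟨κ₁, hκd⟩ : ∃ κ₁, κ₁ = min (1 / 2) (min ε₀ (ε' / D)) := ⟨_, rfl⟩
  have hκ₁0 : 0 < κ₁ := by rw [hκd]; exact lt_min (by norm_num) (lt_min hε₀ (by positivity))
  have hκ₁1 : κ₁ ≤ 1 / 2 := by rw [hκd]; exact min_le_left _ _
  have hκ₁2 : κ₁ ≤ ε₀ := by rw [hκd]; exact (min_le_right _ _).trans (min_le_left _ _)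
  have hκ₁3 : κ₁ * D ≤ ε' := by
    rw [← le_div_iff₀ hD, hκd]; exact (min_le_right _ _).trans (min_le_right _ _)
  refine ⟨max J₁ 5, min h₀ hK, κ₁, ε' * (1 / 4) ^ m / (3 * A), (Cs + 1) * a + 1, le_max_right _ _,
    lt_min hh₀ hhK, hκ₁0, hκ₁1, by positivity, by positivity, ?_⟩
  intro W R t κ h η hc u H hhc hR hκ hh hη hW
  have hOK : Lin.CylOK (H.ncyl Q hQ (r + 1) le_rfl) :=
    HK κ _ H.geo (hhc.trans (min_le_right _ _))
  have hsq : 0 ≤ h ^ 2 + η ^ 2 := by positivity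
  have hDL := H3 W R t κ h η M r hc u H Q hQ hOK
  rw [← had] at hDL
  rw [hDd] at hκ₁3
  obtain ⟨n1, n2, n3⟩ := eu_arith (m := m) (ε' := ε') ha hb hc0 (hκ₁1.trans (by norm_num))
    hκ₁3 H.κ_nonneg hκ H.h_nonneg hh H.η_nonneg hη
  refine ⟨hOK, hDL.trans (ENNReal.ofReal_le_ofReal ?_), fun y hy => ?_⟩
  · have : 0 ≤ Cs * a * (h ^ 2 + η ^ 2) := by positivity
    nlinarith
  have hy' : ‖y‖ < r := by simpa using hy
  have e44 : (4 : ℝ) ^ m * (1 / 4) ^ m = 1 := by rw [← mul_pow]; norm_num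
  have hsub : Metric.closedBall y (2 * (1 / 4)) ⊆ Metric.ball (0 : E m) (r + 1) := by
    intro z hz
    rw [Metric.mem_closedBall, dist_eq_norm] at hz
    rw [Metric.mem_ball, dist_zero_right]
    have := norm_sub_norm_le z y
    linarith
  have hDLy : ((H.ncyl Q hQ (r + 1) le_rfl).Dm + (H.ncyl Q hQ (r + 1) le_rfl).Lm)
      (Metric.ball y (2 * (1 / 4))) ≤ ENNReal.ofReal (a * (h ^ 2 + η ^ 2)) :=
    (measure_mono (Metric.ball_subset_closedBall.trans hsub)).trans hDL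
  obtain ⟨q, -, q2, q3⟩ := HS (H.ncyl Q hQ (r + 1) le_rfl)
    (hR.mono (le_max_left _ _) (hκ.trans (hκ₁1.trans (by norm_num))) (hκ.trans hκ₁2))
    (hhc.trans (min_le_left _ _)) y (1 / 4) (4 ^ m * (a * (h ^ 2 + η ^ 2))) (by norm_num)
    (by norm_num) hsub
    ((H.nu_le Q hQ hOK _).trans (le_of_eq (by rw [mul_right_comm, e44, one_mul])))
    (hDLy.trans (le_of_eq (by rw [mul_right_comm, e44, one_mul]))) (by positivity)
    (n1.trans hε'1)
  obtain ⟨η₁, hη1, hη2, hη3, hη4, hη5⟩ := HB y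
  have hMb : A * κ * h * M + ε' * (1 / 4) ^ m / (3 * A) * A
      + Q * (A * Cv * κ ^ 2 * (kap m * (3 / 8) ^ m)) ≤ ε' * (1 / 4) ^ m := by
    have e1 : A * κ * h * M = b * κ * h := by rw [hbd]; ring
    have e2 : ε' * (1 / 4) ^ m / (3 * A) * A = ε' * (1 / 4) ^ m / 3 := by
      field_simp
    have e3 : (Q : ℝ) * (A * Cv * κ ^ 2 * (kap m * (3 / 8) ^ m)) = c * κ ^ 2 := by rw [hcd]; ring
    rw [e1, e2, e3]
    linarith
  have hq : q = Q := H.count Q hQ hOK hCs hA hCv.le HCv hW hε'2 n1 hMb hy hη1 hη2 hη3 hη4 hη5 q2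
  refine (le_self_add.trans (q3 hq)).trans ?_
  refine (mul_le_mul_right hDLy _).trans ?_
  rw [← ENNReal.ofReal_mul hCs.le]
  refine ENNReal.ofReal_le_ofReal ?_
  have : 0 ≤ a * (h ^ 2 + η ^ 2) := by positivity
  nlinarith

/-! ### (E5), (E6) covering, restriction of the base, mass comparison -/

theorem eu_cover (m : ℕ) (r : ℝ) : ∃ T : Finset (E m), (∀ y ∈ T, y ∈ Metric.ball (0 : E m) r) ∧
    Metric.ball (0 : E m) r ⊆ ⋃ y ∈ T, Metric.ball y (1 / 4) := by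
  have htb : TotallyBounded (Metric.ball (0 : E m) r) :=
    (isCompact_closedBall (0 : E m) r).totallyBounded.subset Metric.ball_subset_closedBall
  obtain ⟨T, hT, hfin, hcov⟩ := Metric.finite_approx_of_totallyBounded htb (1 / 4) (by norm_num)
  refine ⟨hfin.toFinset, fun y hy => hT (hfin.mem_toFinset.1 hy), ?_⟩
  simpa using hcov

theorem eu_sum_le {μ : Measure (E m)} {B : Set (E m)} (T : Finset (E m))
    (hcov : B ⊆ ⋃ y ∈ T, Metric.ball y (1 / 4)) {c : ℝ}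
    (hb : ∀ y ∈ T, μ (Metric.ball y (1 / 4)) ≤ ENNReal.ofReal c) :
    μ B ≤ ENNReal.ofReal (T.card * c) := by
  calc μ B ≤ μ (⋃ y ∈ T, Metric.ball y (1 / 4)) := measure_mono hcov
    _ ≤ ∑ y ∈ T, μ (Metric.ball y (1 / 4)) := measure_biUnion_finset_le _ _
    _ ≤ T.card • ENNReal.ofReal c := Finset.sum_le_card_nsmul _ _ _ hb
    _ = ENNReal.ofReal (T.card * c) := by
        rw [nsmul_eq_mul, ENNReal.ofReal_mul (Nat.cast_nonneg _), ENNReal.ofReal_natCast]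

/-- **(E6)** the mass comparison. -/
theorem EU.massC {W : SIV m n} {R t κ h η M r hc : ℝ} {u : E m → E n}
    (H : EU W R t κ h η M r hc u) (Q : ℕ) (hQ : 1 ≤ Q)
    (hOK : Lin.CylOK (H.ncyl Q hQ (r + 1) le_rfl)) {c : ℝ} (hc0 : 0 ≤ c)
    (hMabs : (H.ncyl Q hQ (r + 1) le_rfl).Mabs (Metric.ball 0 r) ≤ ENNReal.ofReal c)
    {G : E m → ℝ} {A₀ A₁ : ℝ} (hG : ContDiff ℝ 1 G) (hsupp : tsupport G ⊆ Metric.ball 0 r)
    (hA0 : ∀ y, |G y| ≤ A₀) (hA1 : ∀ y, ‖fderiv ℝ G y‖ ≤ A₁) :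
    |∫ X, G (prH m n X) ∂(muc W R t)
        - Q * ∫ y, G y * vdens (fderiv ℝ u y) ∂(μH[(m : ℝ)] : Measure (E m))|
      ≤ c * A₀ + M * κ * h * A₁ := by
  have hr := H.r_ge
  have hA₀ : 0 ≤ A₀ := (abs_nonneg _).trans (hA0 0)
  have hA₁ : 0 ≤ A₁ := (norm_nonneg _).trans (hA1 0)
  have h0 : ∀ y, y ∉ Metric.ball (0 : E m) r → G y = 0 := eu_zero_of_tsupport hsupp
  have t1 := H.cmp Q hQ hOK hG.continuous hA₁ (eu_lip hG hA1)
    (fun y hy => h0 y fun h => hy (Metric.ball_subset_ball (by linarith) h))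
  obtain ⟨Cv, hCv, hv⟩ := Lin.exists_vdens_bound m n
  have hvol : (H.ncyl Q hQ (r + 1) le_rfl).volS (Metric.ball 0 r) < ⊤ := by
    refine (Lin.volS_le (H.ncyl Q hQ (r + 1) le_rfl) (Cv := Cv)
      (fun y => hv _ ((H.slope y).trans H.geo.le_one)) _).trans_lt ?_
    have e : (μH[(m : ℝ)] : Measure (E m)) (H.ncyl Q hQ (r + 1) le_rfl).Ω
        = ENNReal.ofReal (kap m * (r + 1) ^ m) := hausdorff_ball m 0 (by linarith)
    rw [e]
    exact ENNReal.mul_lt_top ENNReal.ofReal_lt_top ENNReal.ofReal_lt_top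
  have t2 := (intM_le (H.ncyl Q hQ (r + 1) le_rfl) G (Metric.ball 0 r) A₀
    hG.continuous.measurable measurableSet_ball (Metric.ball_subset_ball (by linarith)) h0 hA0
    ((H.nu_le Q hQ hOK _).trans_lt ENNReal.ofReal_lt_top) hvol).1
  have t3 : ((H.ncyl Q hQ (r + 1) le_rfl).Mabs (Metric.ball 0 r)).toReal ≤ c :=
    ENNReal.toReal_le_of_le_ofReal hc0 hMabs
  have t4 : |(H.ncyl Q hQ (r + 1) le_rfl).intM G| ≤ A₀ * c :=
    t2.trans (mul_le_mul_of_nonneg_left t3 hA₀)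
  have e : (H.ncyl Q hQ (r + 1) le_rfl).intM G = ∫ y, G y ∂(H.ncyl Q hQ (r + 1) le_rfl).nu
      - Q * ∫ y, G y * vdens (fderiv ℝ u y) ∂(μH[(m : ℝ)] : Measure (E m)) := by
    have e1 : ∫ y, G y ∂(H.ncyl Q hQ (r + 1) le_rfl).volS
        = ∫ y, G y * vdens (fderiv ℝ u y) ∂(μH[(m : ℝ)] : Measure (E m)) :=
      eu_integral_volS (H.ncyl Q hQ (r + 1) le_rfl) G
        (fun y hy => h0 y fun h => hy (Metric.ball_subset_ball (by linarith) h))
    rw [← e1]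
    rfl
  rw [e] at t4
  rw [abs_le] at t1 t4 ⊢
  constructor <;> nlinarith [t1.1, t1.2, t4.1, t4.2]

theorem eu_geo {J : ℕ} {κ : ℝ} {u : E m → E n} (hJ : 5 ≤ J) (hR : RefGraph J κ κ u)
    (hκ : κ ≤ 1 / 2) : Geo κ u :=
  ⟨hR.smooth.of_le (by exact_mod_cast (by omega : 4 ≤ J)), fun y => (hR.slope y).trans hκ,
    fun y => hR.bound 2 le_rfl (by omega) y, fun y => hR.bound 3 (by norm_num) (by omega) y,
    hκ.trans (by norm_num)⟩

/-- **(E5)** the cylinder over `ball 0 r`. -/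
theorem EU.final {W : SIV m n} {R t κ h η M r hc : ℝ} {u : E m → E n}
    (H : EU W R t κ h η M r hc u) (Q : ℕ) (hQ : 1 ≤ Q) {hB c₁ c₂ : ℝ}
    (HB : ∀ (κ₂ : ℝ) (N N' : NCyl m n), Geo κ₂ N.u → N.h ≤ hB →
      N'.W = N.W → N'.u = N.u → N'.h = N.h → N'.Q = N.Q → N.Ω ⊆ N'.Ω →
      N.nu = N'.nu.restrict N.Ω ∧ N.Dm = N'.Dm.restrict N.Ω ∧ N.Lm = N'.Lm.restrict N.Ω ∧
      N.Mabs = N'.Mabs.restrict N.Ω) (hhc : hc ≤ hB) (hc₁ : 0 ≤ c₁) (hc₂ : 0 ≤ c₂)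
    (hDL : ((H.ncyl Q hQ (r + 1) le_rfl).Dm + (H.ncyl Q hQ (r + 1) le_rfl).Lm)
      (Metric.ball 0 (r + 1)) ≤ ENNReal.ofReal c₁)
    (hMabs : (H.ncyl Q hQ (r + 1) le_rfl).Mabs (Metric.ball 0 r) ≤ ENNReal.ofReal c₂) :
    ∃ N : NCyl m n, N.W = W ∧ N.u = u ∧ N.Ω = Metric.ball 0 r ∧ N.h = hc ∧ N.Q = Q ∧
      (N.Dm + N.Mabs) (Metric.ball 0 r) ≤ ENNReal.ofReal (c₁ + c₂) := by
  refine ⟨H.ncyl Q hQ r (by linarith), rfl, rfl, rfl, rfl, rfl, ?_⟩
  obtain ⟨-, h2, -, h4⟩ := HB κ (H.ncyl Q hQ r (by linarith)) (H.ncyl Q hQ (r + 1) le_rfl) H.geo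
    hhc rfl rfl rfl rfl (Metric.ball_subset_ball (by linarith))
  have eΩ : (H.ncyl Q hQ r (by linarith)).Ω = Metric.ball 0 r := rfl
  rw [eΩ] at h2 h4
  rw [Measure.add_apply, h2, h4, Measure.restrict_apply_self, Measure.restrict_apply_self,
    ENNReal.ofReal_add hc₁ hc₂]
  refine add_le_add (le_trans ?_ hDL) hMabs
  rw [Measure.add_apply]
  exact (measure_mono (Metric.ball_subset_ball (by linarith))).trans le_self_add

/-- **tilt excess, mass defect and mass comparison over a reference graph, unit scale**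
(`energy_unit` with `MassC` unfolded). -/
theorem energy_unit_aux (m n Q : ℕ) (hm : 1 ≤ m) (hn : 1 ≤ n) (hQ : 1 ≤ Q) (M r : ℝ) (hM : 0 ≤ M)
    (hr : 1 ≤ r) :
    ∃ (J : ℕ) (hc₀ : ℝ), 5 ≤ J ∧ 0 < hc₀ ∧ ∀ hc : ℝ, 0 < hc → hc ≤ hc₀ →
      ∃ κ₀ σ₀ C : ℝ, 0 < κ₀ ∧ 0 < σ₀ ∧ 0 < C ∧
      ∀ (W : SIV m n) (R t κ h η : ℝ) (u : E m → E n), Flat W R t → r + 4 ≤ R → 4 * hc ≤ t →
        RefGraph J κ κ u → κ ≤ κ₀ → (∀ y ∈ Metric.ball (0 : E m) (r + 4), ‖u y‖ ≤ t / 4) →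
        Hgt W R t u 0 (r + 4) h → 0 ≤ h → h ≤ κ₀ →
        (∀ y ∈ Metric.ball (0 : E m) (r + 4), ‖HS u y‖ ≤ η ∧ Real.sqrt (DHSsq u y) ≤ η) →
        0 ≤ η → η ≤ κ₀ →
        muc W R t (ovr m n 0 (r + 4)) ≤ ENNReal.ofReal M →
        WMass W R t Q 0 (r + 4) 1 σ₀ →
        (∃ N : NCyl m n, N.W = W ∧ N.u = u ∧ N.Ω = Metric.ball 0 r ∧ N.h = hc ∧ N.Q = Q ∧
          (N.Dm + N.Mabs) (Metric.ball 0 r) ≤ ENNReal.ofReal (C * (h ^ 2 + η ^ 2))) ∧
        ∀ (G : E m → ℝ) (A₀ A₁ : ℝ), ContDiff ℝ 1 G → tsupport G ⊆ Metric.ball 0 r →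
          (∀ y, |G y| ≤ A₀) → (∀ y, ‖fderiv ℝ G y‖ ≤ A₁) →
          |∫ X, G (prH m n X) ∂(muc W R t)
              - Q * ∫ y, G y * vdens (fderiv ℝ u y) ∂(μH[(m : ℝ)] : Measure (E m))|
            ≤ C * (h ^ 2 + η ^ 2) * A₀ + C * κ * h * A₁ := by
  obtain ⟨J, hc₁, κ₁, σ₀, C, hJ, hhc₁, hκ₁, hκ₁', hσ₀, hC, HH⟩ := eu_ball m n Q hm hn hQ M r hM
  obtain ⟨hB, hhB, HB⟩ := base_restrict m n
  obtain ⟨T, hT, hcov⟩ := eu_cover m r
  refine ⟨J, min hc₁ (min hB (2 / 9)), hJ, lt_min hhc₁ (lt_min hhB (by norm_num)), ?_⟩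
  intro hc hhc hhc'
  refine ⟨min κ₁ (hc / 4), σ₀, (1 + T.card) * C + M, lt_min hκ₁ (by positivity), hσ₀,
    by positivity, ?_⟩
  intro W R t κ h η u hF hR ht hu hκ hsup hH hh0 hh hcurv hη0 hη hmass hWM
  have hκ1 : κ ≤ κ₁ := hκ.trans (min_le_left _ _)
  have H : EU W R t κ h η M r hc u :=
    ⟨hF, hr, hR, hhc, hhc'.trans ((min_le_right _ _).trans (min_le_right _ _)), ht,
      eu_geo hJ hu (hκ1.trans hκ₁'), hu.slope, hsup, hH, hh0, by
        have := hh.trans (min_le_right _ _)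
        linarith, hcurv, hη0, hM, hmass⟩
  obtain ⟨hOK, hDL, hball⟩ := HH W R t κ h η hc u H (hhc'.trans (min_le_left _ _)) hu hκ1
    (hh.trans (min_le_left _ _)) (hη.trans (min_le_left _ _)) hWM
  have hsq : 0 ≤ h ^ 2 + η ^ 2 := by positivity
  have hc0 : 0 ≤ C * (h ^ 2 + η ^ 2) := by positivity
  have hMabs : (H.ncyl Q hQ (r + 1) le_rfl).Mabs (Metric.ball 0 r)
      ≤ ENNReal.ofReal (T.card * (C * (h ^ 2 + η ^ 2))) :=
    eu_sum_le T hcov fun y hy => hball y (hT y hy)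
  have hc1 : 0 ≤ (T.card : ℝ) * (C * (h ^ 2 + η ^ 2)) := by positivity
  have hκ0 := H.κ_nonneg
  constructor
  · obtain ⟨N, a1, a2, a3, a4, a5, a6⟩ := H.final Q hQ HB
      (hhc'.trans ((min_le_right _ _).trans (min_le_left _ _))) hc0 hc1 hDL hMabs
    refine ⟨N, a1, a2, a3, a4, a5, a6.trans (ENNReal.ofReal_le_ofReal ?_)⟩
    have : 0 ≤ M * (h ^ 2 + η ^ 2) := by positivity
    nlinarith
  · intro G A₀ A₁ hG hsupp hA0 hA1
    have hA₀ : 0 ≤ A₀ := (abs_nonneg _).trans (hA0 0)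
    have hA₁ : 0 ≤ A₁ := (norm_nonneg _).trans (hA1 0)
    refine (H.massC Q hQ hOK hc1 hMabs hG hsupp hA0 hA1).trans (add_le_add ?_ ?_)
    · refine mul_le_mul_of_nonneg_right ?_ hA₀
      have : 0 ≤ M * (h ^ 2 + η ^ 2) := by positivity
      nlinarith
    · refine mul_le_mul_of_nonneg_right ?_ hA₁
      have h1 : 0 ≤ (1 + (T.card : ℝ)) * C * (κ * h) := by positivity
      nlinarith

end Claimed.Agent.R322.Fit.Fits
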