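import Claimed.Agent.R322.Fit.Fits.Ident
import Claimed.Agent.R322.Pack050
import Claimed.Agent.R322.Tube.Inputs
import Claimed.Agent.R322.Pack045
import Claimed.Agent.R322.Fit.Fits.EnAux
import Claimed.Agent.R322.Fit.Fits.EnergyU

/-!
# Row 322, Fit/Fits/Energy: the normal cylinder over a fit: tilt excess, mass defect AE (7.5), mass comparison   (architect helper118)

PART 1 (unit scale, any `SIV`): `energy_unit`.  `W` flat in `Zc R t`, `u` a global reference graph, all support over `ball 0 (r+4)` within vertical height `h` of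
`graph u`, `|H_S| + |∇H_S| ≤ η`, mass `≤ M`, projected mass weakly `σ₀`-close to `Q` sheets.  Then the normal cylinder `N` over `ball 0 r` of height `hc` exists,
`(D + |M|)(ball 0 r) ≤ C (h² + η²)` and `|∫ G(prH X) dμ - Q ∫ G √g| ≤ C (h² + η²) sup|G| + C κ h sup|DG|`.

PLAN of `energy_unit`.  `c = 2`, `s = 1/4`, `C₀ = 4^m M`; `(Jsc, J₁)` from `Tube.scalar_input m n hm hn C₀ 2`, `K = 1` gives `ε₀ h₀ εs C_s`.  `J = max J₁ 5`;
`hc₀ = min h₀ (min (2/9) (thresholds of cyl_carrier, base_restrict, intM_le ...))`.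
 (E1) `ncyl_over`: `N' = ⟨W, u, ball 0 (r+1), hc, hc/2, Q, ..⟩`.  `cyl_sub`: `X = F(y) + z`, `|y| < r+1`, `|z| < hc`: `|prH X| < r + 2 ≤ R`, `|prV X| ≤ t/4 + hc < t`, `Flat.dom`.
      `gap`: a support point of the cylinder is in `Zc`, over `ball 0 (r+2)`, so `|zet u X| ≤ h`; `|zz u X| ≤ |X - F(prH X)| = |zet u X|` (`foot_facts`).
 (E2) `foot_facts` for `X` with `|zet u X| < 2/9`: `X ∈ Tub u (2/9)`, `|zz| ≤ |zet|`, `prH X - npr u X = prH (zz u X)`, `zz` normal at `npr`: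
      `zz = dN A' c` with `|c| ≤ |zz|`, so `|prH X - npr u X| ≤ κ |zz|`;  `tilt_le`: `tilt u P X ≤ 2 tiV u P X + 18 (m+n) κ² |prH X - npr u X|²`
      (`tr (P V) = |P V|²_HS`, `|V(y) - V(y')| ≤ 3 κ |y - y'|` mean value, `Tube.dPh_eq`, `norm_Wop_le`).
 (E3) `DL_le`: `(N'.Dm + N'.Lm) (ball 0 (r+1)) ≤ C M (h² + η²)`: definition of `Dm`, `Lm` (`Measure.map_apply` through `cyl_carrier`/`Lin.CylOK`), a.e. support points,
      (E2), `energyV` with `x = 0`, `ℓ = 1`, radius `r + 2`.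
 (E4) `count_eq`: for `|y| < r` the integer `q` of `scalar_input` at `(y, 1/4)` equals `Q`.  Fixed bump `η₀` (`1` on `ball 0 (1/8)`, support in `ball 0 (3/8)`), `η = η₀(· - y)`.
      `|∫ η dν' - q ∫ η dvolS| ≤ C ε`, `|∫ η dν' - ∫ η(prH X) dμc| ≤ Lip κ h M`, `WMass`, `0 ≤ vdens - 1 ≤ C κ²`.
 (E5) finite cover of `ball 0 r` by `ball y_i (1/4)`, `|y_i| < r`; `Mabs` is a measure.  `Tube.base_restrict` from `ball 0 (r+1)` to `ball 0 r`.
 (E6) `massC_of`: `Tube.intM_le` for `N'` with `A = ball 0 r`; `|G(prH X) - G(npr X)| ≤ A₁ κ h`.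

PART 2 (change of units): `Wp W x ℓ f = W.simil (x, f x) ℓ`, `rs x ℓ f y = (f (x + ℓ y) - f x)/ℓ`; the hypotheses of PART 1 for `(Wp, rs)` or `(Wp, Fit.scl)` from statements in
start units, and `MassC` back.  All by `SIV.simil_μ`, `SIV.simil_support`, `integral_map`, `Measure.addHaar_smul`-type scaling of `μH[m]`.
-/

set_option autoImplicit false

open scoped ENNReal ContDiff Topology
open MeasureTheory

namespace Claimed.Agent.R322.Fit.Fits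

open Claimed.Agent.R322.Tube Claimed.Agent.R322.Freq

variable {m n : ℕ}

/-- **mass comparison** over `ball x r`. -/
def MassC (W : SIV m n) (R t : ℝ) (Q : ℕ) (f : E m → E n) (x : E m) (r c₁ c₂ : ℝ) : Prop :=
  ∀ (G : E m → ℝ) (A₀ A₁ : ℝ), ContDiff ℝ 1 G → tsupport G ⊆ Metric.ball x r →
    (∀ y, |G y| ≤ A₀) → (∀ y, ‖fderiv ℝ G y‖ ≤ A₁) →
    |∫ X, G (prH m n X) ∂(muc W R t)
        - Q * ∫ y, G y * vdens (fderiv ℝ f y) ∂(μH[(m : ℝ)] : Measure (E m))|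
      ≤ c₁ * A₀ + c₂ * A₁

/-! ## PART 1: unit scale -/

/-! ### leaf L-Fit-Fits-E2 : vertical against normal foot point -/

/-- comparison of the two foot points. -/
theorem foot_facts {κ : ℝ} {u : E m → E n} (hu : Geo κ u) (hs : ∀ y, ‖fderiv ℝ u y‖ ≤ κ)
    {X : E (m + n)} (hX : ‖zet u X‖ < 2 / 9) :
    X ∈ Tub u (2 / 9) ∧ ‖zz u X‖ ≤ ‖zet u X‖ ∧ ‖prH m n X - npr u X‖ ≤ κ * ‖zz u X‖ ∧
      ‖zet u X‖ ≤ (1 + κ) ^ 2 * ‖zz u X‖ :=
  foot_facts_aux hu hs hX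

/-- comparison of the two tilts. -/
theorem tilt_le {κ : ℝ} {u : E m → E n} (hu : Geo κ u) {P : E (m + n) →L[ℝ] E (m + n)}
    (hP : IsProj m P) (X : E (m + n)) :
    tilt u P X ≤ 2 * tiV u P X + 18 * (m + n) * κ ^ 2 * ‖prH m n X - npr u X‖ ^ 2 :=
  tilt_le_aux hu hP X

/-- `0 ≤ √g - 1 ≤ C |A|²`. -/
theorem vdens_sub_one_le (m n : ℕ) : ∃ C : ℝ, 0 < C ∧ ∀ A : E m →L[ℝ] E n, ‖A‖ ≤ 1 →
    1 ≤ vdens A ∧ vdens A ≤ 1 + C * ‖A‖ ^ 2 :=
  vdens_sub_one_le_aux m n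

/-! ### the main statement of PART 1 (package L-Fit-Fits-E: cut it along (E1), (E3)-(E6) of the header) -/

/-- **tilt excess, mass defect and mass comparison over a reference graph, unit scale.** -/
theorem energy_unit (m n Q : ℕ) (hm : 1 ≤ m) (hn : 1 ≤ n) (hQ : 1 ≤ Q) (M r : ℝ) (hM : 0 ≤ M)
    (hr : 1 ≤ r) :
    ∃ (J : ℕ) (hc₀ : ℝ), 5 ≤ J ∧ 0 < hc₀ ∧ ∀ hc : ℝ, 0 < hc → hc ≤ hc₀ →
      ∃ κ₀ σ₀ C : ℝ, 0 < κ₀ ∧ 0 < σ₀ ∧ 0 < C ∧
      ∀ (W : SIV m n) (R t κ h η : ℝ) (u : E m → E n), Flat W R t → r + 4 ≤ R → 4 * hc ≤ t →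
        RefGraph J κ κ u → κ ≤ κ₀ → (∀ y ∈ Metric.ball (0 : E m) (r + 4), ‖u y‖ ≤ t / 4) →
        Hgt W R t u 0 (r + 4) h → 0 ≤ h → h ≤ κ₀ →
        (∀ y ∈ Metric.ball (0 : E m) (r + 4), ‖HS u y‖ ≤ η ∧ Real.sqrt (DHSsq u y) ≤ η) →
        0 ≤ η → η ≤ κ₀ →
        muc W R t (ovr m n 0 (r + 4)) ≤ ENNReal.ofReal M →
        WMass W R t Q 0 (r + 4) 1 σ₀ →
        (∃ N : NCyl m n, N.W = W ∧ N.u = u ∧ N.Ω = Metric.ball 0 r ∧ N.h = hc ∧ N.Q = Q ∧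
          (N.Dm + N.Mabs) (Metric.ball 0 r) ≤ ENNReal.ofReal (C * (h ^ 2 + η ^ 2))) ∧
        MassC W R t Q u 0 r (C * (h ^ 2 + η ^ 2)) (C * κ * h) :=
  energy_unit_aux m n Q hm hn hQ M r hM hr

/-- the mass comparison implies weak closeness to `Q` sheets (leaf L-Fit-Fits-E7; `vdens_sub_one_le`, `Base.hausdorff_ball`). -/
theorem MassC.wmass (m n Q : ℕ) : ∃ C : ℝ, 0 < C ∧ ∀ (W : SIV m n) (R t κ : ℝ) (f : E m → E n) (x : E m)
    (r ℓ c₁ c₂ : ℝ), 0 < ℓ → 0 < r → (∀ y, ‖fderiv ℝ f y‖ ≤ κ) → κ ≤ 1 → Continuous (fderiv ℝ f) →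
    0 ≤ c₁ → 0 ≤ c₂ →
    MassC W R t Q f x (r * ℓ) (c₁ * ℓ ^ m) (c₂ * ℓ ^ (m + 1)) →
    WMass W R t Q x (r * ℓ) ℓ (c₁ + c₂ + C * κ ^ 2 * r ^ m) :=
  wmass_aux m n Q

/-! ## PART 2: change of units -/

/-- the varifold in the units of `B_ℓ(x)`, recentred at `(x, f x)`. -/
noncomputable def Wp (W : SIV m n) (x : E m) (ℓ : ℝ) (hℓ : 0 < ℓ) (f : E m → E n) : SIV m n :=
  W.simil (mkHV x (f x)) ℓ hℓ (LinearIsometryEquiv.refl ℝ _)

/-- the graph function in the units of `B_ℓ(x)`, recentred (no cutoff). -/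
noncomputable def rs (x : E m) (ℓ : ℝ) (f : E m → E n) (y : E m) : E n :=
  ℓ⁻¹ • (f (x + ℓ • y) - f x)

/-- the standing assumptions in start units for the change of units at `(x, ℓ)` with relative radius `r`. -/
structure Unit0 (W : SIV m n) (f : E m → E n) (x : E m) (ℓ r h : ℝ) : Prop where
  flat : Flat W 300 1
  x_lt : ‖x‖ < 5
  ℓ_pos : 0 < ℓ
  ℓ_le : ℓ ≤ 1
  r_pos : 0 < r
  r_le : r ≤ 140
  diff : Differentiable ℝ f
  slope : ∀ y, ‖fderiv ℝ f y‖ ≤ 1 / 2000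
  sup : ∀ y, ‖f y‖ ≤ 1 / 8
  hgt : Hgt W 300 1 f x (r * ℓ) h
  h_nonneg : 0 ≤ h
  h_le : h ≤ ℓ / 8

/-! ### leaf L-Fit-Fits-S1 : support and measure -/

theorem unit0_isOpen_Zc (R t : ℝ) : IsOpen (Zc m n R t) :=
  (isOpen_lt (prH m n).continuous.norm continuous_const).inter
    (isOpen_lt (prV m n).continuous.norm continuous_const)

theorem unit0_isOpen_ovr (x : E m) (r : ℝ) : IsOpen (ovr m n x r) :=
  isOpen_lt ((prH m n).continuous.sub continuous_const).norm continuous_const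

theorem unit0_simInv (p Y : E (m + n)) (ℓ : ℝ) :
    simInv p ℓ (LinearIsometryEquiv.refl ℝ _) Y = p + ℓ • Y := rfl

theorem unit0_simMap {N : ℕ} (p X : E N) (ℓ : ℝ) :
    simMap p ℓ (LinearIsometryEquiv.refl ℝ _) X = ℓ⁻¹ • (X - p) := rfl

theorem Unit0.lip {W : SIV m n} {f : E m → E n} {x : E m} {ℓ r h : ℝ} (H : Unit0 W f x ℓ r h)
    (a b : E m) : ‖f a - f b‖ ≤ 1 / 2000 * ‖a - b‖ :=
  Convex.norm_image_sub_le_of_norm_fderiv_le (fun y _ => H.diff y) (fun y _ => H.slope y)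
    convex_univ (Set.mem_univ b) (Set.mem_univ a)

/-- points over `ball x (r ℓ)` close to `f x` are in the working cylinder -/
theorem Unit0.mem_Zc {W : SIV m n} {f : E m → E n} {x : E m} {ℓ r h : ℝ} (H : Unit0 W f x ℓ r h)
    {X : E (m + n)} (h1 : ‖prH m n X - x‖ ≤ r * ℓ) (h2 : ‖prV m n X - f x‖ ≤ ℓ / 2) :
    ‖prH m n X‖ < 300 ∧ ‖prV m n X‖ < 1 := by
  have hrl : r * ℓ ≤ 140 := by
    have := H.r_le; have := H.ℓ_le; have := H.r_pos; have := H.ℓ_pos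
    nlinarith
  constructor
  · have : ‖prH m n X‖ ≤ ‖prH m n X - x‖ + ‖x‖ := by
      simpa using norm_add_le (prH m n X - x) x
    linarith [H.x_lt]
  · have : ‖prV m n X‖ ≤ ‖prV m n X - f x‖ + ‖f x‖ := by
      simpa using norm_add_le (prV m n X - f x) (f x)
    linarith [H.sup x, H.ℓ_le]

/-- support points of the working cylinder over `ball x (r ℓ)` are close to `f x` -/
theorem Unit0.supp_close {W : SIV m n} {f : E m → E n} {x : E m} {ℓ r h : ℝ}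
    (H : Unit0 W f x ℓ r h) {X : E (m + n)} (hX : X ∈ W.support) (hZ : X ∈ Zc m n 300 1)
    (h1 : ‖prH m n X - x‖ < r * ℓ) : ‖prV m n X - f x‖ ≤ ℓ / 4 := by
  have h2 := H.hgt X hX hZ h1
  have h3 := H.lip (prH m n X) x
  have h4 : prV m n X - f x = zet f X + (f (prH m n X) - f x) := by
    unfold zet; abel
  have hrl : r * ℓ ≤ 140 * ℓ := mul_le_mul_of_nonneg_right H.r_le H.ℓ_pos.le
  rw [h4]
  refine (norm_add_le _ _).trans ?_
  linarith [H.h_le, H.ℓ_pos]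

theorem unit0_prH_simInv (x : E m) (z : E n) (ℓ : ℝ) (Y : E (m + n)) :
    prH m n (mkHV x z + ℓ • Y) = x + ℓ • prH m n Y := by
  rw [map_add, map_smul, prH_mkHV]

theorem unit0_prV_simInv (x : E m) (z : E n) (ℓ : ℝ) (Y : E (m + n)) :
    prV m n (mkHV x z + ℓ • Y) = z + ℓ • prV m n Y := by
  rw [map_add, map_smul, prV_mkHV]

theorem Unit0.flat' {W : SIV m n} {f : E m → E n} {x : E m} {ℓ r h : ℝ} (H : Unit0 W f x ℓ r h) :
    Flat (Wp W x ℓ H.ℓ_pos f) r (1 / 2) := by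
  have hℓ := H.ℓ_pos
  refine ⟨by norm_num, ?_, ?_⟩
  · rintro Y ⟨hY1, hY2⟩
    show simInv (mkHV x (f x)) ℓ (LinearIsometryEquiv.refl ℝ _) Y ∈ W.U
    rw [unit0_simInv]
    apply H.flat.dom
    have h1 : ‖prH m n (mkHV x (f x) + ℓ • Y) - x‖ ≤ r * ℓ := by
      rw [unit0_prH_simInv, add_sub_cancel_left, norm_smul, Real.norm_of_nonneg hℓ.le, mul_comm]
      gcongr
    have h2 : ‖prV m n (mkHV x (f x) + ℓ • Y) - f x‖ ≤ ℓ / 2 := by
      rw [unit0_prV_simInv, add_sub_cancel_left, norm_smul, Real.norm_of_nonneg hℓ.le]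
      nlinarith
    exact ⟨(H.mem_Zc h1 h2).1.le, (H.mem_Zc h1 h2).2.le⟩
  · intro Y hY hY1 hY2
    have hY' : simInv (mkHV x (f x)) ℓ (LinearIsometryEquiv.refl ℝ _) Y ∈ W.support := by
      have := hY
      unfold Wp at this
      rw [SIV.simil_support] at this
      exact this
    rw [unit0_simInv] at hY'
    have h1 : ‖prH m n (mkHV x (f x) + ℓ • Y) - x‖ < r * ℓ := by
      rw [unit0_prH_simInv, add_sub_cancel_left, norm_smul, Real.norm_of_nonneg hℓ.le, mul_comm]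
      gcongr
    have h2 : ‖prV m n (mkHV x (f x) + ℓ • Y) - f x‖ ≤ ℓ / 2 := by
      rw [unit0_prV_simInv, add_sub_cancel_left, norm_smul, Real.norm_of_nonneg hℓ.le]
      nlinarith
    have h3 := H.supp_close hY' (H.mem_Zc h1.le h2) h1
    rw [unit0_prV_simInv, add_sub_cancel_left, norm_smul, Real.norm_of_nonneg hℓ.le] at h3
    have : ℓ * ‖prV m n Y‖ ≤ ℓ * (1 / 2 / 2) := by linarith
    exact le_of_mul_le_mul_left this hℓ

/-- heights; `u` is any function which agrees with `rs x ℓ f` on `ball 0 r`. -/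
theorem Unit0.hgt' {W : SIV m n} {f : E m → E n} {x : E m} {ℓ r h : ℝ} (H : Unit0 W f x ℓ r h)
    {u : E m → E n} (hu : ∀ y ∈ Metric.ball (0 : E m) r, u y = rs x ℓ f y) :
    Hgt (Wp W x ℓ H.ℓ_pos f) r (1 / 2) u 0 r (h / ℓ) := by
  have hℓ := H.ℓ_pos
  intro Y hY hZ hY1
  rw [sub_zero] at hY1
  have hY' : simInv (mkHV x (f x)) ℓ (LinearIsometryEquiv.refl ℝ _) Y ∈ W.support := by
    have := hY
    unfold Wp at this
    rw [SIV.simil_support] at this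
    exact this
  rw [unit0_simInv] at hY'
  have h1 : ‖prH m n (mkHV x (f x) + ℓ • Y) - x‖ < r * ℓ := by
    rw [unit0_prH_simInv, add_sub_cancel_left, norm_smul, Real.norm_of_nonneg hℓ.le, mul_comm]
    gcongr
  have h2 : ‖prV m n (mkHV x (f x) + ℓ • Y) - f x‖ ≤ ℓ / 2 := by
    rw [unit0_prV_simInv, add_sub_cancel_left, norm_smul, Real.norm_of_nonneg hℓ.le]
    have := hZ.2
    nlinarith
  have h3 := H.hgt _ hY' (H.mem_Zc h1.le h2) h1
  have h4 : zet u Y = ℓ⁻¹ • zet f (mkHV x (f x) + ℓ • Y) := by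
    unfold zet
    rw [hu _ (by simpa using hY1), unit0_prH_simInv, unit0_prV_simInv]
    unfold rs
    rw [smul_sub, smul_sub, smul_add, smul_smul, inv_mul_cancel₀ hℓ.ne', one_smul]
    abel
  rw [h4, norm_smul, norm_inv, Real.norm_of_nonneg hℓ.le, div_eq_inv_mul]
  gcongr

/-- the key identity of measures -/
theorem Unit0.muc_eq {W : SIV m n} {f : E m → E n} {x : E m} {ℓ r h : ℝ}
    (H : Unit0 W f x ℓ r h) :
    muc (Wp W x ℓ H.ℓ_pos f) r (1 / 2) = ENNReal.ofReal ((ℓ ^ m)⁻¹) •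
      ((muc W 300 1).restrict (ovr m n x (r * ℓ))).map
        (simMap (mkHV x (f x)) ℓ (LinearIsometryEquiv.refl ℝ _)) := by
  have hℓ := H.ℓ_pos
  have hTm : Measurable (simMap (mkHV x (f x)) ℓ (LinearIsometryEquiv.refl ℝ (E (m + n)))) :=
    (Base.contDiff_simMap _ _ ℓ).continuous.measurable
  have hpre : ∀ X : E (m + n), X ∈ simMap (mkHV x (f x)) ℓ (LinearIsometryEquiv.refl ℝ _) ⁻¹'
      (Zc m n r (1 / 2)) ↔ ‖prH m n X - x‖ < r * ℓ ∧ ‖prV m n X - f x‖ < ℓ / 2 := by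
    intro X
    rw [Set.mem_preimage, unit0_simMap]
    unfold Zc
    rw [Set.mem_ofPred_eq, map_smul, map_smul, map_sub, map_sub, prH_mkHV, prV_mkHV, norm_smul,
      norm_smul, norm_inv, Real.norm_of_nonneg hℓ.le, inv_mul_lt_iff₀ hℓ, inv_mul_lt_iff₀ hℓ,
      mul_comm ℓ r]
    constructor
    · rintro ⟨a, b⟩; exact ⟨a, by linarith⟩
    · rintro ⟨a, b⟩; exact ⟨a, by linarith⟩
  have hae : (simMap (mkHV x (f x)) ℓ (LinearIsometryEquiv.refl ℝ _) ⁻¹' (Zc m n r (1 / 2)) :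
      Set (E (m + n))) =ᵐ[W.μ] (ovr m n x (r * ℓ) ∩ Zc m n 300 1 : Set (E (m + n))) := by
    have hs : ∀ᵐ X ∂W.μ, X ∈ W.support := by
      rw [ae_iff]
      exact W.μ_compl_support
    filter_upwards [hs] with X hX
    apply propext
    constructor
    · intro hXA
      obtain ⟨a, b⟩ := (hpre X).1 hXA
      exact ⟨a, H.mem_Zc a.le b.le⟩
    · rintro ⟨a, b⟩
      refine (hpre X).2 ⟨a, ?_⟩
      have := H.supp_close hX b a
      linarith
  unfold muc Wp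
  rw [SIV.simil_μ, Measure.restrict_smul, Measure.restrict_map hTm (unit0_isOpen_Zc _ _).measurableSet,
    Measure.restrict_congr_set hae, Measure.restrict_restrict (unit0_isOpen_ovr _ _).measurableSet]

/-- change of variables for the working measures. -/
theorem Unit0.integral_eq {W : SIV m n} {f : E m → E n} {x : E m} {ℓ r h : ℝ}
    (H : Unit0 W f x ℓ r h) (g : E (m + n) → ℝ) :
    ∫ Y, g Y ∂(muc (Wp W x ℓ H.ℓ_pos f) r (1 / 2))
      = (ℓ ^ m)⁻¹ * ∫ X in ovr m n x (r * ℓ), g (ℓ⁻¹ • (X - mkHV x (f x))) ∂(muc W 300 1) := by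
  have hℓ := H.ℓ_pos
  rw [H.muc_eq, integral_smul_measure, ENNReal.toReal_ofReal (by positivity), smul_eq_mul]
  congr 1
  exact (Base.simHomeo (mkHV x (f x)) (LinearIsometryEquiv.refl ℝ _) hℓ).measurableEmbedding.integral_map g

theorem Unit0.measure_eq {W : SIV m n} {f : E m → E n} {x : E m} {ℓ r h : ℝ}
    (H : Unit0 W f x ℓ r h) {r' : ℝ} (hr' : r' ≤ r) :
    muc (Wp W x ℓ H.ℓ_pos f) r (1 / 2) (ovr m n 0 r')
      = ENNReal.ofReal ((ℓ ^ m)⁻¹) * muc W 300 1 (ovr m n x (r' * ℓ)) := by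
  have hℓ := H.ℓ_pos
  have hTm : Measurable (simMap (mkHV x (f x)) ℓ (LinearIsometryEquiv.refl ℝ (E (m + n)))) :=
    (Base.contDiff_simMap _ _ ℓ).continuous.measurable
  rw [H.muc_eq, Measure.smul_apply, smul_eq_mul,
    Measure.map_apply hTm (unit0_isOpen_ovr _ _).measurableSet,
    Measure.restrict_apply (hTm (unit0_isOpen_ovr _ _).measurableSet)]
  congr 2
  ext X
  rw [Set.mem_inter_iff, Set.mem_preimage, unit0_simMap]
  unfold ovr
  simp only [Set.mem_ofPred_eq]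
  rw [sub_zero, map_smul, map_sub, prH_mkHV, norm_smul, norm_inv, Real.norm_of_nonneg hℓ.le,
    inv_mul_lt_iff₀ hℓ, mul_comm ℓ r']
  constructor
  · rintro ⟨a, -⟩; exact a
  · intro a
    exact ⟨a, a.trans_le (mul_le_mul_of_nonneg_right hr' hℓ.le)⟩

/-! ### leaf L-Fit-Fits-S2 : mass statements -/

/-- scaling of the reference measure on the base -/
theorem unit0_integral_scale (x : E m) {ℓ : ℝ} (hℓ : 0 < ℓ) (Φ : E m → ℝ) :
    ∫ y, Φ (ℓ⁻¹ • (y - x)) ∂(μH[(m : ℝ)] : Measure (E m))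
      = ℓ ^ m * ∫ y, Φ y ∂(μH[(m : ℝ)] : Measure (E m)) := by
  have h1 := (Base.simHomeo x (LinearIsometryEquiv.refl ℝ (E m)) hℓ).measurableEmbedding.integral_map
    (μ := (μH[(m : ℝ)] : Measure (E m))) Φ
  have h2 : (μH[(m : ℝ)] : Measure (E m)).map (Base.simHomeo x (LinearIsometryEquiv.refl ℝ (E m)) hℓ)
      = ENNReal.ofReal (ℓ ^ m) • (μH[(m : ℝ)] : Measure (E m)) :=
    Base.map_simMap_hausdorff x (LinearIsometryEquiv.refl ℝ (E m)) m hℓ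
  rw [h2, integral_smul_measure, ENNReal.toReal_ofReal (by positivity), smul_eq_mul] at h1
  exact h1.symm

theorem Unit0.wmass' {W : SIV m n} {f : E m → E n} {x : E m} {ℓ r h : ℝ} (H : Unit0 W f x ℓ r h)
    {Q : ℕ} {σ : ℝ} (hW : WMass W 300 1 Q x (r * ℓ) ℓ σ) :
    WMass (Wp W x ℓ H.ℓ_pos f) r (1 / 2) Q 0 r 1 σ := by
  have hℓ := H.ℓ_pos
  intro η A hη hsupp hA hDA
  set T' : E m ≃ₜ E m := Base.simHomeo x (LinearIsometryEquiv.refl ℝ (E m)) hℓ with hT'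
  have hT'app : ∀ y, T' y = ℓ⁻¹ • (y - x) := fun y => rfl
  have hT'c : ContDiff ℝ 1 (fun y : E m => ℓ⁻¹ • (y - x)) := by fun_prop
  have h1 : ContDiff ℝ 1 (fun y : E m => η (ℓ⁻¹ • (y - x))) := hη.comp hT'c
  have h2 : tsupport (fun y : E m => η (ℓ⁻¹ • (y - x))) ⊆ Metric.ball x (r * ℓ) := by
    have e : (fun y : E m => η (ℓ⁻¹ • (y - x))) = η ∘ T' := rfl
    rw [e, tsupport_comp_eq_preimage]
    intro y hy
    have := hsupp hy
    rw [mem_ball_zero_iff, hT'app, norm_smul, norm_inv, Real.norm_of_nonneg hℓ.le,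
      inv_mul_lt_iff₀ hℓ, mul_comm] at this
    rwa [mem_ball_iff_norm]
  have h3 : ∀ y : E m, |η (ℓ⁻¹ • (y - x))| ≤ A := fun y => hA _
  have h4 : ∀ y : E m, ℓ * ‖fderiv ℝ (fun y : E m => η (ℓ⁻¹ • (y - x))) y‖ ≤ A := by
    intro y
    have hd : HasFDerivAt (fun y : E m => η (ℓ⁻¹ • (y - x)))
        ((fderiv ℝ η (ℓ⁻¹ • (y - x))) ∘L (ℓ⁻¹ • ContinuousLinearMap.id ℝ (E m))) y :=
      ((hη.differentiable (by norm_num)) _).hasFDerivAt.comp y
        (((hasFDerivAt_id y).sub_const x).const_smul ℓ⁻¹)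
    rw [hd.fderiv]
    have h5 : ‖(fderiv ℝ η (ℓ⁻¹ • (y - x))) ∘L (ℓ⁻¹ • ContinuousLinearMap.id ℝ (E m))‖
        ≤ ‖fderiv ℝ η (ℓ⁻¹ • (y - x))‖ * ℓ⁻¹ := by
      refine (ContinuousLinearMap.opNorm_comp_le _ _).trans ?_
      gcongr
      rw [norm_smul, norm_inv, Real.norm_of_nonneg hℓ.le]
      exact mul_le_of_le_one_right (by positivity) ContinuousLinearMap.norm_id_le
    have h6 := hDA (ℓ⁻¹ • (y - x))
    rw [one_mul] at h6
    calc ℓ * ‖(fderiv ℝ η (ℓ⁻¹ • (y - x))) ∘L (ℓ⁻¹ • ContinuousLinearMap.id ℝ (E m))‖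
        ≤ ℓ * (‖fderiv ℝ η (ℓ⁻¹ • (y - x))‖ * ℓ⁻¹) := by gcongr
      _ = ‖fderiv ℝ η (ℓ⁻¹ • (y - x))‖ := by field_simp
      _ ≤ A := h6
  have key := hW _ A h1 h2 h3 h4
  rw [unit0_integral_scale x hℓ η] at key
  have e1 : ∫ Y, η (prH m n Y) ∂(muc (Wp W x ℓ H.ℓ_pos f) r (1 / 2))
      = (ℓ ^ m)⁻¹ * ∫ X, η (ℓ⁻¹ • (prH m n X - x)) ∂(muc W 300 1) := by
    rw [H.integral_eq (fun Y => η (prH m n Y))]
    congr 1
    have hz : ∀ X : E (m + n), X ∉ ovr m n x (r * ℓ) → η (ℓ⁻¹ • (prH m n X - x)) = 0 := by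
      intro X hX
      have : prH m n X ∉ tsupport (fun y : E m => η (ℓ⁻¹ • (y - x))) := fun hc => by
        have := h2 hc
        rw [mem_ball_iff_norm] at this
        exact hX this
      exact image_eq_zero_of_notMem_tsupport (f := fun y : E m => η (ℓ⁻¹ • (y - x))) this
    rw [← setIntegral_eq_integral_of_forall_compl_eq_zero (μ := muc W 300 1) hz]
    refine setIntegral_congr_fun (unit0_isOpen_ovr _ _).measurableSet fun X _ => ?_
    simp only [map_smul, map_sub, prH_mkHV]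
  rw [e1]
  have hlm : 0 < ℓ ^ m := by positivity
  have e2 : (ℓ ^ m)⁻¹ * ∫ X, η (ℓ⁻¹ • (prH m n X - x)) ∂(muc W 300 1)
      - Q * ∫ y, η y ∂(μH[(m : ℝ)] : Measure (E m))
      = (ℓ ^ m)⁻¹ * (∫ X, η (ℓ⁻¹ • (prH m n X - x)) ∂(muc W 300 1)
        - Q * (ℓ ^ m * ∫ y, η y ∂(μH[(m : ℝ)] : Measure (E m)))) := by
    field_simp
  rw [e2, abs_mul, abs_of_pos (inv_pos.2 hlm), one_pow, mul_one, inv_mul_le_iff₀ hlm]
  calc _ ≤ σ * ℓ ^ m * A := key
    _ = ℓ ^ m * (σ * A) := by ring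

/-- the mass comparison in start units. -/
theorem Unit0.massC {W : SIV m n} {f : E m → E n} {x : E m} {ℓ r h : ℝ} (H : Unit0 W f x ℓ r h)
    {Q : ℕ} {u : E m → E n} {r' c₁ c₂ : ℝ} (hr' : r' ≤ r)
    (hu : ∀ y ∈ Metric.ball (0 : E m) r, u y = rs x ℓ f y)
    (hM : MassC (Wp W x ℓ H.ℓ_pos f) r (1 / 2) Q u 0 r' c₁ c₂) :
    MassC W 300 1 Q f x (r' * ℓ) (c₁ * ℓ ^ m) (c₂ * ℓ ^ (m + 1)) := by
  have hℓ := H.ℓ_pos
  intro G A₀ A₁ hG hsupp hA₀ hA₁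
  set S' : E m ≃ₜ E m := (Base.simHomeo x (LinearIsometryEquiv.refl ℝ (E m)) hℓ).symm with hS'
  have hS'app : ∀ y, S' y = x + ℓ • y := fun y => rfl
  have hS'c : ContDiff ℝ 1 (fun y : E m => x + ℓ • y) := by fun_prop
  have h1 : ContDiff ℝ 1 (fun y : E m => G (x + ℓ • y)) := hG.comp hS'c
  have h2 : tsupport (fun y : E m => G (x + ℓ • y)) ⊆ Metric.ball 0 r' := by
    have e : (fun y : E m => G (x + ℓ • y)) = G ∘ S' := rfl
    rw [e, tsupport_comp_eq_preimage]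
    intro y hy
    have := hsupp hy
    rw [mem_ball_iff_norm, hS'app, add_sub_cancel_left, norm_smul, Real.norm_of_nonneg hℓ.le,
      mul_comm] at this
    rw [mem_ball_zero_iff]
    exact lt_of_mul_lt_mul_right this hℓ.le
  have h3 : ∀ y : E m, |G (x + ℓ • y)| ≤ A₀ := fun y => hA₀ _
  have h4 : ∀ y : E m, ‖fderiv ℝ (fun y : E m => G (x + ℓ • y)) y‖ ≤ ℓ * A₁ := by
    intro y
    have hd : HasFDerivAt (fun y : E m => G (x + ℓ • y))
        ((fderiv ℝ G (x + ℓ • y)) ∘L (ℓ • ContinuousLinearMap.id ℝ (E m))) y :=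
      ((hG.differentiable (by norm_num)) _).hasFDerivAt.comp y
        (((hasFDerivAt_id y).const_smul ℓ).const_add x)
    rw [hd.fderiv]
    refine (ContinuousLinearMap.opNorm_comp_le _ _).trans ?_
    rw [mul_comm]
    gcongr
    · rw [norm_smul, Real.norm_of_nonneg hℓ.le]
      exact mul_le_of_le_one_right hℓ.le ContinuousLinearMap.norm_id_le
    · exact hA₁ _
  have key := hM _ A₀ (ℓ * A₁) h1 h2 h3 h4
  have e1 : ∫ Y, G (x + ℓ • prH m n Y) ∂(muc (Wp W x ℓ H.ℓ_pos f) r (1 / 2))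
      = (ℓ ^ m)⁻¹ * ∫ X, G (prH m n X) ∂(muc W 300 1) := by
    rw [H.integral_eq (fun Y => G (x + ℓ • prH m n Y))]
    congr 1
    have hz : ∀ X : E (m + n), X ∉ ovr m n x (r * ℓ) → G (prH m n X) = 0 := by
      intro X hX
      have : prH m n X ∉ tsupport G := fun hc => by
        have := hsupp hc
        rw [mem_ball_iff_norm] at this
        exact hX (this.trans_le (mul_le_mul_of_nonneg_right hr' hℓ.le))
      exact image_eq_zero_of_notMem_tsupport this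
    rw [← setIntegral_eq_integral_of_forall_compl_eq_zero (μ := muc W 300 1) hz]
    refine setIntegral_congr_fun (unit0_isOpen_ovr _ _).measurableSet fun X _ => ?_
    simp only [map_smul, map_sub, prH_mkHV]
    rw [smul_smul, mul_inv_cancel₀ hℓ.ne', one_smul, add_sub_cancel]
  have e2 : ∫ y, G (x + ℓ • y) * vdens (fderiv ℝ u y) ∂(μH[(m : ℝ)] : Measure (E m))
      = (ℓ ^ m)⁻¹ * ∫ y, G y * vdens (fderiv ℝ f y) ∂(μH[(m : ℝ)] : Measure (E m)) := by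
    have e3 : ∀ y : E m, G (x + ℓ • y) * vdens (fderiv ℝ u y)
        = G (x + ℓ • y) * vdens (fderiv ℝ f (x + ℓ • y)) := by
      intro y
      by_cases hy : y ∈ Metric.ball (0 : E m) r'
      · have hy' : y ∈ Metric.ball (0 : E m) r := Metric.ball_subset_ball hr' hy
        have hev : u =ᶠ[𝓝 y] rs x ℓ f := by
          filter_upwards [Metric.isOpen_ball.mem_nhds hy'] with z hz using hu z hz
        have hd : HasFDerivAt (rs x ℓ f)
            (ℓ⁻¹ • ((fderiv ℝ f (x + ℓ • y)) ∘L (ℓ • ContinuousLinearMap.id ℝ (E m)))) y :=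
          (((H.diff _).hasFDerivAt.comp y
            (((hasFDerivAt_id y).const_smul ℓ).const_add x)).sub_const (f x)).const_smul ℓ⁻¹
        rw [hev.fderiv_eq, hd.fderiv]
        congr 2
        ext v
        simp [smul_smul, inv_mul_cancel₀ hℓ.ne']
      · have : y ∉ tsupport (fun y : E m => G (x + ℓ • y)) := fun hc => hy (h2 hc)
        have h0 : G (x + ℓ • y) = 0 :=
          image_eq_zero_of_notMem_tsupport (f := fun y : E m => G (x + ℓ • y)) this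
        rw [h0, zero_mul, zero_mul]
    simp only [e3]
    have e4 := unit0_integral_scale x hℓ
      (fun y => G (x + ℓ • y) * vdens (fderiv ℝ f (x + ℓ • y)))
    have e5 : ∀ y : E m, x + ℓ • (ℓ⁻¹ • (y - x)) = y := fun y => by
      rw [smul_smul, mul_inv_cancel₀ hℓ.ne', one_smul, add_sub_cancel]
    simp only [e5] at e4
    rw [e4]
    field_simp
  rw [e1, e2] at key
  have hlm : 0 < ℓ ^ m := by positivity
  have e6 : (ℓ ^ m)⁻¹ * ∫ X, G (prH m n X) ∂(muc W 300 1)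
      - Q * ((ℓ ^ m)⁻¹ * ∫ y, G y * vdens (fderiv ℝ f y) ∂(μH[(m : ℝ)] : Measure (E m)))
      = (ℓ ^ m)⁻¹ * (∫ X, G (prH m n X) ∂(muc W 300 1)
        - Q * ∫ y, G y * vdens (fderiv ℝ f y) ∂(μH[(m : ℝ)] : Measure (E m))) := by
    ring
  rw [e6, abs_mul, abs_of_pos (inv_pos.2 hlm), inv_mul_le_iff₀ hlm] at key
  calc _ ≤ ℓ ^ m * (c₁ * A₀ + c₂ * (ℓ * A₁)) := key
    _ = c₁ * ℓ ^ m * A₀ + c₂ * ℓ ^ (m + 1) * A₁ := by ring

/-! ### leaf L-Fit-Fits-S3 : the graph function in the new units -/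

/-- derivatives of `rs`. -/
theorem rs_facts {f : E m → E n} {J : ℕ} (hf : ContDiff ℝ J f) (x : E m) {ℓ : ℝ} (hℓ : 0 < ℓ) :
    ContDiff ℝ J (rs x ℓ f) ∧ rs x ℓ f 0 = 0 ∧
    ∀ j : ℕ, 1 ≤ j → j ≤ J → ∀ y,
      ‖iteratedFDeriv ℝ j (rs x ℓ f) y‖ = ℓ ^ (j - 1) * ‖iteratedFDeriv ℝ j f (x + ℓ • y)‖ :=
  rs_facts_aux hf x hℓ

/-- curvature quantities of `rs`. -/
theorem rs_curv {f : E m → E n} (hf : ContDiff ℝ 4 f) (x : E m) {ℓ : ℝ} (hℓ : 0 < ℓ) (y : E m) :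
    ‖HS (rs x ℓ f) y‖ = ℓ * ‖HS f (x + ℓ • y)‖ ∧
      DHSsq (rs x ℓ f) y = ℓ ^ 4 * DHSsq f (x + ℓ • y) :=
  rs_curv_aux f x hℓ y

/-- the cut off function of the interface: it agrees with `rs` near `closedBall 0 76` and is a reference graph.
(`norm_iteratedFDeriv_smul_le`/`ContinuousLinearMap.norm_iteratedFDeriv_le_of_bilinear`, bounds of the derivatives of the fixed bump `cut7 m` by compactness,
`|rs y| ≤ κ |y| ≤ 78 κ` on the support.) -/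
theorem scl_facts (m n J : ℕ) (hJ : 1 ≤ J) : ∃ C : ℝ, 1 ≤ C ∧ ∀ (f : E m → E n) (x : E m) (ℓ κ : ℝ), 0 < ℓ → 0 ≤ κ →
    ContDiff ℝ J f → (∀ j : ℕ, 1 ≤ j → j ≤ J → ∀ y, ℓ ^ (j - 1) * ‖iteratedFDeriv ℝ j f y‖ ≤ κ) →
    (∀ y ∈ Metric.ball (0 : E m) 76, scl x ℓ f =ᶠ[𝓝 y] rs x ℓ f) ∧
    RefGraph J (C * κ) (C * κ) (scl x ℓ f) ∧ ∀ y, ‖scl x ℓ f y‖ ≤ C * κ :=
  scl_facts_aux m n J hJ

/-! ### leaf L-Fit-Fits-S4 : curvature from the minimal surface operator; mass bound -/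

/-- `|H_S| ≤ |mss f|`, `|∇^⊥ H_S| ≤ sqrt m (3 κ |mss f| + |D mss f|)`  (`Base.Exit.HS_eq`, `Tube.dPh_eq`). -/
theorem curv_of_mss {κ : ℝ} {f Ξ : E m → E n} (hf : Geo κ f) (hΞ : ContDiff ℝ 1 Ξ) {y : E m}
    (h : mssOp f =ᶠ[𝓝 y] Ξ) :
    ‖HS f y‖ ≤ ‖Ξ y‖ ∧
      Real.sqrt (DHSsq f y) ≤ Real.sqrt m * (3 * κ * ‖Ξ y‖ + ‖fderiv ℝ Ξ y‖) :=
  curv_of_mss_aux hf hΞ h

/-- mass of the working cylinder over `ball x ρ` (monotonicity: `SIV.upper_mass`, `SIV.ratio_le_of_dist`, `SIV.ratio_mono`, `IsGood.ratio`). -/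
theorem mass_ovr (hm : 1 ≤ m) {W : SIV m n} {Q : ℕ} {eg : ℝ} (hW : IsGood W Q eg) (heg : eg ≤ 1)
    {f : E m → E n} (hf : Differentiable ℝ f) (hs : ∀ y, ‖fderiv ℝ f y‖ ≤ 1) (hsup : ∀ y, ‖f y‖ ≤ 1)
    {x : E m} (hx : ‖x‖ < 5) {ρ h : ℝ} (hρ : 0 < ρ) (hρ' : ρ ≤ 200) (hh : h ≤ ρ)
    (hH : Hgt W 300 1 f x ρ h) :
    muc W 300 1 (ovr m n x ρ) ≤ ENNReal.ofReal ((15 / 4) ^ m * (Q + 1) * kap m * ρ ^ m) :=
  mass_ovr_aux hm hW heg hf hs hsup hx hρ hρ' hh hH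

/-- a good varifold is flat in the working cylinder, of height `eg`, and weakly close to `Q` sheets. -/
theorem good_flat {W : SIV m n} {Q : ℕ} {eg : ℝ} (hW : IsGood W Q eg) (h0 : 0 ≤ eg)
    (heg : eg ≤ 1 / 2) :
    Flat W 300 1 ∧ (∀ X ∈ W.support, X ∈ Zc m n 300 1 → ‖prV m n X‖ ≤ eg) ∧
      ∀ x : E m, ‖x‖ < 5 → WMass W 300 1 Q x 128 1 (2 * eg) :=
  good_flat_aux hW heg

end Claimed.Agent.R322.Fit.Fits
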