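import Claimed.Agent.R322.Fit.Fits.Alg
import Claimed.Agent.R322.Pack043
import Claimed.Agent.R322.Pack044

/-!
# Row 322, Fit/Fits/Ident: first variation in a flat cylinder; Caccioppoli inequality; weak Jacobi estimate   (architect helper118)

`W` is a stationary integral varifold with `Flat W R t`; `μc = muc W R t = W.μ ⌞ {|prH X| < R, |prV X| < t}`.
`f : E m → E n` is a GLOBAL map with `Geo κ f` (`C⁴`, slope `≤ 1/2`, `|D²f|, |D³f| ≤ κ ≤ 1`), in the units of `W`.

PLANS.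
* `flat_stat`.  `ϑ : ℝ → ℝ` smooth, `1` on `(-∞, (5/8)²t²]`, `0` on `[(7/8)²t², ∞)` (`Real.smoothTransition`), `Y' X = ϑ(|prV X|²) Y X`: `C¹`,
  support in the compact set `{prH X ∈ K, |prV X| ≤ t}` `⊆ W.U` (`Flat.dom`).  `W.stat Y'`.  `W.μ`-a.e. point is in `W.support`
  (`SIV.μ_compl_support`).  At a support point `X`: if `X ∈ Zc` then `|prV X| ≤ t/2` (`Flat.gap`), so `Y' = Y` near `X`; if `|prH X| ≥ R` then `Y = 0` near `X`
  (`K` is closed, `prH X ∉ K`); if `|prH X| < R`, `|prV X| ≥ t` then `ϑ = 0` near `X`.  Hence `tdiv (P) (DY') = 1_{Zc} tdiv (P) (DY)` a.e.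
  Integrability: `|tdiv P L| ≤ (m+n) |L|` (`Tube.abs_trc_le`, `|P| ≤ 1`), `DY'` continuous with compact support in `W.U`, `W.locfin`, `W.P_meas`.
* `muc_ae`, `muc_ovr_lt_top`, `integrable_muc`: `μ_compl_support`, `ae_restrict_mem`; `W.locfin` on the compact set `{prH X ∈ K, |prV X| ≤ t}`.
* `caccioppoli`.  `flat_stat` for `fldC f χ`, `trace_fldC`, `|⟨H_S, inV ζ⟩| ≤ |H_S| |ζ|`, Young:
  `sqrt e |χ| |ζ| (2|Dχ| + 12(m+n) κ |χ|) ≤ χ² e / 2 + |ζ|² (4 |Dχ|² + 144 (m+n)² κ² χ²)`.  `C = 8 + 288 (m+n)²`.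
* `energyV`.  `χ y = χ₀ ((y - x)/ℓ)`, `χ₀` from `Tool.exists_cutoff m` with radius `r`: `χ = 1` on `ball x (r ℓ)`, `tsupport χ ⊆ closedBall x ((r+1) ℓ)`, `|Dχ| ≤ C₀/ℓ`.
  On the support of the integrands (a.e.) `|ζ| ≤ h`, `|H_S| ≤ η`; `κ ≤ 1 ≤ 1/ℓ`.
* `jacobi_int`.  `flat_stat` for `fldJ f w`, `trace_fldJ`.
* `jacobi_scale`.  `|Dw| ≤ A/ℓ`, `|D²w| ≤ A/ℓ²` (`norm_iteratedFDeriv_one`-type identities, `Tube.norm_D2_eq`), `κ, ℓ ≤ 1`; Cauchy-Schwarz
  `∫ sqrt e ≤ sqrt (μc(ovr) ∫ e)`.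
-/

set_option autoImplicit false

open scoped ENNReal ContDiff Topology
open MeasureTheory

namespace Claimed.Agent.R322.Fit.Fits

open Claimed.Agent.R322.Tube

variable {m n : ℕ}

/-! ### leaf L-Fit-Fits-I0 : the working measure -/

theorem isOpen_Zc (m n : ℕ) (R t : ℝ) : IsOpen (Zc m n R t) :=
  (isOpen_lt (prH m n).continuous.norm continuous_const).inter
    (isOpen_lt (prV m n).continuous.norm continuous_const)

/-- the compact box over a compact base set -/
theorem idn_isCompact_box {K : Set (E m)} (hK : IsCompact K) (t : ℝ) :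
    IsCompact {X : E (m + n) | prH m n X ∈ K ∧ ‖prV m n X‖ ≤ t} := by
  have h1 : {X : E (m + n) | prH m n X ∈ K ∧ ‖prV m n X‖ ≤ t}
      = (fun q : E m × E n => inH m n q.1 + inV m n q.2) '' (K ×ˢ Metric.closedBall 0 t) := by
    ext X
    constructor
    · rintro ⟨h1, h2⟩
      refine ⟨(prH m n X, prV m n X), ⟨h1, by simpa using h2⟩, ?_⟩
      show inH m n (prH m n X) + inV m n (prV m n X) = X
      rw [← mkHV_eq, mkHV_prH_prV]
    · rintro ⟨q, ⟨h1, h2⟩, rfl⟩
      have e1 : prH m n (inH m n q.1 + inV m n q.2) = q.1 := by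
        rw [map_add, prH_inH, prH_inV, add_zero]
      have e2 : prV m n (inH m n q.1 + inV m n q.2) = q.2 := by
        rw [map_add, prV_inH, prV_inV, zero_add]
      refine ⟨?_, ?_⟩
      · show prH m n (inH m n q.1 + inV m n q.2) ∈ K
        rw [e1]; exact h1
      · show ‖prV m n (inH m n q.1 + inV m n q.2)‖ ≤ t
        rw [e2]; simpa using h2
  rw [h1]
  exact (hK.prod (isCompact_closedBall 0 t)).image
    (((inH m n).continuous.comp continuous_fst).add ((inV m n).continuous.comp continuous_snd))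

theorem idn_box_subset {W : SIV m n} {R t : ℝ} (hW : Flat W R t) {K : Set (E m)}
    (hKR : K ⊆ Metric.ball 0 R) : {X : E (m + n) | prH m n X ∈ K ∧ ‖prV m n X‖ ≤ t} ⊆ W.U := by
  rintro X ⟨h1, h2⟩
  refine hW.dom ⟨?_, h2⟩
  have := hKR h1
  rw [Metric.mem_ball, dist_zero_right] at this
  exact this.le

/-- almost every point of the working measure is a support point in the lower half of the cylinder. -/
theorem muc_ae {W : SIV m n} {R t : ℝ} (hW : Flat W R t) :
    ∀ᵐ X ∂(muc W R t), X ∈ W.support ∧ X ∈ Zc m n R t ∧ ‖prV m n X‖ ≤ t / 2 := by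
  have h1 : ∀ᵐ X ∂(muc W R t), X ∈ W.support :=
    ae_restrict_of_ae (mem_ae_iff.2 W.μ_compl_support)
  have h2 : ∀ᵐ X ∂(muc W R t), X ∈ Zc m n R t := ae_restrict_mem (isOpen_Zc m n R t).measurableSet
  filter_upwards [h1, h2] with X h1 h2
  exact ⟨h1, h2, hW.gap X h1 h2.1 h2.2⟩

/-- finite mass over compact subsets of the base. -/
theorem muc_lt_top {W : SIV m n} {R t : ℝ} (hW : Flat W R t) {K : Set (E m)} (hK : IsCompact K)
    (hKR : K ⊆ Metric.ball 0 R) : muc W R t {X | prH m n X ∈ K} < ⊤ := by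
  have hm : MeasurableSet {X : E (m + n) | prH m n X ∈ K} :=
    (hK.isClosed.preimage (prH m n).continuous).measurableSet
  unfold muc
  rw [Measure.restrict_apply hm]
  refine lt_of_le_of_lt (measure_mono ?_)
    (W.μ_compact_lt_top (idn_isCompact_box hK t) (idn_box_subset hW hKR))
  rintro X ⟨h1, h2⟩
  exact ⟨h1, h2.2.le⟩

/-- bounded measurable functions with compact base support are integrable. -/
theorem integrable_muc {W : SIV m n} {R t : ℝ} (hW : Flat W R t) {K : Set (E m)} (hK : IsCompact K)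
    (hKR : K ⊆ Metric.ball 0 R) {F : Type*} [NormedAddCommGroup F] {g : E (m + n) → F} {B : ℝ}
    (hg : AEStronglyMeasurable g (muc W R t)) (hB : ∀ᵐ X ∂(muc W R t), ‖g X‖ ≤ B)
    (h0 : ∀ X, prH m n X ∉ K → g X = 0) : Integrable g (muc W R t) := by
  have h1 : IntegrableOn g {X | prH m n X ∈ K} (muc W R t) :=
    Measure.integrableOn_of_bounded (M := B) (muc_lt_top hW hK hKR).ne hg (ae_restrict_of_ae hB)
  exact (integrableOn_iff_integrable_of_support_subset
    (fun x hx => by_contra fun h => hx (h0 x h))).1 h1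

theorem measurable_tiV {f : E m → E n} (hf : ContDiff ℝ 2 f) (W : SIV m n) :
    Measurable (fun X => tiV f (W.P X) X) :=
  W.measurable_tdiv (A := fun X => Pv f (prH m n X))
    (((contDiff_Pv_of (k := 1) (by exact_mod_cast hf)).continuous.comp (prH m n).continuous).measurable)

/-! ### leaf L-Fit-Fits-I1 : first variation in the flat cylinder -/

/-- a field with closed base support has vanishing derivative off the base support -/
theorem idn_fderiv_eq_zero {F : Type*} [NormedAddCommGroup F] [NormedSpace ℝ F]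
    {Y : E (m + n) → F} {K : Set (E m)} (hK : IsClosed K)
    (h0 : ∀ X, prH m n X ∉ K → Y X = 0) {X : E (m + n)} (hX : prH m n X ∉ K) :
    Y =ᶠ[𝓝 X] 0 := by
  have h1 : ∀ᶠ X' in 𝓝 X, prH m n X' ∈ Kᶜ :=
    (prH m n).continuous.continuousAt.eventually (hK.isOpen_compl.mem_nhds hX)
  filter_upwards [h1] with X' hX'
  exact h0 X' hX'

/-- **first variation**: `C¹` fields with compact BASE support. -/
theorem flat_stat {W : SIV m n} {R t : ℝ} (hW : Flat W R t) {Y : E (m + n) → E (m + n)}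
    (hY : ContDiff ℝ 1 Y) {K : Set (E m)} (hK : IsCompact K) (hKR : K ⊆ Metric.ball 0 R)
    (h0 : ∀ X, prH m n X ∉ K → Y X = 0) :
    Integrable (fun X => tdiv (W.P X) (fderiv ℝ Y X)) (muc W R t) ∧
      ∫ X, tdiv (W.P X) (fderiv ℝ Y X) ∂(muc W R t) = 0 := by
  have ht := hW.t_pos
  have hbox := idn_isCompact_box (n := n) hK t
  have hboxU := idn_box_subset hW hKR
  have hcont : Continuous (fderiv ℝ Y) := hY.continuous_fderiv one_ne_zero
  constructor
  · obtain ⟨B, hB⟩ := hbox.exists_bound_of_continuousOn hcont.continuousOn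
    refine integrable_muc hW hK hKR (B := (m + n : ℕ) * max B 0)
      (W.measurable_tdiv hcont.measurable).aestronglyMeasurable ?_ ?_
    · filter_upwards [muc_ae hW] with X hX
      rw [Real.norm_eq_abs]
      refine (abs_tdiv_le (W.P_proj X) _).trans ?_
      by_cases hXK : prH m n X ∈ K
      · exact mul_le_mul_of_nonneg_left ((hB X ⟨hXK, hX.2.1.2.le⟩).trans (le_max_left _ _))
          (Nat.cast_nonneg _)
      · rw [(idn_fderiv_eq_zero hK.isClosed h0 hXK).fderiv_eq]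
        have hB0 : 0 ≤ max B 0 := le_max_right _ _
        simp only [fderiv_zero, Pi.zero_apply, norm_zero, mul_zero]
        positivity
    · intro X hXK
      rw [(idn_fderiv_eq_zero hK.isClosed h0 hXK).fderiv_eq]
      simp [tdiv]
  · -- the vertical cutoff
    set a : ℝ := (7 / 8) ^ 2 * t ^ 2 with ha
    set d : ℝ := ((7 / 8) ^ 2 - (5 / 8) ^ 2) * t ^ 2 with hd
    have hdpos : 0 < d := by rw [hd]; positivity
    set ϑ : E (m + n) → ℝ := fun X => Real.smoothTransition ((a - ‖prV m n X‖ ^ 2) / d) with hϑ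
    have hϑc : ContDiff ℝ 1 ϑ := by
      refine Real.smoothTransition.contDiff.comp ?_
      exact (contDiff_const.sub ((prV m n).contDiff.norm_sq ℝ)).div_const _
    set Y' : E (m + n) → E (m + n) := fun X => ϑ X • Y X with hY'
    have hY'c : ContDiff ℝ 1 Y' := hϑc.smul hY
    have hsupp : Function.support Y' ⊆ {X : E (m + n) | prH m n X ∈ K ∧ ‖prV m n X‖ ≤ t} := by
      intro X hX
      refine ⟨by_contra fun h => hX (by simp [hY', h0 X h]), by_contra fun h => hX ?_⟩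
      push Not at h
      have : ϑ X = 0 := by
        refine Real.smoothTransition.zero_of_nonpos (div_nonpos_of_nonpos_of_nonneg ?_ hdpos.le)
        have : t ^ 2 < ‖prV m n X‖ ^ 2 := by gcongr
        rw [ha]; nlinarith
      simp [hY', this]
    have hts : tsupport Y' ⊆ {X : E (m + n) | prH m n X ∈ K ∧ ‖prV m n X‖ ≤ t} :=
      closure_minimal hsupp hbox.isClosed
    have hcs : HasCompactSupport Y' := hbox.of_isClosed_subset (isClosed_tsupport _) hts
    have hstat := W.stat Y' hY'c hcs (hts.trans hboxU)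
    have hae : ∀ᵐ X ∂W.μ, (Zc m n R t).indicator (fun X => tdiv (W.P X) (fderiv ℝ Y X)) X
        = tdiv (W.P X) (fderiv ℝ Y' X) := by
      have h1 : ∀ᵐ X ∂W.μ, X ∈ W.support := mem_ae_iff.2 W.μ_compl_support
      filter_upwards [h1] with X hX
      by_cases hZ : X ∈ Zc m n R t
      · rw [Set.indicator_of_mem hZ]
        have hg := hW.gap X hX hZ.1 hZ.2
        have h2 : ∀ᶠ X' in 𝓝 X, ‖prV m n X'‖ < 5 / 8 * t :=
          (prV m n).continuous.norm.continuousAt.eventually (Iio_mem_nhds (by linarith))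
        have h3 : Y' =ᶠ[𝓝 X] Y := by
          filter_upwards [h2] with X' hX'
          have : ϑ X' = 1 := by
            refine Real.smoothTransition.one_of_one_le ?_
            rw [one_le_div hdpos, ha, hd]
            have : ‖prV m n X'‖ ^ 2 ≤ (5 / 8 * t) ^ 2 := by gcongr
            nlinarith
          simp [hY', this]
        rw [h3.fderiv_eq]
      · rw [Set.indicator_of_notMem hZ]
        have h3 : Y' =ᶠ[𝓝 X] 0 := by
          by_cases hXK : prH m n X ∈ K
          · have hR : ‖prH m n X‖ < R := by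
              have := hKR hXK
              rwa [Metric.mem_ball, dist_zero_right] at this
            have htX : t ≤ ‖prV m n X‖ := by
              by_contra h
              exact hZ ⟨hR, not_le.1 h⟩
            have h2 : ∀ᶠ X' in 𝓝 X, 7 / 8 * t < ‖prV m n X'‖ :=
              (prV m n).continuous.norm.continuousAt.eventually (Ioi_mem_nhds (by linarith))
            filter_upwards [h2] with X' hX'
            have : ϑ X' = 0 := by
              refine Real.smoothTransition.zero_of_nonpos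
                (div_nonpos_of_nonpos_of_nonneg ?_ hdpos.le)
              have : (7 / 8 * t) ^ 2 ≤ ‖prV m n X'‖ ^ 2 := by gcongr
              rw [ha]; nlinarith
            simp [hY', this]
          · filter_upwards [idn_fderiv_eq_zero hK.isClosed h0 hXK] with X' hX'
            simp [hY', hX']
        rw [h3.fderiv_eq]
        simp [tdiv]
    unfold muc
    rw [← integral_indicator (isOpen_Zc m n R t).measurableSet, integral_congr_ae hae]
    exact hstat

/-! ### leaf L-Fit-Fits-I2 : Caccioppoli -/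

/-- continuous functions with compact base support are bounded on the working cylinder -/
theorem idn_bound_cont {K : Set (E m)} (hK : IsCompact K) (R t : ℝ) {F : Type*}
    [NormedAddCommGroup F] {g : E (m + n) → F} (hg : Continuous g)
    (h0 : ∀ X, prH m n X ∉ K → g X = 0) : ∃ B : ℝ, 0 ≤ B ∧ ∀ X ∈ Zc m n R t, ‖g X‖ ≤ B := by
  obtain ⟨B, hB⟩ := (idn_isCompact_box (n := n) hK t).exists_bound_of_continuousOn hg.continuousOn
  refine ⟨max B 0, le_max_right _ _, fun X hX => ?_⟩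
  by_cases hXK : prH m n X ∈ K
  · exact (hB X ⟨hXK, hX.2.le⟩).trans (le_max_left _ _)
  · rw [h0 X hXK, norm_zero]; exact le_max_right _ _

/-- continuous functions with compact base support are integrable -/
theorem idn_integrable_cont {W : SIV m n} {R t : ℝ} (hW : Flat W R t) {K : Set (E m)}
    (hK : IsCompact K) (hKR : K ⊆ Metric.ball 0 R) {F : Type*} [NormedAddCommGroup F]
    [SecondCountableTopology F] [MeasurableSpace F] [BorelSpace F]
    {g : E (m + n) → F} (hg : Continuous g)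
    (h0 : ∀ X, prH m n X ∉ K → g X = 0) : Integrable g (muc W R t) := by
  obtain ⟨B, -, hB⟩ := idn_bound_cont hK R t hg h0
  refine integrable_muc hW hK hKR (B := B) hg.aestronglyMeasurable ?_ h0
  filter_upwards [muc_ae hW] with X hX
  exact hB X hX.2.1

/-- (continuous with compact base support) times (bounded measurable) is integrable -/
theorem idn_integrable_mul {W : SIV m n} {R t : ℝ} (hW : Flat W R t) {K : Set (E m)}
    (hK : IsCompact K) (hKR : K ⊆ Metric.ball 0 R) {g e : E (m + n) → ℝ} (hg : Continuous g)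
    (h0 : ∀ X, prH m n X ∉ K → g X = 0) (he : Measurable e) {M : ℝ} (hM : ∀ X, |e X| ≤ M) :
    Integrable (fun X => g X * e X) (muc W R t) := by
  obtain ⟨B, hB0, hB⟩ := idn_bound_cont hK R t hg h0
  refine integrable_muc hW hK hKR (B := B * M)
    (hg.measurable.mul he).aestronglyMeasurable ?_ (fun X hX => by rw [h0 X hX, zero_mul])
  filter_upwards [muc_ae hW] with X hX
  rw [norm_mul]
  exact mul_le_mul (hB X hX.2.1) (hM X) (norm_nonneg _) hB0

theorem idn_isCompact_tsupport {F : Type*} [Zero F] {χ : E m → F} {x : E m} {R : ℝ}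
    (h : tsupport χ ⊆ Metric.ball x R) : IsCompact (tsupport χ) :=
  Metric.isCompact_of_isClosed_isBounded (isClosed_tsupport _) (Metric.isBounded_ball.subset h)

theorem idn_Geo_nonneg {κ : ℝ} {f : E m → E n} (hf : Geo κ f) : 0 ≤ κ :=
  (norm_nonneg _).trans (hf.d2 0)

/-- the pointwise Caccioppoli inequality -/
theorem idn_cacc_pt {κ : ℝ} {f : E m → E n} {χ : E m → ℝ} (hf : Geo κ f) (hχ : ContDiff ℝ 1 χ)
    {P : E (m + n) →L[ℝ] E (m + n)} (hP : IsProj m P) (X : E (m + n)) :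
    χ (prH m n X) ^ 2 * tiV f P X ≤ 2 * tdiv P (fderiv ℝ (fldC f χ) X)
      + ((8 + 288 * ((m : ℝ) + n) ^ 2) *
          ((‖fderiv ℝ χ (prH m n X)‖ ^ 2 + κ ^ 2 * χ (prH m n X) ^ 2) * ‖zet f X‖ ^ 2)
        + 2 * (χ (prH m n X) ^ 2 * (‖HS f (prH m n X)‖ * ‖zet f X‖))) := by
  have h1 := trace_fldC hf hχ hP X
  have he := tiV_nonneg f hP X
  have hκ := idn_Geo_nonneg hf
  have h2 : inner ℝ (HS f (prH m n X)) (inV m n (zet f X)) ≤ ‖HS f (prH m n X)‖ * ‖zet f X‖ := by
    refine (real_inner_le_norm _ _).trans ?_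
    rw [norm_inV]
  set c := χ (prH m n X)
  set D := ‖fderiv ℝ χ (prH m n X)‖
  set e := tiV f P X
  set z := ‖zet f X‖
  set hS := ‖HS f (prH m n X)‖
  set T := tdiv P (fderiv ℝ (fldC f χ) X)
  set ip := inner ℝ (HS f (prH m n X)) (inV m n (zet f X))
  set N : ℝ := (m : ℝ) + n
  have hD : 0 ≤ D := norm_nonneg _
  have hz : 0 ≤ z := norm_nonneg _
  have hN : 0 ≤ N := by positivity
  set s := Real.sqrt e
  have hs : s ^ 2 = e := Real.sq_sqrt he
  have hs0 : 0 ≤ s := Real.sqrt_nonneg _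
  have hc2 : c ^ 2 = |c| ^ 2 := (sq_abs c).symm
  have h3 := (abs_le.1 h1).1
  have hy : s * z * (2 * |c| * D + 12 * N * κ * c ^ 2)
      ≤ c ^ 2 * e / 2 + z ^ 2 * (4 * D ^ 2 + 144 * N ^ 2 * κ ^ 2 * c ^ 2) := by
    rw [hc2, ← hs]
    set a := |c|
    nlinarith [sq_nonneg (s * a - z * (2 * D + 12 * N * κ * a)), sq_nonneg (2 * D - 12 * N * κ * a),
      mul_nonneg (sq_nonneg z) (sq_nonneg (2 * D - 12 * N * κ * a))]
  have h4 : c ^ 2 * ip ≤ c ^ 2 * (hS * z) := mul_le_mul_of_nonneg_left h2 (sq_nonneg _)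
  have h5 : 0 ≤ D ^ 2 * z ^ 2 * N ^ 2 := by positivity
  have h6 : 0 ≤ κ ^ 2 * c ^ 2 * z ^ 2 := by positivity
  nlinarith

/-- **Caccioppoli inequality** (no units). -/
theorem caccioppoli (m n : ℕ) : ∃ C : ℝ, 0 < C ∧ ∀ (W : SIV m n) (R t κ : ℝ) (f : E m → E n),
    Flat W R t → Geo κ f → ∀ χ : E m → ℝ, ContDiff ℝ 1 χ → tsupport χ ⊆ Metric.ball 0 R →
    ∫ X, χ (prH m n X) ^ 2 * tiV f (W.P X) X ∂(muc W R t)
      ≤ C * ∫ X, (‖fderiv ℝ χ (prH m n X)‖ ^ 2 + κ ^ 2 * χ (prH m n X) ^ 2) * ‖zet f X‖ ^ 2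
            ∂(muc W R t)
        + 2 * ∫ X, χ (prH m n X) ^ 2 * (‖HS f (prH m n X)‖ * ‖zet f X‖) ∂(muc W R t) := by
  refine ⟨8 + 288 * ((m : ℝ) + n) ^ 2, by positivity, ?_⟩
  intro W R t κ f hW hf χ hχ hsupp
  have hK := idn_isCompact_tsupport hsupp
  have hf2 : ContDiff ℝ 2 f := hf.smooth.of_le (by norm_num)
  have hχ0 : ∀ X : E (m + n), prH m n X ∉ tsupport χ → χ (prH m n X) = 0 := fun X hX =>
    image_eq_zero_of_notMem_tsupport hX
  have hDχ0 : ∀ X : E (m + n), prH m n X ∉ tsupport χ → fderiv ℝ χ (prH m n X) = 0 := fun X hX =>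
    image_eq_zero_of_notMem_tsupport (fun h => hX (tsupport_fderiv_subset ℝ h))
  have hpr : Continuous (prH m n) := (prH m n).continuous
  have hχc : Continuous fun X : E (m + n) => χ (prH m n X) := hχ.continuous.comp hpr
  have hDχc : Continuous fun X : E (m + n) => fderiv ℝ χ (prH m n X) :=
    (hχ.continuous_fderiv one_ne_zero).comp hpr
  have hzc : Continuous (zet f) := (contDiff_zet (k := 2) (by exact_mod_cast hf2)).continuous
  have hHc : Continuous fun X : E (m + n) => HS f (prH m n X) :=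
    (Base.Exit.continuous_HS hf2).comp hpr
  obtain ⟨hi0, hstat⟩ := flat_stat hW (contDiff_fldC hf2 hχ) hK hsupp
    (fun X hX => by simp [fldC, hχ0 X hX])
  have hi1 : Integrable (fun X => χ (prH m n X) ^ 2 * tiV f (W.P X) X) (muc W R t) :=
    idn_integrable_mul hW hK hsupp (hχc.pow 2) (fun X hX => by rw [hχ0 X hX]; simp)
      (measurable_tiV hf2 W) (M := m) (fun X => by
        rw [abs_of_nonneg (tiV_nonneg f (W.P_proj X) X)]; exact tiV_le f (W.P_proj X) X)
  have hi2 : Integrable (fun X => (‖fderiv ℝ χ (prH m n X)‖ ^ 2 + κ ^ 2 * χ (prH m n X) ^ 2)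
      * ‖zet f X‖ ^ 2) (muc W R t) :=
    idn_integrable_cont hW hK hsupp
      (((hDχc.norm.pow 2).add (continuous_const.mul (hχc.pow 2))).mul (hzc.norm.pow 2))
      (fun X hX => by rw [hχ0 X hX, hDχ0 X hX]; simp)
  have hi3 : Integrable (fun X => χ (prH m n X) ^ 2 * (‖HS f (prH m n X)‖ * ‖zet f X‖))
      (muc W R t) :=
    idn_integrable_cont hW hK hsupp ((hχc.pow 2).mul (hHc.norm.mul hzc.norm))
      (fun X hX => by rw [hχ0 X hX]; simp)
  have hi23 : Integrable (fun X => (8 + 288 * ((m : ℝ) + n) ^ 2) *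
          ((‖fderiv ℝ χ (prH m n X)‖ ^ 2 + κ ^ 2 * χ (prH m n X) ^ 2) * ‖zet f X‖ ^ 2)
        + 2 * (χ (prH m n X) ^ 2 * (‖HS f (prH m n X)‖ * ‖zet f X‖))) (muc W R t) :=
    (hi2.const_mul _).add (hi3.const_mul 2)
  calc ∫ X, χ (prH m n X) ^ 2 * tiV f (W.P X) X ∂(muc W R t)
      ≤ ∫ X, (2 * tdiv (W.P X) (fderiv ℝ (fldC f χ) X)
      + ((8 + 288 * ((m : ℝ) + n) ^ 2) *
          ((‖fderiv ℝ χ (prH m n X)‖ ^ 2 + κ ^ 2 * χ (prH m n X) ^ 2) * ‖zet f X‖ ^ 2)
        + 2 * (χ (prH m n X) ^ 2 * (‖HS f (prH m n X)‖ * ‖zet f X‖)))) ∂(muc W R t) :=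
        integral_mono hi1 ((hi0.const_mul 2).add hi23)
          (fun X => idn_cacc_pt hf hχ (W.P_proj X) X)
    _ = _ := by
        rw [integral_add (hi0.const_mul 2) hi23,
          integral_add (hi2.const_mul _) (hi3.const_mul 2), integral_const_mul, integral_const_mul,
          integral_const_mul, hstat, mul_zero, zero_add]

/-- an a.e. bound by a constant on a set of finite measure, zero outside -/
theorem idn_integral_le_const {α : Type*} [MeasurableSpace α] {μ : Measure α} {S : Set α}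
    (hS : MeasurableSet S) {g : α → ℝ} {B V : ℝ} (hB : 0 ≤ B) (hV : 0 ≤ V)
    (hμ : μ S ≤ ENNReal.ofReal V) (h0 : 0 ≤ᵐ[μ] g)
    (h1 : ∀ᵐ X ∂μ, g X ≤ S.indicator (fun _ => B) X) : ∫ X, g X ∂μ ≤ B * V := by
  have hfin : μ S ≠ ⊤ := (lt_of_le_of_lt hμ ENNReal.ofReal_lt_top).ne
  have hi : Integrable (S.indicator fun _ => B) μ :=
    (integrable_indicator_iff hS).2 (integrableOn_const hfin)
  refine (integral_mono_of_nonneg h0 hi h1).trans ?_
  rw [integral_indicator_const _ hS, smul_eq_mul, mul_comm]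
  exact mul_le_mul_of_nonneg_left (ENNReal.toReal_le_of_le_ofReal hV hμ) hB

theorem isOpen_ovr (m n : ℕ) (x : E m) (r : ℝ) : IsOpen (ovr m n x r) :=
  isOpen_lt (((prH m n).continuous.sub continuous_const).norm) continuous_const

/-- the rescaled cutoff -/
theorem idn_exists_cutoff (m : ℕ) : ∃ C : ℝ, 0 < C ∧ ∀ (x : E m) (ℓ r : ℝ), 0 < ℓ → 0 < r →
    ∃ χ : E m → ℝ, ContDiff ℝ 1 χ ∧ (∀ y, 0 ≤ χ y ∧ χ y ≤ 1) ∧
      (∀ y ∈ Metric.ball x (r * ℓ), χ y = 1) ∧ tsupport χ ⊆ Metric.closedBall x ((r + 1) * ℓ) ∧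
      ∀ y, ‖fderiv ℝ χ y‖ ≤ C / ℓ := by
  obtain ⟨C, hC, H⟩ := Tool.exists_cutoff m
  refine ⟨C, hC, fun x ℓ r hℓ hr => ?_⟩
  obtain ⟨χ₀, hs, h01, h1, hsupp, hder⟩ := H r hr
  have hs1 : ContDiff ℝ 1 χ₀ := hs.of_le (by exact_mod_cast le_top)
  have hnorm : ∀ y : E m, ‖ℓ⁻¹ • (y - x)‖ = ‖y - x‖ / ℓ := fun y => by
    rw [norm_smul, norm_inv, Real.norm_eq_abs, abs_of_pos hℓ, div_eq_inv_mul]
  refine ⟨fun y => χ₀ (ℓ⁻¹ • (y - x)), ?_, fun y => h01 _, ?_, ?_, ?_⟩
  · exact hs1.comp ((contDiff_id.sub contDiff_const).const_smul ℓ⁻¹)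
  · intro y hy
    refine h1 _ ?_
    rw [Metric.mem_ball, dist_zero_right, hnorm, div_lt_iff₀ hℓ]
    rwa [Metric.mem_ball, dist_eq_norm] at hy
  · refine closure_minimal ?_ Metric.isClosed_closedBall
    intro y hy
    have h2 : ℓ⁻¹ • (y - x) ∈ Metric.closedBall (0 : E m) (r + 1) := hsupp (subset_tsupport _ hy)
    rw [Metric.mem_closedBall, dist_zero_right, hnorm, div_le_iff₀ hℓ] at h2
    rwa [Metric.mem_closedBall, dist_eq_norm]
  · intro y
    have h2 : HasFDerivAt (fun y : E m => ℓ⁻¹ • (y - x)) (ℓ⁻¹ • ContinuousLinearMap.id ℝ (E m)) y :=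
      ((hasFDerivAt_id y).sub_const x).const_smul ℓ⁻¹
    have h3 := ((hs1.differentiable one_ne_zero _).hasFDerivAt (x := ℓ⁻¹ • (y - x))).comp y h2
    have h4 : fderiv ℝ (fun y => χ₀ (ℓ⁻¹ • (y - x))) y
        = (fderiv ℝ χ₀ (ℓ⁻¹ • (y - x))).comp (ℓ⁻¹ • ContinuousLinearMap.id ℝ (E m)) := h3.fderiv
    rw [h4, ContinuousLinearMap.comp_smul, ContinuousLinearMap.comp_id, norm_smul, norm_inv,
      Real.norm_eq_abs, abs_of_pos hℓ, div_eq_inv_mul]
    refine mul_le_mul_of_nonneg_left ?_ (inv_pos.2 hℓ).le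
    rw [← norm_iteratedFDeriv_one]
    exact hder 1 (by norm_num) _

/-- **tilt excess at scale `ℓ`.** -/
theorem energyV (m n : ℕ) : ∃ C : ℝ, 0 < C ∧ ∀ (W : SIV m n) (R t κ : ℝ) (f : E m → E n) (x : E m)
    (ℓ r h η M : ℝ), Flat W R t → Geo κ f → 0 < ℓ → ℓ ≤ 1 → 0 < r →
    Metric.closedBall x ((r + 2) * ℓ) ⊆ Metric.ball 0 R → 0 ≤ h → 0 ≤ η → 0 ≤ M →
    Hgt W R t f x ((r + 2) * ℓ) h → (∀ y ∈ Metric.ball x ((r + 2) * ℓ), ‖HS f y‖ ≤ η) →
    muc W R t (ovr m n x ((r + 2) * ℓ)) ≤ ENNReal.ofReal (M * ℓ ^ m) →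
    ∫⁻ X in ovr m n x (r * ℓ), ENNReal.ofReal (tiV f (W.P X) X) ∂(muc W R t)
      ≤ ENNReal.ofReal (C * M * ℓ ^ m * (h ^ 2 / ℓ ^ 2 + η * h)) := by
  obtain ⟨C₁, hC₁, H1⟩ := caccioppoli m n
  obtain ⟨C₀, hC₀, H0⟩ := idn_exists_cutoff m
  refine ⟨C₁ * (C₀ ^ 2 + 1) + 2, by positivity, ?_⟩
  intro W R t κ f x ℓ r h η M hW hf hℓ hℓ1 hr hball hh hη hM hHgt hHS hmass
  obtain ⟨χ, hχ, h01, h1, hsupp, hder⟩ := H0 x ℓ r hℓ hr
  have hκ := idn_Geo_nonneg hf
  have hf2 : ContDiff ℝ 2 f := hf.smooth.of_le (by norm_num)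
  have hsub1 : tsupport χ ⊆ Metric.ball x ((r + 2) * ℓ) :=
    hsupp.trans (Metric.closedBall_subset_ball (by nlinarith))
  have hsub : tsupport χ ⊆ Metric.ball 0 R :=
    hsub1.trans (Metric.ball_subset_closedBall.trans hball)
  have hK := idn_isCompact_tsupport hsub
  have hχ0 : ∀ X : E (m + n), X ∉ ovr m n x ((r + 2) * ℓ) → χ (prH m n X) = 0 := fun X hX =>
    image_eq_zero_of_notMem_tsupport fun h' => hX (by
      have := hsub1 h'
      rwa [Metric.mem_ball, dist_eq_norm] at this)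
  have hDχ0 : ∀ X : E (m + n), X ∉ ovr m n x ((r + 2) * ℓ) → fderiv ℝ χ (prH m n X) = 0 :=
    fun X hX => image_eq_zero_of_notMem_tsupport fun h' => hX (by
      have := hsub1 (tsupport_fderiv_subset ℝ h')
      rwa [Metric.mem_ball, dist_eq_norm] at this)
  have hχc : Continuous fun X : E (m + n) => χ (prH m n X) :=
    hχ.continuous.comp (prH m n).continuous
  have hi1 : Integrable (fun X => χ (prH m n X) ^ 2 * tiV f (W.P X) X) (muc W R t) :=
    idn_integrable_mul hW hK hsub (hχc.pow 2)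
      (fun X hX => by rw [image_eq_zero_of_notMem_tsupport hX]; simp)
      (measurable_tiV hf2 W) (M := m) (fun X => by
        rw [abs_of_nonneg (tiV_nonneg f (W.P_proj X) X)]; exact tiV_le f (W.P_proj X) X)
  have hV : 0 ≤ M * ℓ ^ m := by positivity
  have hO := (isOpen_ovr m n x ((r + 2) * ℓ)).measurableSet
  -- the two integrals on the right
  have hA : ∫ X, (‖fderiv ℝ χ (prH m n X)‖ ^ 2 + κ ^ 2 * χ (prH m n X) ^ 2) * ‖zet f X‖ ^ 2
      ∂(muc W R t) ≤ ((C₀ ^ 2 + 1) / ℓ ^ 2 * h ^ 2) * (M * ℓ ^ m) := by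
    refine idn_integral_le_const hO (by positivity) hV hmass
      (ae_of_all _ fun X => by positivity) ?_
    filter_upwards [muc_ae hW] with X hX
    by_cases hXo : X ∈ ovr m n x ((r + 2) * ℓ)
    · rw [Set.indicator_of_mem hXo]
      have hz : ‖zet f X‖ ≤ h := hHgt X hX.1 hX.2.1 hXo
      have hd := hder (prH m n X)
      have hc := h01 (prH m n X)
      have e1 : ‖fderiv ℝ χ (prH m n X)‖ ^ 2 ≤ C₀ ^ 2 / ℓ ^ 2 := by
        rw [← div_pow]; gcongr
      have e2 : κ ^ 2 * χ (prH m n X) ^ 2 ≤ 1 / ℓ ^ 2 := by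
        have a1 : κ ^ 2 ≤ 1 := pow_le_one₀ hκ hf.le_one
        have a2 : χ (prH m n X) ^ 2 ≤ 1 := pow_le_one₀ hc.1 hc.2
        have a3 : ℓ ^ 2 ≤ 1 := pow_le_one₀ hℓ.le hℓ1
        have a4 : 1 ≤ 1 / ℓ ^ 2 := by rw [le_div_iff₀ (by positivity)]; linarith
        calc κ ^ 2 * χ (prH m n X) ^ 2 ≤ 1 * 1 := mul_le_mul a1 a2 (sq_nonneg _) zero_le_one
          _ ≤ 1 / ℓ ^ 2 := by linarith
      have e3 : ‖zet f X‖ ^ 2 ≤ h ^ 2 := by gcongr
      calc (‖fderiv ℝ χ (prH m n X)‖ ^ 2 + κ ^ 2 * χ (prH m n X) ^ 2) * ‖zet f X‖ ^ 2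
          ≤ (C₀ ^ 2 / ℓ ^ 2 + 1 / ℓ ^ 2) * h ^ 2 := by gcongr
        _ = (C₀ ^ 2 + 1) / ℓ ^ 2 * h ^ 2 := by ring
    · rw [Set.indicator_of_notMem hXo, hχ0 X hXo, hDχ0 X hXo]; simp
  have hB : ∫ X, χ (prH m n X) ^ 2 * (‖HS f (prH m n X)‖ * ‖zet f X‖) ∂(muc W R t)
      ≤ (η * h) * (M * ℓ ^ m) := by
    refine idn_integral_le_const hO (by positivity) hV hmass
      (ae_of_all _ fun X => by positivity) ?_
    filter_upwards [muc_ae hW] with X hX
    by_cases hXo : X ∈ ovr m n x ((r + 2) * ℓ)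
    · rw [Set.indicator_of_mem hXo]
      have hz : ‖zet f X‖ ≤ h := hHgt X hX.1 hX.2.1 hXo
      have hc := h01 (prH m n X)
      have a2 : χ (prH m n X) ^ 2 ≤ 1 := pow_le_one₀ hc.1 hc.2
      have a3 : ‖HS f (prH m n X)‖ ≤ η := hHS _ (by rw [Metric.mem_ball, dist_eq_norm]; exact hXo)
      calc χ (prH m n X) ^ 2 * (‖HS f (prH m n X)‖ * ‖zet f X‖) ≤ 1 * (η * h) := by gcongr
        _ = η * h := one_mul _
    · rw [Set.indicator_of_notMem hXo, hχ0 X hXo]; simp
  have hmain := H1 W R t κ f hW hf χ hχ hsub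
  calc ∫⁻ X in ovr m n x (r * ℓ), ENNReal.ofReal (tiV f (W.P X) X) ∂(muc W R t)
      ≤ ∫⁻ X, ENNReal.ofReal (χ (prH m n X) ^ 2 * tiV f (W.P X) X) ∂(muc W R t) := by
        rw [← lintegral_indicator (isOpen_ovr m n x (r * ℓ)).measurableSet]
        refine lintegral_mono fun X => ?_
        by_cases hXo : X ∈ ovr m n x (r * ℓ)
        · rw [Set.indicator_of_mem hXo, h1 (prH m n X) (by
            rw [Metric.mem_ball, dist_eq_norm]; exact hXo)]
          simp
        · rw [Set.indicator_of_notMem hXo]; exact zero_le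
    _ = ENNReal.ofReal (∫ X, χ (prH m n X) ^ 2 * tiV f (W.P X) X ∂(muc W R t)) :=
        (ofReal_integral_eq_lintegral_ofReal hi1 (ae_of_all _ fun X =>
          mul_nonneg (sq_nonneg _) (tiV_nonneg f (W.P_proj X) X))).symm
    _ ≤ ENNReal.ofReal ((C₁ * (C₀ ^ 2 + 1) + 2) * M * ℓ ^ m * (h ^ 2 / ℓ ^ 2 + η * h)) := by
        refine ENNReal.ofReal_le_ofReal (hmain.trans ?_)
        have e1 : C₁ * ∫ X, (‖fderiv ℝ χ (prH m n X)‖ ^ 2 + κ ^ 2 * χ (prH m n X) ^ 2)
            * ‖zet f X‖ ^ 2 ∂(muc W R t) ≤ C₁ * (((C₀ ^ 2 + 1) / ℓ ^ 2 * h ^ 2) * (M * ℓ ^ m)) :=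
          mul_le_mul_of_nonneg_left hA hC₁.le
        have e2 : 0 ≤ C₁ * (C₀ ^ 2 + 1) * (M * ℓ ^ m) * (η * h) := by positivity
        have e3 : 0 ≤ 2 * (M * ℓ ^ m) * (h ^ 2 / ℓ ^ 2) := by positivity
        have e4 : C₁ * (((C₀ ^ 2 + 1) / ℓ ^ 2 * h ^ 2) * (M * ℓ ^ m))
            = C₁ * (C₀ ^ 2 + 1) * (M * ℓ ^ m) * (h ^ 2 / ℓ ^ 2) := by ring
        nlinarith

/-! ### leaf L-Fit-Fits-I3 : the weak Jacobi estimate -/

local notation "adj" => ContinuousLinearMap.adjoint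

theorem idn_continuous_Gf {f : E m → E n} (hf : ContDiff ℝ 2 f) : Continuous (Gf f) :=
  (contDiff_gmat_inverse_Du (k := 1) (by exact_mod_cast hf)).continuous

theorem idn_continuous_D2 {f : E m → E n} (hf : ContDiff ℝ 2 f) : Continuous (D2 f) :=
  (contDiff_Du (k := 1) (by exact_mod_cast hf)).continuous_fderiv one_ne_zero

theorem idn_continuous_Du {f : E m → E n} (hf : ContDiff ℝ 2 f) : Continuous (fderiv ℝ f) :=
  (contDiff_Du (k := 1) (by exact_mod_cast hf)).continuous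

theorem idn_continuous_lamV {f : E m → E n} (hf : ContDiff ℝ 2 f) : Continuous (lamV f) := by
  unfold lamV
  refine continuous_finsetSum _ fun b _ => ?_
  have h1 : Continuous fun y => adj (fderiv ℝ f y) :=
    (adjL m n).continuous.comp (idn_continuous_Du hf)
  have h2 : Continuous fun y => D2 f y (EuclideanSpace.single b 1) :=
    (idn_continuous_D2 hf).clm_apply continuous_const
  have h3 : Continuous fun y => trc (Gf f y ∘L adj (fderiv ℝ f y) ∘L
      D2 f y (EuclideanSpace.single b 1)) :=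
    (trcL m).continuous.comp ((idn_continuous_Gf hf).clm_comp (h1.clm_comp h2))
  exact h3.smul continuous_const

theorem idn_continuous_mssOp {f : E m → E n} (hf : ContDiff ℝ 2 f) : Continuous (mssOp f) := by
  unfold mssOp
  refine continuous_finsetSum _ fun a _ => ?_
  exact ((idn_continuous_D2 hf).clm_apply
    ((idn_continuous_Gf hf).clm_apply continuous_const)).clm_apply continuous_const

theorem idn_continuous_LL {f w : E m → E n} (hf : ContDiff ℝ 3 f) (hw : ContDiff ℝ 2 w) :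
    Continuous (LL f w) := by
  have hΦ := contDiff_PhiW hf hw
  unfold LL dvg
  refine Continuous.add ?_ ?_
  · refine continuous_finsetSum _ fun a _ => ?_
    exact ((hΦ.continuous_fderiv one_ne_zero).clm_apply continuous_const).clm_apply continuous_const
  · exact hΦ.continuous.clm_apply (idn_continuous_lamV (hf.of_le (by norm_num)))

theorem idn_PhiW_eq_zero (f : E m → E n) {w : E m → E n} {y : E m} (hy : y ∉ tsupport w) :
    PhiW f w y = 0 := by
  have h1 : w y = 0 := image_eq_zero_of_notMem_tsupport hy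
  have h2 : fderiv ℝ w y = 0 :=
    image_eq_zero_of_notMem_tsupport fun h => hy (tsupport_fderiv_subset ℝ h)
  have h3 : Sop f y (inV m n (w y)) = 0 := by
    rw [h1, map_zero]
    ext1 α
    rw [Sop_apply, map_zero, map_zero]
    rfl
  unfold PhiW
  rw [h2, h3]
  ext v
  simp

theorem idn_LL_eq_zero (f : E m → E n) {w : E m → E n} {y : E m} (hy : y ∉ tsupport w) :
    LL f w y = 0 := by
  have h1 : PhiW f w =ᶠ[𝓝 y] 0 := by
    filter_upwards [(isClosed_tsupport w).isOpen_compl.mem_nhds hy] with y' hy'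
    exact idn_PhiW_eq_zero f hy'
  simp [LL, dvg, h1.fderiv_eq, idn_PhiW_eq_zero f hy]

/-- the right-hand side of the weak Jacobi estimate is integrable -/
theorem idn_integrable_rhs {W : SIV m n} {R t κ : ℝ} {f : E m → E n} (hW : Flat W R t)
    (hf : ContDiff ℝ 2 f) {w : E m → E n} (hw : ContDiff ℝ 2 w)
    (hsupp : tsupport w ⊆ Metric.ball 0 R) :
    Integrable (fun X => tiV f (W.P X) X * (‖fderiv ℝ w (prH m n X)‖ + κ * ‖w (prH m n X)‖)
          + Real.sqrt (tiV f (W.P X) X) * ‖zet f X‖ *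
            (‖D2 w (prH m n X)‖ + κ * ‖fderiv ℝ w (prH m n X)‖ + κ * ‖w (prH m n X)‖))
      (muc W R t) := by
  have hK := idn_isCompact_tsupport hsupp
  have hpr : Continuous (prH m n) := (prH m n).continuous
  have hwc : Continuous fun X : E (m + n) => w (prH m n X) := hw.continuous.comp hpr
  have hDc : Continuous fun X : E (m + n) => fderiv ℝ w (prH m n X) :=
    (idn_continuous_Du hw).comp hpr
  have hD2c : Continuous fun X : E (m + n) => D2 w (prH m n X) := (idn_continuous_D2 hw).comp hpr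
  have hzc : Continuous (zet f) := (contDiff_zet (k := 2) (by exact_mod_cast hf)).continuous
  have hw0 : ∀ X : E (m + n), prH m n X ∉ tsupport w → w (prH m n X) = 0 := fun X hX =>
    image_eq_zero_of_notMem_tsupport hX
  have hD0 : ∀ X : E (m + n), prH m n X ∉ tsupport w → fderiv ℝ w (prH m n X) = 0 := fun X hX =>
    image_eq_zero_of_notMem_tsupport (fun h => hX (tsupport_fderiv_subset ℝ h))
  have hD20 : ∀ X : E (m + n), prH m n X ∉ tsupport w → ‖D2 w (prH m n X)‖ = 0 := fun X hX => by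
    have : D2 w (prH m n X) = 0 := image_eq_zero_of_notMem_tsupport (f := fderiv ℝ (fderiv ℝ w))
      (fun h => hX (tsupport_fderiv_subset ℝ (tsupport_fderiv_subset ℝ h)))
    rw [this]
    exact norm_zero (E := E m →L[ℝ] E m →L[ℝ] E n)
  have h1 := idn_integrable_mul hW hK hsupp
    (g := fun X => ‖fderiv ℝ w (prH m n X)‖ + κ * ‖w (prH m n X)‖)
    (hDc.norm.add (continuous_const.mul hwc.norm))
    (fun X hX => by rw [hw0 X hX, hD0 X hX]; simp)
    (measurable_tiV hf W) (M := m) (fun X => by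
      rw [abs_of_nonneg (tiV_nonneg f (W.P_proj X) X)]; exact tiV_le f (W.P_proj X) X)
  have hc3 : Continuous fun X : E (m + n) =>
      ‖D2 w (prH m n X)‖ + κ * ‖fderiv ℝ w (prH m n X)‖ + κ * ‖w (prH m n X)‖ :=
    ((Continuous.norm (E := E m →L[ℝ] E m →L[ℝ] E n) hD2c).add
      (continuous_const.mul hDc.norm)).add (continuous_const.mul hwc.norm)
  have h2 := idn_integrable_mul hW hK hsupp
    (g := fun X => ‖zet f X‖ *
      (‖D2 w (prH m n X)‖ + κ * ‖fderiv ℝ w (prH m n X)‖ + κ * ‖w (prH m n X)‖))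
    (hzc.norm.mul hc3)
    (fun X hX => by rw [hw0 X hX, hD0 X hX, hD20 X hX, norm_zero, norm_zero]; ring)
    (measurable_tiV hf W).sqrt (M := Real.sqrt m) (fun X => by
      rw [abs_of_nonneg (Real.sqrt_nonneg _)]
      exact Real.sqrt_le_sqrt (tiV_le f (W.P_proj X) X))
  exact (h1.add h2).congr (ae_of_all _ fun X => by simp only [Pi.add_apply]; ring)

/-- **weak Jacobi estimate** (no units). -/
theorem jacobi_int (m n : ℕ) : ∃ C : ℝ, 0 < C ∧ ∀ (W : SIV m n) (R t κ : ℝ) (f : E m → E n),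
    Flat W R t → Geo κ f → ∀ w : E m → E n, ContDiff ℝ 2 w → tsupport w ⊆ Metric.ball 0 R →
    Integrable (fun X => inner ℝ (zet f X) (LL f w (prH m n X))
        + inner ℝ (mssOp f (prH m n X)) (w (prH m n X))) (muc W R t) ∧
    |∫ X, (inner ℝ (zet f X) (LL f w (prH m n X))
        + inner ℝ (mssOp f (prH m n X)) (w (prH m n X))) ∂(muc W R t)|
      ≤ C * ∫ X, (tiV f (W.P X) X * (‖fderiv ℝ w (prH m n X)‖ + κ * ‖w (prH m n X)‖)
          + Real.sqrt (tiV f (W.P X) X) * ‖zet f X‖ *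
            (‖D2 w (prH m n X)‖ + κ * ‖fderiv ℝ w (prH m n X)‖ + κ * ‖w (prH m n X)‖))
          ∂(muc W R t) := by
  obtain ⟨C, hC, H⟩ := trace_fldJ m n
  refine ⟨C, hC, ?_⟩
  intro W R t κ f hW hf w hw hsupp
  have hK := idn_isCompact_tsupport hsupp
  have hf2 : ContDiff ℝ 2 f := hf.smooth.of_le (by norm_num)
  have hf3 : ContDiff ℝ 3 f := hf.smooth.of_le (by norm_num)
  have hpr : Continuous (prH m n) := (prH m n).continuous
  have hzc : Continuous (zet f) := (contDiff_zet (k := 2) (by exact_mod_cast hf2)).continuous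
  have hw0 : ∀ X : E (m + n), prH m n X ∉ tsupport w → w (prH m n X) = 0 := fun X hX =>
    image_eq_zero_of_notMem_tsupport hX
  obtain ⟨hi0, hstat⟩ := flat_stat hW (contDiff_fldJ hf3 hw) hK hsupp
    (fun X hX => by simp [fldJ, fldV, fldH, hw0 X hX, idn_PhiW_eq_zero f hX])
  have hig : Integrable (fun X => inner ℝ (zet f X) (LL f w (prH m n X))
        + inner ℝ (mssOp f (prH m n X)) (w (prH m n X))) (muc W R t) :=
    idn_integrable_cont hW hK hsupp
      ((hzc.inner ((idn_continuous_LL hf3 hw).comp hpr)).add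
        (((idn_continuous_mssOp hf2).comp hpr).inner (hw.continuous.comp hpr)))
      (fun X hX => by rw [hw0 X hX, idn_LL_eq_zero f hX]; simp)
  refine ⟨hig, ?_⟩
  have hir := idn_integrable_rhs (κ := κ) hW hf2 hw hsupp
  have e1 : ∫ X, (inner ℝ (zet f X) (LL f w (prH m n X))
        + inner ℝ (mssOp f (prH m n X)) (w (prH m n X))) ∂(muc W R t)
      = ∫ X, (tdiv (W.P X) (fderiv ℝ (fldJ f w) X) + (inner ℝ (zet f X) (LL f w (prH m n X))
        + inner ℝ (mssOp f (prH m n X)) (w (prH m n X)))) ∂(muc W R t) := by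
    rw [integral_add hi0 hig, hstat, zero_add]
  rw [e1, ← integral_const_mul, ← Real.norm_eq_abs]
  refine norm_integral_le_of_norm_le (hir.const_mul C) (ae_of_all _ fun X => ?_)
  rw [Real.norm_eq_abs]
  refine le_trans (le_of_eq ?_) (H κ f w hf hw (W.P X) (W.P_proj X) X)
  congr 1
  ring

/-- Cauchy-Schwarz for `∫ sqrt e` on a finite measure space -/
theorem idn_integral_sqrt_le {α : Type*} [MeasurableSpace α] {μ : Measure α} [IsFiniteMeasure μ]
    {e : α → ℝ} (he : Integrable e μ) (h0 : ∀ x, 0 ≤ e x) :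
    ∫ x, Real.sqrt (e x) ∂μ ≤ Real.sqrt (μ.real Set.univ * ∫ x, e x ∂μ) := by
  have hs : Integrable (fun x => Real.sqrt (e x)) μ := by
    refine Integrable.mono' (he.add (integrable_const (1 : ℝ)))
      (Real.continuous_sqrt.comp_aestronglyMeasurable he.1) (ae_of_all _ fun x => ?_)
    rw [Real.norm_eq_abs, abs_of_nonneg (Real.sqrt_nonneg _)]
    have h1 := Real.sq_sqrt (h0 x)
    simp only [Pi.add_apply]
    nlinarith [sq_nonneg (Real.sqrt (e x) - 1), Real.sqrt_nonneg (e x)]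
  set I := ∫ x, Real.sqrt (e x) ∂μ with hI
  set a := ∫ x, e x ∂μ with ha
  set v := μ.real Set.univ with hv
  have hq : ∀ l : ℝ, 0 ≤ v * (l * l) + (-(2 * I)) * l + a := by
    intro l
    have h1 : ∫ x, (Real.sqrt (e x) - l) ^ 2 ∂μ = v * (l * l) + (-(2 * I)) * l + a := by
      have h2 : ∀ x, (Real.sqrt (e x) - l) ^ 2 = e x - (2 * l) * Real.sqrt (e x) + l * l := by
        intro x
        have h1 := Real.sq_sqrt (h0 x)
        nlinarith
      simp_rw [h2]
      have h3 : Integrable (fun x => e x - (2 * l) * Real.sqrt (e x)) μ := he.sub (hs.const_mul _)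
      rw [integral_add h3 (integrable_const _), integral_sub he (hs.const_mul _),
        integral_const_mul, integral_const, smul_eq_mul]
      ring
    rw [← h1]
    exact integral_nonneg fun x => sq_nonneg _
  have hd := discrim_le_zero hq
  rw [discrim] at hd
  refine Real.le_sqrt_of_sq_le ?_
  nlinarith

/-- **weak Jacobi estimate at scale `ℓ`.** -/
theorem jacobi_scale (m n : ℕ) : ∃ C : ℝ, 0 < C ∧ ∀ (W : SIV m n) (R t κ : ℝ) (f : E m → E n)
    (x : E m) (ℓ r h Eb M : ℝ), Flat W R t → Geo κ f → 0 < ℓ → ℓ ≤ 1 → 0 < r →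
    Metric.closedBall x (r * ℓ) ⊆ Metric.ball 0 R → 0 ≤ h → 0 ≤ Eb → 0 ≤ M →
    Hgt W R t f x (r * ℓ) h →
    muc W R t (ovr m n x (r * ℓ)) ≤ ENNReal.ofReal (M * ℓ ^ m) →
    ∫⁻ X in ovr m n x (r * ℓ), ENNReal.ofReal (tiV f (W.P X) X) ∂(muc W R t)
      ≤ ENNReal.ofReal Eb →
    ∀ (w : E m → E n) (A : ℝ), ContDiff ℝ 2 w → tsupport w ⊆ Metric.ball x (r * ℓ) →
      (∀ j : ℕ, j ≤ 2 → ∀ y, ℓ ^ j * ‖iteratedFDeriv ℝ j w y‖ ≤ A) →
      |∫ X, (inner ℝ (zet f X) (LL f w (prH m n X))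
          + inner ℝ (mssOp f (prH m n X)) (w (prH m n X))) ∂(muc W R t)|
        ≤ C * A * (Eb / ℓ + h * Real.sqrt (M * ℓ ^ m * Eb) / ℓ ^ 2) := by
  obtain ⟨C, hC, H⟩ := jacobi_int m n
  refine ⟨3 * C, by positivity, ?_⟩
  intro W R t κ f x ℓ r h Eb M hW hf hℓ hℓ1 hr hball hh hEb hM hHgt hmass hen w A hw hsupp hder
  have hκ := idn_Geo_nonneg hf
  have hκ1 := hf.le_one
  have hf2 : ContDiff ℝ 2 f := hf.smooth.of_le (by norm_num)
  have hsub : tsupport w ⊆ Metric.ball 0 R := hsupp.trans (Metric.ball_subset_closedBall.trans hball)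
  refine ((H W R t κ f hW hf w hw hsub).2).trans ?_
  set S := ovr m n x (r * ℓ) with hS
  have hSm : MeasurableSet S := (isOpen_ovr m n x (r * ℓ)).measurableSet
  have hV : 0 ≤ M * ℓ ^ m := by positivity
  have hfin : muc W R t S < ⊤ := lt_of_le_of_lt hmass ENNReal.ofReal_lt_top
  have : IsFiniteMeasure ((muc W R t).restrict S) := ⟨by rwa [Measure.restrict_apply_univ]⟩
  -- sup bounds of `w`
  have hA0 : ∀ y, ‖w y‖ ≤ A := fun y => by
    have := hder 0 (by norm_num) y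
    rwa [pow_zero, one_mul, norm_iteratedFDeriv_zero] at this
  have hA : 0 ≤ A := (norm_nonneg _).trans (hA0 0)
  have hA1 : ∀ y, ‖fderiv ℝ w y‖ ≤ A / ℓ := fun y => by
    have := hder 1 (by norm_num) y
    rw [pow_one, norm_iteratedFDeriv_one] at this
    rw [le_div_iff₀ hℓ]; linarith
  have hA2 : ∀ y, ‖D2 w y‖ ≤ A / ℓ ^ 2 := fun y => by
    have := hder 2 le_rfl y
    rw [← norm_D2_eq] at this
    rw [le_div_iff₀ (by positivity)]; linarith
  have hAl : A ≤ A / ℓ := by rw [le_div_iff₀ hℓ]; nlinarith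
  have hAl2 : A / ℓ ≤ A / ℓ ^ 2 := by
    rw [div_le_div_iff₀ hℓ (by positivity)]; nlinarith [mul_nonneg hA hℓ.le]
  -- vanishing off `S`
  have hnot : ∀ X : E (m + n), X ∉ S → prH m n X ∉ tsupport w := fun X hX h' => hX (by
    have := hsupp h'
    rwa [Metric.mem_ball, dist_eq_norm] at this)
  have hw0 : ∀ X : E (m + n), X ∉ S → w (prH m n X) = 0 := fun X hX =>
    image_eq_zero_of_notMem_tsupport (hnot X hX)
  have hD0 : ∀ X : E (m + n), X ∉ S → fderiv ℝ w (prH m n X) = 0 := fun X hX =>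
    image_eq_zero_of_notMem_tsupport (fun h => hnot X hX (tsupport_fderiv_subset ℝ h))
  have hD20 : ∀ X : E (m + n), X ∉ S → ‖D2 w (prH m n X)‖ = 0 := fun X hX => by
    have : D2 w (prH m n X) = 0 := image_eq_zero_of_notMem_tsupport (f := fderiv ℝ (fderiv ℝ w))
      (fun h => hnot X hX (tsupport_fderiv_subset ℝ (tsupport_fderiv_subset ℝ h)))
    rw [this]
    exact norm_zero (E := E m →L[ℝ] E m →L[ℝ] E n)
  -- the tilt on `S`
  have he0 : ∀ X, 0 ≤ tiV f (W.P X) X := fun X => tiV_nonneg f (W.P_proj X) X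
  have hie : Integrable (fun X => tiV f (W.P X) X) ((muc W R t).restrict S) := by
    refine Integrable.of_bound (measurable_tiV hf2 W).aestronglyMeasurable (m : ℝ)
      (ae_of_all _ fun X => ?_)
    rw [Real.norm_eq_abs, abs_of_nonneg (he0 X)]
    exact tiV_le f (W.P_proj X) X
  have hEle : ∫ X in S, tiV f (W.P X) X ∂(muc W R t) ≤ Eb := by
    rw [integral_eq_lintegral_of_nonneg_ae (ae_of_all _ he0) hie.1]
    exact ENNReal.toReal_le_of_le_ofReal hEb hen
  have hE0 : 0 ≤ ∫ X in S, tiV f (W.P X) X ∂(muc W R t) := integral_nonneg he0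
  have hcs := idn_integral_sqrt_le hie he0
  have hvol : ((muc W R t).restrict S).real Set.univ ≤ M * ℓ ^ m := by
    rw [Measure.real, Measure.restrict_apply_univ]
    exact ENNReal.toReal_le_of_le_ofReal hV hmass
  have hsq : ∫ X in S, Real.sqrt (tiV f (W.P X) X) ∂(muc W R t) ≤ Real.sqrt (M * ℓ ^ m * Eb) :=
    hcs.trans (Real.sqrt_le_sqrt (mul_le_mul hvol hEle hE0 hV))
  have his : Integrable (fun X => Real.sqrt (tiV f (W.P X) X)) ((muc W R t).restrict S) := by
    refine Integrable.of_bound (measurable_tiV hf2 W).sqrt.aestronglyMeasurable (Real.sqrt m)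
      (ae_of_all _ fun X => ?_)
    rw [Real.norm_eq_abs, abs_of_nonneg (Real.sqrt_nonneg _)]
    exact Real.sqrt_le_sqrt (tiV_le f (W.P_proj X) X)
  have hib : Integrable (fun X => tiV f (W.P X) X * (2 * A / ℓ)
      + Real.sqrt (tiV f (W.P X) X) * (h * (3 * A / ℓ ^ 2))) ((muc W R t).restrict S) :=
    (hie.mul_const _).add (his.mul_const _)
  have hbound : ∫ X, (tiV f (W.P X) X * (‖fderiv ℝ w (prH m n X)‖ + κ * ‖w (prH m n X)‖)
          + Real.sqrt (tiV f (W.P X) X) * ‖zet f X‖ *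
            (‖D2 w (prH m n X)‖ + κ * ‖fderiv ℝ w (prH m n X)‖ + κ * ‖w (prH m n X)‖))
          ∂(muc W R t)
      ≤ ∫ X, S.indicator (fun X => tiV f (W.P X) X * (2 * A / ℓ)
      + Real.sqrt (tiV f (W.P X) X) * (h * (3 * A / ℓ ^ 2))) X ∂(muc W R t) := by
    refine integral_mono_of_nonneg (ae_of_all _ fun X => ?_)
      ((integrable_indicator_iff hSm).2 hib) ?_
    · have := he0 X
      simp only [Pi.zero_apply]
      positivity
    · filter_upwards [muc_ae hW] with X hX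
      by_cases hXo : X ∈ S
      · rw [Set.indicator_of_mem hXo]
        have hz : ‖zet f X‖ ≤ h := hHgt X hX.1 hX.2.1 hXo
        have b0 := hA0 (prH m n X)
        have b1 := hA1 (prH m n X)
        have b2 := hA2 (prH m n X)
        have c0 : κ * ‖w (prH m n X)‖ ≤ A / ℓ :=
          (mul_le_mul hκ1 b0 (norm_nonneg _) zero_le_one).trans (by linarith)
        have c1 : κ * ‖fderiv ℝ w (prH m n X)‖ ≤ A / ℓ ^ 2 :=
          (mul_le_mul hκ1 b1 (norm_nonneg _) zero_le_one).trans (by linarith)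
        have d1 : ‖fderiv ℝ w (prH m n X)‖ + κ * ‖w (prH m n X)‖ ≤ 2 * A / ℓ := by
          have : 2 * A / ℓ = A / ℓ + A / ℓ := by ring
          linarith
        have d2 : ‖D2 w (prH m n X)‖ + κ * ‖fderiv ℝ w (prH m n X)‖ + κ * ‖w (prH m n X)‖
            ≤ 3 * A / ℓ ^ 2 := by
          have : 3 * A / ℓ ^ 2 = A / ℓ ^ 2 + A / ℓ ^ 2 + A / ℓ ^ 2 := by ring
          linarith
        have d3 : 0 ≤ ‖D2 w (prH m n X)‖ + κ * ‖fderiv ℝ w (prH m n X)‖ + κ * ‖w (prH m n X)‖ := by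
          positivity
        refine add_le_add (mul_le_mul_of_nonneg_left d1 (he0 X)) ?_
        rw [mul_assoc]
        exact mul_le_mul_of_nonneg_left (mul_le_mul hz d2 d3 hh) (Real.sqrt_nonneg _)
      · rw [Set.indicator_of_notMem hXo, hw0 X hXo, hD0 X hXo, hD20 X hXo]; simp
  have hval : ∫ X, S.indicator (fun X => tiV f (W.P X) X * (2 * A / ℓ)
      + Real.sqrt (tiV f (W.P X) X) * (h * (3 * A / ℓ ^ 2))) X ∂(muc W R t)
      = (∫ X in S, tiV f (W.P X) X ∂(muc W R t)) * (2 * A / ℓ)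
        + (∫ X in S, Real.sqrt (tiV f (W.P X) X) ∂(muc W R t)) * (h * (3 * A / ℓ ^ 2)) := by
    rw [integral_indicator hSm, integral_add (hie.mul_const _) (his.mul_const _),
      integral_mul_const, integral_mul_const]
  have hfinal : (∫ X in S, tiV f (W.P X) X ∂(muc W R t)) * (2 * A / ℓ)
        + (∫ X in S, Real.sqrt (tiV f (W.P X) X) ∂(muc W R t)) * (h * (3 * A / ℓ ^ 2))
      ≤ Eb * (2 * A / ℓ) + Real.sqrt (M * ℓ ^ m * Eb) * (h * (3 * A / ℓ ^ 2)) := by
    gcongr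
  have hlast : Eb * (2 * A / ℓ) + Real.sqrt (M * ℓ ^ m * Eb) * (h * (3 * A / ℓ ^ 2))
      ≤ 3 * A * (Eb / ℓ + h * Real.sqrt (M * ℓ ^ m * Eb) / ℓ ^ 2) := by
    have e1 : 0 ≤ A * (Eb / ℓ) := by positivity
    have e2 : Eb * (2 * A / ℓ) = 2 * (A * (Eb / ℓ)) := by ring
    have e3 : Real.sqrt (M * ℓ ^ m * Eb) * (h * (3 * A / ℓ ^ 2))
        = 3 * A * (h * Real.sqrt (M * ℓ ^ m * Eb) / ℓ ^ 2) := by ring
    rw [e2, e3]; nlinarith
  calc C * _ ≤ C * (3 * A * (Eb / ℓ + h * Real.sqrt (M * ℓ ^ m * Eb) / ℓ ^ 2)) :=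
        mul_le_mul_of_nonneg_left (hbound.trans (hval.le.trans (hfinal.trans hlast))) hC.le
    _ = 3 * C * A * (Eb / ℓ + h * Real.sqrt (M * ℓ ^ m * Eb) / ℓ ^ 2) := by ring

end Claimed.Agent.R322.Fit.Fits
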