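import Claimed.Agent.R322.Fit.Fits.Core
import Claimed.Agent.R322.Pack050

/-!
# AE Lemma 7.1 = CO Lemma 4.1 (i)-(iv): existence of the family of local fits

Owner: helper118 (package BP-Fit-71).  The statement is the interface fixed in `Fit/Defs.lean` (helper224).
The derivative order `J` can be prescribed from below and the height `h` of the scaled normal cylinders from above.

Recursion over the scales `sc j = 2^{-j}` at a fixed centre `x`: `f x 0` is the correction of `0`, `f x (j+1)` the correction of `f x j` (`core_step`) as long as the acceptance test holds.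
Relative height at the index `j`: `a j = 2^k m₀ (sc j)^(k-1)`.  Invariant: `vAl s 1 (f x j) ≤ C 2^k m₀ (2 - sc j)` (UNIT scale; this needs `k > s`).
-/

set_option autoImplicit false

open scoped ENNReal ContDiff RealInnerProductSpace
open MeasureTheory Filter Topology

namespace Claimed.Agent.R322.Fit.Fits

open Claimed.Agent.R322.Tube Claimed.Agent.R322.Freq

variable {m n : ℕ}

/-! ### abstract recursion with a stopping test -/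

theorem rec_exists {α : Type*} (St Acc : ℕ → α → Prop) (h0 : ∃ f, St 0 f)
    (hs : ∀ j f, St j f → Acc j f → ∃ f', St (j + 1) f') :
    ∃ (F : ℕ → α) (jf : ℕ∞), (∀ j : ℕ, (j : ℕ∞) ≤ jf → St j (F j)) ∧
      (∀ j : ℕ, (j : ℕ∞) < jf → Acc j (F j)) ∧ (∀ j : ℕ, jf = (j : ℕ∞) → ¬ Acc j (F j)) := by
  classical
  obtain ⟨f0, hf0⟩ := h0
  let step : ℕ → α → α := fun j f =>
    if h : St j f ∧ Acc j f then (hs j f h.1 h.2).choose else f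
  let F : ℕ → α := fun j => Nat.rec f0 (fun j f => step j f) j
  have hFs : ∀ j, F (j + 1) = step j (F j) := fun j => rfl
  have key : ∀ j, (∀ i < j, Acc i (F i)) → St j (F j) := by
    intro j
    induction j with
    | zero => intro _; exact hf0
    | succ j ih =>
      intro h
      have h1 := ih (fun i hi => h i (by omega))
      have h2 := h j (by omega)
      rw [hFs]
      simp only [step]
      rw [dif_pos ⟨h1, h2⟩]
      exact (hs j (F j) h1 h2).choose_spec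
  by_cases hex : ∃ j, ¬ Acc j (F j)
  · refine ⟨F, (Nat.find hex : ℕ), ?_, ?_, ?_⟩
    · intro j hj
      have hj' : j ≤ Nat.find hex := by exact_mod_cast hj
      exact key j fun i hi => by_contra fun hc => Nat.find_min hex (lt_of_lt_of_le hi hj') hc
    · intro j hj
      have hj' : j < Nat.find hex := by exact_mod_cast hj
      exact by_contra fun hc => Nat.find_min hex hj' hc
    · intro j hj
      have hj' : Nat.find hex = j := by exact_mod_cast hj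
      rw [← hj']
      exact Nat.find_spec hex
  · push Not at hex
    exact ⟨F, ⊤, fun j _ => key j fun i _ => hex i, fun j _ => hex j,
      fun j hj => absurd hj (by simp)⟩

/-! ### scales -/

theorem fm_sc_pos (j : ℕ) : 0 < sc j := by unfold sc; positivity

theorem fm_sc_succ (j : ℕ) : sc j = 2 * sc (j + 1) := by unfold sc; rw [pow_succ]; ring

theorem fm_sc_le_one (j : ℕ) : sc j ≤ 1 := by
  unfold sc; exact pow_le_one₀ (by norm_num) (by norm_num)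

theorem fm_sc_anti {i j : ℕ} (h : i ≤ j) : sc j ≤ sc i := by
  unfold sc; exact pow_le_pow_of_le_one (by norm_num) (by norm_num) h

theorem fm_sc_zero : sc 0 = 1 := by unfold sc; simp

theorem fm_sc_le_four {j j' : ℕ} (h : j' ≤ j + 2) : sc j ≤ 4 * sc j' := by
  have h1 : sc (j + 2) ≤ sc j' := fm_sc_anti h
  have h2 : sc j = 4 * sc (j + 2) := by rw [fm_sc_succ j, fm_sc_succ (j + 1)]; ring
  linarith

theorem fm_mssOp_zero (y : E m) : mssOp (fun _ : E m => (0 : E n)) y = 0 := by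
  unfold mssOp
  simp

/-! ### the input of the step -/

/-- the start: the zero function at the scale `sc 0 = 1`. -/
theorem stepIn_zero {W : SIV m n} {Q s : ℕ} {eg : ℝ} (hW : IsGood W Q eg) (h0 : 0 ≤ eg)
    (heg : eg ≤ 1 / 2) {x : E m} (hx : ‖x‖ < 5) {a κ K₁ σ : ℝ} (ha : eg ≤ a) (hσ : 2 * eg ≤ σ) :
    StepIn W Q s x (sc 0) a κ K₁ σ (fun _ => 0) := by
  obtain ⟨-, h2, h3⟩ := good_flat hW h0 heg
  refine ⟨VB.zero _ _ _, ⟨fun _ => 0, VB.zero _ _ _, fun y _ => fm_mssOp_zero y⟩, ?_, ?_⟩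
  · intro X hX hZ _
    rw [fm_sc_zero, mul_one]
    have : zet (fun _ : E m => (0 : E n)) X = prV m n X := by simp [zet]
    rw [this]
    exact (h2 X hX hZ).trans ha
  · rw [fm_sc_zero, mul_one]
    exact (h3 x hx).mono le_rfl hσ zero_le_one

/-- from the output at the scale `2 ℓ` and the acceptance test to the input at the scale `ℓ`. -/
theorem stepIn_of_out {W : SIV m n} {Q s q k : ℕ} {hc C m₀ : ℝ} {x : E m} {ℓ : ℝ} (hℓ : 0 < ℓ)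
    (h2ℓ : 0 < 2 * ℓ) (hk : 1 ≤ k) (hs : 1 ≤ s) (hC : 0 ≤ C) (hm₀ : 0 ≤ m₀) {f : E m → E n}
    {κ σ₀ Cw : ℝ} (hκ : 0 ≤ κ) (hκ1 : 2 * Real.pi * κ ≤ 1) (hreg : VB s 1 f κ)
    (hout : StepOut W Q s q hc x (2 * ℓ) h2ℓ (2 ^ k * m₀ * (2 * ℓ) ^ (k - 1)) C f)
    (hacc : Hgt W 300 1 f x (64 * (2 * ℓ)) (m₀ * (2 * ℓ) ^ k))
    (hCw : ∀ (W : SIV m n) (R t κ : ℝ) (f : E m → E n) (x : E m)
      (r ℓ c₁ c₂ : ℝ), 0 < ℓ → 0 < r → (∀ y, ‖fderiv ℝ f y‖ ≤ κ) → κ ≤ 1 →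
      Continuous (fderiv ℝ f) → 0 ≤ c₁ → 0 ≤ c₂ →
      MassC W R t Q f x (r * ℓ) (c₁ * ℓ ^ m) (c₂ * ℓ ^ (m + 1)) →
      WMass W R t Q x (r * ℓ) ℓ (c₁ + c₂ + Cw * κ ^ 2 * r ^ m))
    (hσ : 2 ^ (m + 1) * (C * (2 ^ k * m₀ * (2 * ℓ) ^ (k - 1)) ^ 2
      + C * (2 ^ k * m₀ * (2 * ℓ) ^ (k - 1)) + Cw * (2 * Real.pi * κ) ^ 2 * 72 ^ m) ≤ σ₀) :
    StepIn W Q s x ℓ (2 ^ k * m₀ * ℓ ^ (k - 1)) κ (C * 4 ^ k) σ₀ f := by
  obtain ⟨t, rfl⟩ : ∃ t, k = t + 1 := ⟨k - 1, by omega⟩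
  simp only [Nat.add_sub_cancel] at hout hσ ⊢
  refine ⟨hreg, ?_, ?_, ?_⟩
  · obtain ⟨Ξ, hΞ, heq⟩ := hout.amin
    refine ⟨Ξ, (hΞ.scale_down hℓ.le (by linarith)).mono le_rfl hℓ.le ?_, fun y hy => heq y ?_⟩
    · rw [div_le_div_iff₀ h2ℓ hℓ]
      have e1 : C * (2 ^ (t + 1) * m₀ * (2 * ℓ) ^ t) ^ 2 * ℓ
          = (C * (2 ^ (t + 1) * m₀ * ℓ ^ t) ^ 2 * ℓ) * 4 ^ t := by
        rw [mul_pow 2 ℓ t, show (4 : ℝ) = 2 ^ 2 by norm_num, ← pow_mul, mul_comm 2 t, pow_mul]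
        ring
      have e2 : C * 4 ^ (t + 1) * (2 ^ (t + 1) * m₀ * ℓ ^ t) ^ 2 * (2 * ℓ)
          = (C * (2 ^ (t + 1) * m₀ * ℓ ^ t) ^ 2 * ℓ) * 4 ^ t * 8 := by
        rw [pow_succ 4 t]
        ring
      rw [e1, e2]
      have : 0 ≤ (C * (2 ^ (t + 1) * m₀ * ℓ ^ t) ^ 2 * ℓ) * 4 ^ t := by positivity
      linarith
    · exact Metric.ball_subset_ball (by linarith) hy
  · refine hacc.mono (by linarith) (le_of_eq ?_)
    rw [mul_pow 2 ℓ (t + 1), pow_succ ℓ t]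
    ring
  · have hsl : ∀ y, ‖fderiv ℝ f y‖ ≤ 2 * Real.pi * κ := fun y => by
      have := hreg.sup1 one_pos hκ hs y
      rwa [one_mul] at this
    have hc1 : ContDiff ℝ 1 f := hreg.1.contDiff.of_le (by exact_mod_cast hs)
    have hcont : Continuous (fderiv ℝ f) := hc1.continuous_fderiv (by norm_num)
    have h1 := hCw W 300 1 (2 * Real.pi * κ) f x 72 (2 * ℓ)
      (C * (2 ^ (t + 1) * m₀ * (2 * ℓ) ^ t) ^ 2) (C * (2 ^ (t + 1) * m₀ * (2 * ℓ) ^ t)) h2ℓ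
      (by norm_num) hsl hκ1 hcont (by positivity) (by positivity) hout.massC
    exact (h1.half.mono (by linarith) hσ hℓ.le)

/-! ### the state of the recursion -/

/-- the state of the recursion at the index `j`. -/
structure FitSt (W : SIV m n) (Q s q k : ℕ) (hc C m₀ : ℝ) (x : E m) (j : ℕ) (f : E m → E n) :
    Prop where
  reg : VB s 1 f (C * 2 ^ k * m₀ * (2 - sc j))
  out : StepOut W Q s q hc x (sc j) (fm_sc_pos j) (2 ^ k * m₀ * sc j ^ (k - 1)) C f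

theorem fitSt_of_step {W : SIV m n} {Q s q k : ℕ} {hc C m₀ : ℝ} {x : E m} (hks : s + 1 ≤ k)
    (hC : 0 ≤ C) (hm₀ : 0 ≤ m₀) {j : ℕ} {f v : E m → E n}
    (hreg : VB s 1 f (C * 2 ^ k * m₀ * (2 - 2 * sc j)))
    (hv : VB s (sc j) v (C * (2 ^ k * m₀ * sc j ^ (k - 1)) * sc j))
    (hout : StepOut W Q s q hc x (sc j) (fm_sc_pos j) (2 ^ k * m₀ * sc j ^ (k - 1)) C
      (fun y => f y + v y)) :
    FitSt W Q s q k hc C m₀ x j (fun y => f y + v y) := by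
  have hℓ := fm_sc_pos j
  have hℓ1 := fm_sc_le_one j
  refine ⟨?_, hout⟩
  have h2 : 0 ≤ 2 - 2 * sc j := by linarith
  refine ((hreg.add (hv.scale_one hℓ hℓ1) (by positivity) (by positivity)).mono le_rfl
    zero_le_one ?_)
  obtain ⟨t, rfl⟩ : ∃ t, k = s + 1 + t := ⟨k - (s + 1), by omega⟩
  have e1 : s + 1 + t - 1 = s + t := by omega
  rw [e1]
  have e2 : C * (2 ^ (s + 1 + t) * m₀ * sc j ^ (s + t)) * sc j / sc j ^ s
      = C * 2 ^ (s + 1 + t) * m₀ * (sc j ^ t * sc j) := by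
    rw [pow_add (sc j) s t]
    field_simp
  rw [e2]
  have h3 : sc j ^ t * sc j ≤ sc j := by
    have : sc j ^ t ≤ 1 := pow_le_one₀ hℓ.le hℓ1
    nlinarith
  have h4 : 0 ≤ C * 2 ^ (s + 1 + t) * m₀ := by positivity
  nlinarith

/-- the data for the comparison at a neighbouring centre and a comparable smaller scale. -/
theorem cmpIn_of_out {W : SIV m n} {Q s q : ℕ} {hc : ℝ} {x x' : E m} {ℓ ℓ' : ℝ} {hℓ : 0 < ℓ}
    {a a' C T κ : ℝ} {f : E m → E n} (hout : StepOut W Q s q hc x ℓ hℓ a C f) (hreg : VB s 1 f κ)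
    (h0 : 0 < ℓ') (h1 : ℓ' ≤ ℓ) (h4 : ℓ ≤ 4 * ℓ') (hx : ‖x - x'‖ ≤ 10 * ℓ') (ha : 0 ≤ a)
    (haT : a ≤ T * a') (hC : 0 ≤ C) :
    CmpIn W s q x' ℓ' a' κ (C * T ^ 2 * 4 ^ q * 4 ^ (m + 1)) f := by
  have hsub : ∀ r : ℝ, 70 * ℓ ≤ r → Metric.ball x' (60 * ℓ') ⊆ Metric.ball x r := by
    intro r hr y hy
    rw [Metric.mem_ball, dist_eq_norm] at hy ⊢
    have e : y - x = (y - x') - (x - x') := by abel
    have := norm_sub_le (y - x') (x - x')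
    rw [← e] at this
    linarith
  have hsq : a ^ 2 ≤ T ^ 2 * a' ^ 2 := by
    rw [← mul_pow]
    exact pow_le_pow_left₀ ha haT 2
  have hq1 : (1 : ℝ) ≤ 4 ^ q := one_le_pow₀ (by norm_num)
  have hm1 : (1 : ℝ) ≤ 4 ^ (m + 1) := one_le_pow₀ (by norm_num)
  have hTa : 0 ≤ T ^ 2 * a' ^ 2 := by positivity
  refine ⟨hreg, ?_, ?_⟩
  · obtain ⟨Ξ, hΞ, heq⟩ := hout.amin
    refine ⟨Ξ, (hΞ.scale_down h0.le h1).mono le_rfl h0.le ?_, fun y hy =>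
      heq y (hsub _ (by linarith) hy)⟩
    have e1 : C * a ^ 2 / ℓ ≤ C * (T ^ 2 * a' ^ 2) / ℓ' := by
      gcongr
    refine e1.trans ?_
    rw [div_le_div_iff_of_pos_right h0]
    have e2 : C * T ^ 2 * 4 ^ q * 4 ^ (m + 1) * a' ^ 2
        = (C * (T ^ 2 * a' ^ 2)) * (4 ^ q * 4 ^ (m + 1)) := by ring
    rw [e2]
    have : (1 : ℝ) ≤ 4 ^ q * 4 ^ (m + 1) := by nlinarith
    have h5 : 0 ≤ C * (T ^ 2 * a' ^ 2) := by positivity
    nlinarith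
  · intro η A hη hs hA
    have hA0 : 0 ≤ A := by
      have := hA 0 (Nat.zero_le _) 0
      rw [pow_zero, one_mul] at this
      exact (norm_nonneg _).trans this
    have hb : ∀ i : ℕ, i ≤ q → ∀ y, ℓ ^ i * ‖iteratedFDeriv ℝ i η y‖ ≤ 4 ^ q * A := by
      intro i hi y
      have e1 : ℓ ^ i ≤ 4 ^ i * ℓ' ^ i := by
        rw [← mul_pow]
        exact pow_le_pow_left₀ hℓ.le h4 i
      have e2 : (4 : ℝ) ^ i ≤ 4 ^ q := pow_le_pow_right₀ (by norm_num) hi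
      calc ℓ ^ i * ‖iteratedFDeriv ℝ i η y‖ ≤ (4 ^ i * ℓ' ^ i) * ‖iteratedFDeriv ℝ i η y‖ := by
            gcongr
        _ = 4 ^ i * (ℓ' ^ i * ‖iteratedFDeriv ℝ i η y‖) := by ring
        _ ≤ 4 ^ q * A := by
            have := hA i hi y
            have h6 : 0 ≤ ℓ' ^ i * ‖iteratedFDeriv ℝ i η y‖ := by positivity
            nlinarith [pow_pos (show (0 : ℝ) < 4 by norm_num) i]
    refine (hout.moment η (4 ^ q * A) hη (hs.trans (hsub _ le_rfl)) hb).trans ?_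
    have e3 : ℓ ^ (m + 1) ≤ 4 ^ (m + 1) * ℓ' ^ (m + 1) := by
      rw [← mul_pow]
      exact pow_le_pow_left₀ hℓ.le h4 _
    calc C * (4 ^ q * A) * a ^ 2 * ℓ ^ (m + 1)
        ≤ C * (4 ^ q * A) * (T ^ 2 * a' ^ 2) * (4 ^ (m + 1) * ℓ' ^ (m + 1)) := by gcongr
      _ = C * T ^ 2 * 4 ^ q * 4 ^ (m + 1) * A * a' ^ 2 * ℓ' ^ (m + 1) := by ring

/-! ### the fields of `FitFam` from the state -/

theorem fm_two_pow_sq (k : ℕ) : ((2 : ℝ) ^ k) ^ 2 = 4 ^ k := by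
  rw [← pow_mul, mul_comm, pow_mul]
  norm_num

theorem FitSt.reg' {W : SIV m n} {Q s q k : ℕ} {hc C m₀ : ℝ} {x : E m} {j : ℕ} {f : E m → E n}
    (h : FitSt W Q s q k hc C m₀ x j f) (hC : 0 ≤ C) (hm₀ : 0 ≤ m₀) :
    VB s 1 f (C * 2 ^ k * m₀ * 2) := by
  refine h.reg.mono le_rfl zero_le_one ?_
  have := fm_sc_pos j
  have h4 : 0 ≤ C * 2 ^ k * m₀ := by positivity
  nlinarith

theorem FitSt.deriv {W : SIV m n} {Q s q k : ℕ} {hc C m₀ : ℝ} {x : E m} {j : ℕ} {f : E m → E n}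
    (h : FitSt W Q s q k hc C m₀ x j f) (hC : 0 ≤ C) (hm₀ : 0 ≤ m₀) {i : ℕ} (hi : i ≤ s) (y : E m) :
    ‖iteratedFDeriv ℝ i f y‖ ≤ (2 * Real.pi) ^ s * (C * 2 ^ k * 2) * m₀ := by
  have h1 := (h.reg' hC hm₀).sup one_pos (by positivity) hi y
  rw [one_pow, one_mul] at h1
  refine h1.trans ?_
  have h2 : (2 * Real.pi) ^ i ≤ (2 * Real.pi) ^ s :=
    pow_le_pow_right₀ (by nlinarith [Real.pi_gt_three]) hi
  have h3 : 0 ≤ C * 2 ^ k * m₀ * 2 := by positivity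
  calc (2 * Real.pi) ^ i * (C * 2 ^ k * m₀ * 2) ≤ (2 * Real.pi) ^ s * (C * 2 ^ k * m₀ * 2) := by
        gcongr
    _ = _ := by ring

theorem FitSt.height {W : SIV m n} {Q s q k : ℕ} {hc C m₀ : ℝ} {x : E m} {j : ℕ} {f : E m → E n}
    (h : FitSt W Q s q k hc C m₀ x j f) (hk : 1 ≤ k) :
    Hgt W 300 1 f x (80 * sc j) (C * 2 ^ k * m₀ * sc j ^ k) := by
  refine h.out.height.mono le_rfl (le_of_eq ?_)
  obtain ⟨t, rfl⟩ : ∃ t, k = t + 1 := ⟨k - 1, by omega⟩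
  simp only [Nat.add_sub_cancel]
  rw [pow_succ (sc j) t]
  ring

theorem FitSt.curv {W : SIV m n} {Q s q k : ℕ} {hc C m₀ : ℝ} {x : E m} {j : ℕ} {f : E m → E n}
    (h : FitSt W Q s q k hc C m₀ x j f) (hs : 4 ≤ s) (hk : 2 ≤ k) (hC : 0 ≤ C) (hm₀ : 0 ≤ m₀)
    (hκ : (2 * Real.pi) ^ s * (C * 2 ^ k * m₀ * 2) ≤ 1 / 2) :
    ∀ y ∈ Metric.ball x (80 * sc j), ‖HS f y‖ ≤ C * 4 ^ k * m₀ ^ 2 * sc j ^ (2 * k - 3) ∧
      Real.sqrt (DHSsq f y)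
        ≤ Real.sqrt m * (3 + 2 * Real.pi) * (C * 4 ^ k) * m₀ ^ 2 * sc j ^ (2 * k - 4) := by
  intro y hy
  have hℓ := fm_sc_pos j
  have hgeo := (h.reg' hC hm₀).geo hs (by positivity) hκ
  obtain ⟨Ξ, hΞ, heq⟩ := h.out.amin
  obtain ⟨h1, h2⟩ := curv_of_amin (s := s) (by omega) hgeo hℓ (fm_sc_le_one j) (by positivity) hΞ
    heq y hy
  obtain ⟨t, rfl⟩ : ∃ t, k = t + 2 := ⟨k - 2, by omega⟩
  have e1 : t + 2 - 1 = t + 1 := by omega
  have e2 : 2 * (t + 2) - 3 = 2 * t + 1 := by omega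
  have e3 : 2 * (t + 2) - 4 = 2 * t := by omega
  rw [e1] at h1 h2
  rw [e2, e3]
  have e4 : C * (2 ^ (t + 2) * m₀ * sc j ^ (t + 1)) ^ 2
      = C * 4 ^ (t + 2) * m₀ ^ 2 * sc j ^ (2 * t) * sc j ^ 2 := by
    rw [mul_pow, mul_pow, fm_two_pow_sq, ← pow_mul, show (t + 1) * 2 = 2 * t + 2 by ring, pow_add]
    ring
  rw [e4] at h1 h2
  constructor
  · refine le_of_mul_le_mul_left (h1.trans (le_of_eq ?_)) hℓ
    rw [pow_succ (sc j) (2 * t)]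
    ring
  · refine le_of_mul_le_mul_left (h2.trans (le_of_eq ?_)) (pow_pos hℓ 2)
    ring

theorem FitSt.moment {W : SIV m n} {Q s q k : ℕ} {hc C m₀ : ℝ} {x : E m} {j : ℕ} {f : E m → E n}
    (h : FitSt W Q s q k hc C m₀ x j f) (hk : 1 ≤ k) (η : E m → E n) (A : ℝ) (hη : ContDiff ℝ q η)
    (hs : tsupport η ⊆ Metric.ball x (70 * sc j))
    (hA : ∀ i : ℕ, i ≤ q → ∀ y, sc j ^ i * ‖iteratedFDeriv ℝ i η y‖ ≤ A) :
    |∫ X, ⟪zet f X, η (prH m n X)⟫ ∂(muc W 300 1)|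
      ≤ C * 4 ^ k * A * m₀ ^ 2 * sc j ^ (m + 2 * k - 1) := by
  refine (h.out.moment η A hη hs hA).trans (le_of_eq ?_)
  obtain ⟨t, rfl⟩ : ∃ t, k = t + 1 := ⟨k - 1, by omega⟩
  have e1 : t + 1 - 1 = t := by omega
  have e2 : m + 2 * (t + 1) - 1 = t * 2 + (m + 1) := by omega
  rw [e1, e2, mul_pow, mul_pow, fm_two_pow_sq, ← pow_mul, pow_add (sc j) (t * 2) (m + 1)]
  ring

theorem FitSt.overlap {W : SIV m n} {Q s q k : ℕ} {hc C m₀ : ℝ} {x x' : E m} {j j' : ℕ}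
    {f f' : E m → E n} (h : FitSt W Q s q k hc C m₀ x j f) (h' : FitSt W Q s q k hc C m₀ x' j' f')
    (hflat : Flat W 300 1) (hx' : ‖x'‖ < 5) (hjj : j ≤ j') (hj2 : j' ≤ j + 2)
    (hxx : ‖x - x'‖ ≤ 10 * sc j') (hk : 2 ≤ k) (hC : 0 ≤ C) (hm₀ : 0 ≤ m₀) {κ₀ Co : ℝ}
    (Hov : ∀ (W : SIV m n) (x : E m) (ℓ a κ : ℝ) (f₁ f₂ : E m → E n),
      Flat W 300 1 → ‖x‖ < 5 → 0 < ℓ → ℓ ≤ 1 → 0 ≤ a → a ≤ 1 → 0 ≤ κ → κ ≤ κ₀ → a * κ ≤ ℓ →
      CmpIn W s q x ℓ a κ (C * (4 ^ (k - 1)) ^ 2 * 4 ^ q * 4 ^ (m + 1)) f₁ →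
      CmpIn W s q x ℓ a κ (C * (4 ^ (k - 1)) ^ 2 * 4 ^ q * 4 ^ (m + 1)) f₂ →
      MassC W 300 1 Q f₂ x (60 * ℓ) (C * (4 ^ (k - 1)) ^ 2 * 4 ^ q * 4 ^ (m + 1) * a ^ 2 * ℓ ^ m)
        (C * (4 ^ (k - 1)) ^ 2 * 4 ^ q * 4 ^ (m + 1) * a * ℓ ^ (m + 1)) →
      ∀ i : ℕ, i ≤ s → ∀ y ∈ Metric.ball x (20 * ℓ),
        ℓ ^ i * ‖iteratedFDeriv ℝ i (fun y => f₁ y - f₂ y) y‖ ≤ Co * a ^ 2 * ℓ)
    (h1 : 2 ^ k * m₀ ≤ 1) (h2 : C * 2 ^ k * m₀ * 2 ≤ κ₀) (h3 : C * 2 ^ k * m₀ * 2 ≤ 1) {i : ℕ}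
    (hi : i ≤ s) (hik : i ≤ 2 * k - 1) :
    ∀ y ∈ Metric.ball x' (20 * sc j'),
      ‖iteratedFDeriv ℝ i (f - f') y‖ ≤ Co * 4 ^ k * m₀ ^ 2 * sc j' ^ (2 * k - 1 - i) := by
  intro y hy
  have hℓ := fm_sc_pos j
  have hℓ' := fm_sc_pos j'
  have hℓ'1 := fm_sc_le_one j'
  have hle : sc j' ≤ sc j := fm_sc_anti hjj
  have h4 : sc j ≤ 4 * sc j' := fm_sc_le_four hj2
  have hT1 : (1 : ℝ) ≤ 4 ^ (k - 1) := one_le_pow₀ (by norm_num)
  have hkm : 0 ≤ 2 ^ k * m₀ := by positivity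
  have ha' : 0 ≤ 2 ^ k * m₀ * sc j' ^ (k - 1) := by positivity
  have haT : 2 ^ k * m₀ * sc j ^ (k - 1) ≤ 4 ^ (k - 1) * (2 ^ k * m₀ * sc j' ^ (k - 1)) := by
    have : sc j ^ (k - 1) ≤ 4 ^ (k - 1) * sc j' ^ (k - 1) := by
      rw [← mul_pow]
      exact pow_le_pow_left₀ hℓ.le h4 _
    calc 2 ^ k * m₀ * sc j ^ (k - 1) ≤ 2 ^ k * m₀ * (4 ^ (k - 1) * sc j' ^ (k - 1)) := by gcongr
      _ = _ := by ring
  have c1 := cmpIn_of_out h.out (h.reg' hC hm₀) hℓ' hle h4 hxx (by positivity) haT hC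
  have c2 := cmpIn_of_out (x' := x') (T := 4 ^ (k - 1)) (a' := 2 ^ k * m₀ * sc j' ^ (k - 1)) h'.out
    (h'.reg' hC hm₀) hℓ' le_rfl (by linarith) (by simp; positivity) ha' (by nlinarith) hC
  have hCK : C ≤ C * (4 ^ (k - 1)) ^ 2 * 4 ^ q * 4 ^ (m + 1) := by
    have e1 : (1 : ℝ) ≤ (4 ^ (k - 1)) ^ 2 := one_le_pow₀ hT1
    have e2 : (1 : ℝ) ≤ 4 ^ q := one_le_pow₀ (by norm_num)
    have e3 : (1 : ℝ) ≤ 4 ^ (m + 1) := one_le_pow₀ (by norm_num)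
    have e4 : C ≤ C * (4 ^ (k - 1)) ^ 2 := le_mul_of_one_le_right hC e1
    have e5 : C * (4 ^ (k - 1)) ^ 2 ≤ C * (4 ^ (k - 1)) ^ 2 * 4 ^ q :=
      le_mul_of_one_le_right (by positivity) e2
    have e6 : C * (4 ^ (k - 1)) ^ 2 * 4 ^ q ≤ C * (4 ^ (k - 1)) ^ 2 * 4 ^ q * 4 ^ (m + 1) :=
      le_mul_of_one_le_right (by positivity) e3
    linarith
  have hM := h'.out.massC.monoR (r' := 60 * sc j')
    (c₁' := C * (4 ^ (k - 1)) ^ 2 * 4 ^ q * 4 ^ (m + 1) * (2 ^ k * m₀ * sc j' ^ (k - 1)) ^ 2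
      * sc j' ^ m)
    (c₂' := C * (4 ^ (k - 1)) ^ 2 * 4 ^ q * 4 ^ (m + 1) * (2 ^ k * m₀ * sc j' ^ (k - 1))
      * sc j' ^ (m + 1)) (by linarith) (by gcongr) (by gcongr)
  have hp1 : sc j' ^ (k - 1) ≤ sc j' := by
    obtain ⟨t, rfl⟩ : ∃ t, k = t + 2 := ⟨k - 2, by omega⟩
    have e1 : t + 2 - 1 = t + 1 := by omega
    rw [e1, pow_succ]
    have : sc j' ^ t ≤ 1 := pow_le_one₀ hℓ'.le hℓ'1
    nlinarith
  have ha1 : 2 ^ k * m₀ * sc j' ^ (k - 1) ≤ 1 := by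
    have : sc j' ^ (k - 1) ≤ 1 := hp1.trans hℓ'1
    have h0 : 0 ≤ sc j' ^ (k - 1) := by positivity
    nlinarith
  have hκ0 : 0 ≤ C * 2 ^ k * m₀ * 2 := by positivity
  have haκ : 2 ^ k * m₀ * sc j' ^ (k - 1) * (C * 2 ^ k * m₀ * 2) ≤ sc j' := by
    have h0 : 0 ≤ sc j' ^ (k - 1) := by positivity
    have e1 : 2 ^ k * m₀ * sc j' ^ (k - 1) ≤ sc j' ^ (k - 1) := by nlinarith
    calc 2 ^ k * m₀ * sc j' ^ (k - 1) * (C * 2 ^ k * m₀ * 2) ≤ sc j' ^ (k - 1) * 1 := by gcongr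
      _ ≤ sc j' := by rw [mul_one]; exact hp1
  have key := Hov W x' (sc j') (2 ^ k * m₀ * sc j' ^ (k - 1)) (C * 2 ^ k * m₀ * 2) f f' hflat hx' hℓ'
    hℓ'1 ha' ha1 hκ0 h2 haκ c1 c2 hM i hi y hy
  have hfun : (f - f') = fun y => f y - f' y := rfl
  rw [hfun]
  refine le_of_mul_le_mul_left (key.trans (le_of_eq ?_)) (pow_pos hℓ' i)
  obtain ⟨t, rfl⟩ : ∃ t, k = t + 1 := ⟨k - 1, by omega⟩
  have e1 : t + 1 - 1 = t := by omega
  obtain ⟨u, hu⟩ : ∃ u, 2 * (t + 1) - 1 = i + u := ⟨2 * (t + 1) - 1 - i, by omega⟩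
  have e2 : 2 * (t + 1) - 1 - i = u := by omega
  have e3 : t * 2 + 1 = i + u := by omega
  rw [e1, e2, mul_pow, mul_pow, fm_two_pow_sq, ← pow_mul]
  have e4 : sc j' ^ (t * 2) * sc j' = sc j' ^ i * sc j' ^ u := by
    rw [← pow_succ, e3, pow_add]
  calc Co * (4 ^ (t + 1) * m₀ ^ 2 * sc j' ^ (t * 2)) * sc j'
      = Co * 4 ^ (t + 1) * m₀ ^ 2 * (sc j' ^ (t * 2) * sc j') := by ring
    _ = _ := by rw [e4]; ring

end Claimed.Agent.R322.Fit.Fits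

namespace Claimed.Agent.R322.Fit

open Claimed.Agent.R322.Tube Claimed.Agent.R322.Freq Claimed.Agent.R322.Fit.Fits

/-- **AE Lemma 7.1.** -/
theorem exists_fitFam (m n Q : ℕ) (hm : 1 ≤ m) (hn : 1 ≤ n) (hQ : 1 ≤ Q) (J₀ : ℕ) (h₀ : ℝ) (hh₀ : 0 < h₀) :
    ∃ c : FitCst, J₀ ≤ c.J ∧ c.h ≤ h₀ ∧ c.Adm m ∧
      ∀ᶠ m₀ in 𝓝[>] (0 : ℝ), ∀ᶠ eg in 𝓝[>] (0 : ℝ), ∀ W : SIV m n, IsGood W Q eg →
        Nonempty (FitFam W Q c m₀) := by
  obtain ⟨q, s₀, hc₀, hq, hqs, hhc₀, Hcore⟩ := core_step m n Q hm hn hQ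
  obtain ⟨s, hs⟩ : ∃ s, s = max s₀ J₀ := ⟨_, rfl⟩
  have hs₀ : s₀ ≤ s := hs ▸ le_max_left _ _
  have hJs : J₀ ≤ s := hs ▸ le_max_right _ _
  have hs4 : 4 ≤ s := by omega
  obtain ⟨hc, hhc⟩ : ∃ hc, hc = min hc₀ h₀ := ⟨_, rfl⟩
  have hc_pos : 0 < hc := hhc ▸ lt_min hhc₀ hh₀
  obtain ⟨C, σ₀, hC1, hσ₀, Hcore⟩ := Hcore s hs₀ hc hc_pos (hhc ▸ min_le_left _ _)
  have hC : 0 ≤ C := by linarith
  obtain ⟨k, hk⟩ : ∃ k, k = s + J₀ + m + 9 := ⟨_, rfl⟩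
  obtain ⟨a₀, ha₀, Hcore⟩ := Hcore (C * 4 ^ k) (by positivity)
  obtain ⟨Cw, hCw, HCw⟩ := MassC.wmass m n Q
  obtain ⟨κ₀, Co, hκ₀, hCo, Hov⟩ := overlap_core m n Q s q hQ hq (hqs.trans hs₀)
    (C * (4 ^ (k - 1)) ^ 2 * 4 ^ q * 4 ^ (m + 1)) (by positivity)
  have hpi : 0 < 2 * Real.pi := by positivity
  obtain ⟨CC, hCC⟩ : ∃ CC, CC = 1 + (2 * Real.pi) ^ s * (C * 2 ^ k * 2) + C * 2 ^ k + C * 4 ^ k
      + Real.sqrt m * (3 + 2 * Real.pi) * (C * 4 ^ k) + Co * 4 ^ k := ⟨_, rfl⟩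
  have t1 : 0 ≤ (2 * Real.pi) ^ s * (C * 2 ^ k * 2) := by positivity
  have t2 : 0 ≤ C * 2 ^ k := by positivity
  have t3 : 0 ≤ C * 4 ^ k := by positivity
  have t4 : 0 ≤ Real.sqrt m * (3 + 2 * Real.pi) * (C * 4 ^ k) := by positivity
  have t5 : 0 ≤ Co * 4 ^ k := by positivity
  refine ⟨⟨J₀, k, q, CC, hc⟩, le_rfl, hhc ▸ min_le_right _ _,
    ⟨by show J₀ + 4 < k; omega, by show 8 + m < 2 * k; omega, by show 1 ≤ CC; linarith, hc_pos⟩, ?_⟩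
  -- thresholds for `m₀`
  have e1 : ∀ᶠ m₀ in 𝓝[>] (0 : ℝ), 2 ^ k * m₀ ≤ min a₀ 1 :=
    fm_ev_small (by fun_prop) (by simp) (by positivity)
  have e2 : ∀ᶠ m₀ in 𝓝[>] (0 : ℝ), C * 2 ^ k * m₀ * 2 ≤ min a₀ (min κ₀ 1) :=
    fm_ev_small (by fun_prop) (by simp) (by positivity)
  have e3 : ∀ᶠ m₀ in 𝓝[>] (0 : ℝ), (2 * Real.pi) ^ s * (C * 2 ^ k * m₀ * 2) ≤ 1 / 2 :=
    fm_ev_small (by fun_prop) (by simp) (by positivity)
  have e4 : ∀ᶠ m₀ in 𝓝[>] (0 : ℝ), 2 ^ (m + 1) * (C * (2 ^ k * m₀) ^ 2 + C * (2 ^ k * m₀)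
      + Cw * (2 * Real.pi * (C * 2 ^ k * m₀ * 2)) ^ 2 * 72 ^ m) ≤ σ₀ :=
    fm_ev_small (by fun_prop) (by simp) hσ₀
  filter_upwards [e1, e2, e3, e4, self_mem_nhdsWithin] with m₀ h1 h2 h3 h4 hm₀
  have hm₀ : 0 < m₀ := hm₀
  have f1 : ∀ᶠ eg in 𝓝[>] (0 : ℝ), eg ≤ min (1 / 2) (min (2 ^ k * m₀) (σ₀ / 2)) :=
    fm_ev_small continuous_id rfl (by positivity)
  filter_upwards [f1, self_mem_nhdsWithin] with eg hg heg0 W hW
  have heg0 : 0 < eg := heg0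
  have hg1 : eg ≤ 1 / 2 := hg.trans (min_le_left _ _)
  have hg2 : eg ≤ 2 ^ k * m₀ := hg.trans ((min_le_right _ _).trans (min_le_left _ _))
  have hg3 : 2 * eg ≤ σ₀ := by
    have := hg.trans ((min_le_right _ _).trans (min_le_right _ _))
    linarith
  have h1a : 2 ^ k * m₀ ≤ a₀ := h1.trans (min_le_left _ _)
  have h1b : 2 ^ k * m₀ ≤ 1 := h1.trans (min_le_right _ _)
  have h2a : C * 2 ^ k * m₀ * 2 ≤ a₀ := h2.trans (min_le_left _ _)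
  have h2b : C * 2 ^ k * m₀ * 2 ≤ κ₀ := h2.trans ((min_le_right _ _).trans (min_le_left _ _))
  have h2c : C * 2 ^ k * m₀ * 2 ≤ 1 := h2.trans ((min_le_right _ _).trans (min_le_right _ _))
  have hκ0 : 0 ≤ C * 2 ^ k * m₀ * 2 := by positivity
  have hflat : Flat W 300 1 := (good_flat hW heg0.le hg1).1
  have hkm : 0 < 2 ^ k * m₀ := by positivity
  have haj : ∀ j, 0 < 2 ^ k * m₀ * sc j ^ (k - 1) ∧ 2 ^ k * m₀ * sc j ^ (k - 1) ≤ 2 ^ k * m₀ := by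
    intro j
    have p := fm_sc_pos j
    refine ⟨by positivity, ?_⟩
    have : sc j ^ (k - 1) ≤ 1 := pow_le_one₀ p.le (fm_sc_le_one j)
    nlinarith
  have haj2 : ∀ j, 2 ^ k * m₀ * sc j ^ (k - 1) ≤ a₀ * sc j ^ 2 := by
    intro j
    have p := fm_sc_pos j
    have : sc j ^ (k - 1) ≤ sc j ^ 2 := pow_le_pow_of_le_one p.le (fm_sc_le_one j) (by omega)
    calc 2 ^ k * m₀ * sc j ^ (k - 1) ≤ 2 ^ k * m₀ * sc j ^ 2 := by gcongr
      _ ≤ a₀ * sc j ^ 2 := by gcongr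
  have hpik : 2 * Real.pi * (C * 2 ^ k * m₀ * 2) ≤ 1 := by
    have e : 2 * Real.pi ≤ (2 * Real.pi) ^ s := by
      have := pow_le_pow_right₀ (show (1 : ℝ) ≤ 2 * Real.pi by nlinarith [Real.pi_gt_three])
        (show 1 ≤ s by omega)
      rwa [pow_one] at this
    nlinarith
  -- the sequences
  have Hseq : ∀ x : E m, ∃ (F : ℕ → E m → E n) (jf : ℕ∞), ‖x‖ < 5 →
      (∀ j : ℕ, (j : ℕ∞) ≤ jf → FitSt W Q s q k hc C m₀ x j (F j)) ∧
      (∀ j : ℕ, (j : ℕ∞) < jf → Hgt W 300 1 (F j) x (64 * sc j) (m₀ * sc j ^ k)) ∧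
      (∀ j : ℕ, jf = (j : ℕ∞) → ¬ Hgt W 300 1 (F j) x (64 * sc j) (m₀ * sc j ^ k)) := by
    intro x
    by_cases hx : ‖x‖ < 5
    · have hstep : ∀ (j : ℕ) (f : E m → E n), VB s 1 f (C * 2 ^ k * m₀ * (2 - 2 * sc j)) →
          StepIn W Q s x (sc j) (2 ^ k * m₀ * sc j ^ (k - 1)) (C * 2 ^ k * m₀ * 2) (C * 4 ^ k) σ₀ f →
          ∃ f', FitSt W Q s q k hc C m₀ x j f' := by
        intro j f hreg hin
        obtain ⟨v, hv, hout⟩ := Hcore W eg x (sc j) (2 ^ k * m₀ * sc j ^ (k - 1))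
          (C * 2 ^ k * m₀ * 2) (fm_sc_pos j) f hW heg0.le hg1 hx (fm_sc_le_one j) (haj j).1
          (haj2 j) hκ0 h2a hin
        exact ⟨_, fitSt_of_step (by omega) hC hm₀.le hreg hv hout⟩
      obtain ⟨F, jf, H1, H2, H3⟩ := rec_exists
        (fun j f => FitSt W Q s q k hc C m₀ x j f)
        (fun j f => Hgt W 300 1 f x (64 * sc j) (m₀ * sc j ^ k))
        (hstep 0 (fun _ => 0) (VB.zero _ _ _)
          (stepIn_zero hW heg0.le hg1 hx (by rw [fm_sc_zero, one_pow, mul_one]; exact hg2) hg3))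
        (by
          intro j f hst hacc
          have p := fm_sc_pos (j + 1)
          have e := fm_sc_succ j
          refine hstep (j + 1) f (by rw [← e]; exact hst.reg) ?_
          have hout := hst.out
          have p2 : 0 < 2 * sc (j + 1) := by positivity
          have hout' : StepOut W Q s q hc x (2 * sc (j + 1)) p2
              (2 ^ k * m₀ * (2 * sc (j + 1)) ^ (k - 1)) C f := by
            have := hst.out
            simp only [e] at this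
            exact this
          refine stepIn_of_out p p2 (by omega) (by omega) hC hm₀.le hκ0 hpik (hst.reg' hC hm₀.le)
            hout' (by rw [← e]; exact hacc) HCw ?_
          rw [← e]
          refine le_trans ?_ h4
          have b1 := (haj j).1.le
          have b2 := (haj j).2
          gcongr)
      exact ⟨F, jf, fun _ => ⟨H1, H2, H3⟩⟩
    · exact ⟨fun _ _ => 0, ⊤, fun h => absurd h hx⟩
  choose F jf HF using Hseq
  have hX : ∀ {c X : ℝ}, c ≤ CC → 0 ≤ X → c * X ≤ CC * X := fun h hX =>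
    mul_le_mul_of_nonneg_right h hX
  refine ⟨{ jf := jf
            f := F
            smooth := fun x j hx hj => ?_
            deriv := fun x j hx hj i hi y _ => ?_
            accept := fun x j hx hj => (HF x hx).2.1 j hj
            fail := fun x j hx hj => ?_
            height := fun x j hx hj => ?_
            curv := fun x j hx hj y hy => ?_
            overlap := fun x x' j j' hx hx' hj hj' hjj hj2 hxx i hi y hy => ?_
            moment := fun x j hx hj η A hη hsupp hA => ?_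
            energy := fun x j hx hj => ?_ }⟩
  · exact ((HF x hx).1 j hj).reg.1.contDiff.of_le (by exact_mod_cast hJs)
  · exact (((HF x hx).1 j hj).deriv hC hm₀.le (hi.trans hJs) y).trans
      (hX (by rw [hCC]; linarith) hm₀.le)
  · have := (HF x hx).2.2 j hj
    unfold Hgt at this
    push Not at this
    obtain ⟨X, hX1, hX2, hX3, hX4⟩ := this
    exact ⟨X, hX1, hX2, hX3, hX4⟩
  · have p := fm_sc_pos j
    refine (((HF x hx).1 j hj).height (by omega)).mono le_rfl ?_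
    have : C * 2 ^ k * (m₀ * sc j ^ k) ≤ CC * (m₀ * sc j ^ k) :=
      hX (by rw [hCC]; linarith) (by positivity)
    calc C * 2 ^ k * m₀ * sc j ^ k = C * 2 ^ k * (m₀ * sc j ^ k) := by ring
      _ ≤ CC * (m₀ * sc j ^ k) := this
      _ = CC * m₀ * sc j ^ k := by ring
  · have p := fm_sc_pos j
    obtain ⟨c1, c2⟩ := ((HF x hx).1 j hj).curv hs4 (by omega) hC hm₀.le h3 y hy
    constructor
    · refine c1.trans ?_
      have : C * 4 ^ k * (m₀ ^ 2 * sc j ^ (2 * k - 3)) ≤ CC * (m₀ ^ 2 * sc j ^ (2 * k - 3)) :=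
        hX (by rw [hCC]; linarith) (by positivity)
      calc C * 4 ^ k * m₀ ^ 2 * sc j ^ (2 * k - 3) = C * 4 ^ k * (m₀ ^ 2 * sc j ^ (2 * k - 3)) := by
            ring
        _ ≤ CC * (m₀ ^ 2 * sc j ^ (2 * k - 3)) := this
        _ = CC * m₀ ^ 2 * sc j ^ (2 * k - 3) := by ring
    · refine c2.trans ?_
      have : Real.sqrt m * (3 + 2 * Real.pi) * (C * 4 ^ k) * (m₀ ^ 2 * sc j ^ (2 * k - 4))
          ≤ CC * (m₀ ^ 2 * sc j ^ (2 * k - 4)) := hX (by rw [hCC]; linarith) (by positivity)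
      calc Real.sqrt m * (3 + 2 * Real.pi) * (C * 4 ^ k) * m₀ ^ 2 * sc j ^ (2 * k - 4)
          = Real.sqrt m * (3 + 2 * Real.pi) * (C * 4 ^ k) * (m₀ ^ 2 * sc j ^ (2 * k - 4)) := by ring
        _ ≤ CC * (m₀ ^ 2 * sc j ^ (2 * k - 4)) := this
        _ = CC * m₀ ^ 2 * sc j ^ (2 * k - 4) := by ring
  · have p := fm_sc_pos j'
    have hi' : i ≤ J₀ := hi
    refine (((HF x hx).1 j hj).overlap ((HF x' hx').1 j' hj') hflat hx' hjj hj2 hxx (by omega) hC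
      hm₀.le Hov h1b h2b h2c (hi'.trans hJs) (by omega) y hy).trans ?_
    have : Co * 4 ^ k * (m₀ ^ 2 * sc j' ^ (2 * k - 1 - i)) ≤ CC * (m₀ ^ 2 * sc j' ^ (2 * k - 1 - i)) :=
      hX (by rw [hCC]; linarith) (by positivity)
    calc Co * 4 ^ k * m₀ ^ 2 * sc j' ^ (2 * k - 1 - i)
        = Co * 4 ^ k * (m₀ ^ 2 * sc j' ^ (2 * k - 1 - i)) := by ring
      _ ≤ CC * (m₀ ^ 2 * sc j' ^ (2 * k - 1 - i)) := this
      _ = CC * m₀ ^ 2 * sc j' ^ (2 * k - 1 - i) := by ring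
  · have p := fm_sc_pos j
    have hA0 : 0 ≤ A := by
      have := hA 0 (Nat.zero_le _) 0
      rw [pow_zero, one_mul] at this
      exact (norm_nonneg _).trans this
    have key := ((HF x hx).1 j hj).moment (by omega) η A (hη.of_le (by exact_mod_cast le_top)) hsupp hA
    refine le_trans key ?_
    have : C * 4 ^ k * (A * m₀ ^ 2 * sc j ^ (m + 2 * k - 1)) ≤ CC * (A * m₀ ^ 2 * sc j ^ (m + 2 * k - 1)) :=
      hX (by rw [hCC]; linarith) (by positivity)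
    calc C * 4 ^ k * A * m₀ ^ 2 * sc j ^ (m + 2 * k - 1)
        = C * 4 ^ k * (A * m₀ ^ 2 * sc j ^ (m + 2 * k - 1)) := by ring
      _ ≤ CC * (A * m₀ ^ 2 * sc j ^ (m + 2 * k - 1)) := this
      _ = CC * A * m₀ ^ 2 * sc j ^ (m + 2 * k - 1) := by ring
  · obtain ⟨N, hN1, hN2, hN3, hN4, hN5, hN6⟩ := ((HF x hx).1 j hj).out.energy
    refine ⟨N, hN1, hN2, hN3, hN4, hN5, hN6.trans (ENNReal.ofReal_le_ofReal ?_)⟩
    have p := fm_sc_pos j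
    have : C * 4 ^ k * (m₀ * sc j ^ (k - 1)) ^ 2 ≤ CC * (m₀ * sc j ^ (k - 1)) ^ 2 :=
      hX (by rw [hCC]; linarith) (by positivity)
    calc C * (2 ^ k * m₀ * sc j ^ (k - 1)) ^ 2 = C * 4 ^ k * (m₀ * sc j ^ (k - 1)) ^ 2 := by
          rw [mul_assoc (2 ^ k) m₀, mul_pow (2 ^ k), fm_two_pow_sq]
          ring
      _ ≤ _ := this

end Claimed.Agent.R322.Fit
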