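import Claimed.Agent.R322.Fit.Fits.Energy

/-!
# Row 322, Fit/Fits/StepJB: proof of `jac_bound` (leaf L-Fit-Fits-JB)   (helper203)
-/

set_option autoImplicit false

open scoped ENNReal ContDiff Topology RealInnerProductSpace
open MeasureTheory

namespace Claimed.Agent.R322.Fit.Fits

open Claimed.Agent.R322.Tube Claimed.Agent.R322.Freq

variable {m n : ℕ}

theorem jb_ovr_mono (x : E m) {r r' : ℝ} (h : r ≤ r') : ovr m n x r ⊆ ovr m n x r' :=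
  fun _ hX => lt_of_lt_of_le hX h

theorem jb_Hgt_mono {W : SIV m n} {R t : ℝ} {f : E m → E n} {x : E m} {r r' h : ℝ}
    (H : Hgt W R t f x r' h) (hr : r ≤ r') : Hgt W R t f x r h :=
  fun X hX hZ hlt => H X hX hZ (lt_of_lt_of_le hlt hr)

theorem jb_closedBall_sub {x : E m} (hx : ‖x‖ < 5) {ρ : ℝ} (hρ : ρ ≤ 200) :
    Metric.closedBall x ρ ⊆ Metric.ball (0 : E m) 300 := by
  intro y hy
  rw [mem_closedBall_iff_norm] at hy
  rw [mem_ball_zero_iff]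
  have : ‖y‖ ≤ ‖y - x‖ + ‖x‖ := by
    have := norm_add_le (y - x) x
    simpa using this
  linarith

theorem jac_bound_aux (m n Q : ℕ) (hm : 1 ≤ m) : ∃ C : ℝ, 0 < C ∧
    ∀ (W : SIV m n) (eg : ℝ) (x : E m) (ℓ a κ : ℝ) (f : E m → E n),
      IsGood W Q eg → 0 ≤ eg → eg ≤ 1 / 2 → ‖x‖ < 5 → 0 < ℓ → ℓ ≤ 1 → Geo κ f → (∀ y, ‖f y‖ ≤ 1) →
      Hgt W 300 1 f x (128 * ℓ) (a * ℓ) → 0 ≤ a → a ≤ 1 →
      (∀ y ∈ Metric.ball x (128 * ℓ), ℓ * ‖HS f y‖ ≤ a) →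
      ∀ (w : E m → E n) (A : ℝ), ContDiff ℝ 2 w → tsupport w ⊆ Metric.ball x (126 * ℓ) →
        (∀ j : ℕ, j ≤ 2 → ∀ y, ℓ ^ j * ‖iteratedFDeriv ℝ j w y‖ ≤ A) →
        |∫ X, (⟪zet f X, LL f w (prH m n X)⟫ + ⟪mssOp f (prH m n X), w (prH m n X)⟫)
            ∂(muc W 300 1)| ≤ C * a ^ 2 * ℓ ^ m / ℓ * A := by
  obtain ⟨C₁, hC₁, H1⟩ := energyV m n
  obtain ⟨C₂, hC₂, H2⟩ := jacobi_scale m n
  set M : ℝ := (15 / 4) ^ m * (Q + 1) * kap m * 128 ^ m with hMdef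
  have hM : 0 < M := by
    have := kap_pos m
    positivity
  refine ⟨C₂ * (2 * C₁ * M + M * Real.sqrt (2 * C₁)), by positivity, ?_⟩
  intro W eg x ℓ a κ f hW h0 heg hx hℓ hℓ1 hf hsup hH ha ha1 hHS w A hw hsupp hder
  have hflat : Flat W 300 1 := (good_flat hW h0 heg).1
  have hdiff : Differentiable ℝ f := hf.smooth.differentiable (by norm_num)
  have hmass : muc W 300 1 (ovr m n x (128 * ℓ)) ≤ ENNReal.ofReal (M * ℓ ^ m) := by
    have := mass_ovr hm hW (by linarith) hdiff (fun y => (hf.slope y).trans (by norm_num)) hsup hx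
      (ρ := 128 * ℓ) (h := a * ℓ) (by positivity) (by linarith) (by nlinarith) hH
    refine this.trans (le_of_eq ?_)
    rw [hMdef, mul_pow]; ring_nf
  have h128 : ((126 : ℝ) + 2) * ℓ = 128 * ℓ := by ring
  set Eb : ℝ := C₁ * M * ℓ ^ m * (2 * a ^ 2) with hEb
  have hEb0 : 0 ≤ Eb := by positivity
  have hen : ∫⁻ X in ovr m n x (126 * ℓ), ENNReal.ofReal (tiV f (W.P X) X) ∂(muc W 300 1)
      ≤ ENNReal.ofReal Eb := by
    have := H1 W 300 1 κ f x ℓ 126 (a * ℓ) (a / ℓ) M hflat hf hℓ hℓ1 (by norm_num)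
      (by rw [h128]; exact jb_closedBall_sub hx (by linarith)) (by positivity) (by positivity) hM.le
      (by rw [h128]; exact hH)
      (by
        rw [h128]; intro y hy
        rw [le_div_iff₀ hℓ, mul_comm]; exact hHS y hy)
      (by rw [h128]; exact hmass)
    refine this.trans (le_of_eq ?_)
    congr 1
    rw [hEb]
    field_simp
    ring
  have hmain := H2 W 300 1 κ f x ℓ 126 (a * ℓ) Eb M hflat hf hℓ hℓ1 (by norm_num)
    (jb_closedBall_sub hx (by linarith)) (by positivity) hEb0 hM.le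
    (jb_Hgt_mono hH (by linarith))
    ((measure_mono (jb_ovr_mono x (by linarith))).trans hmass) hen w A hw hsupp hder
  refine hmain.trans (le_of_eq ?_)
  have hsq : Real.sqrt (M * ℓ ^ m * Eb) = M * ℓ ^ m * a * Real.sqrt (2 * C₁) := by
    have : M * ℓ ^ m * Eb = (M * ℓ ^ m * a) ^ 2 * (2 * C₁) := by rw [hEb]; ring
    rw [this, Real.sqrt_mul (by positivity), Real.sqrt_sq (by positivity)]
  rw [hsq, hEb]
  field_simp

/-! ## `div_vdens_bound` (leaf L-Fit-Fits-rho) -/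

theorem jb_contDiff_inv_vdens (m n : ℕ) :
    ContDiff ℝ ∞ (fun A : E m →L[ℝ] E n => (vdens A)⁻¹) :=
  (v4_contDiff_vdens m n).inv fun A => (vdens_pos A).ne'

/-- uniform bounds of the derivatives of `1 / vdens` on the unit ball. -/
theorem jb_inv_vdens_bound (m n q : ℕ) : ∃ C : ℝ, 0 ≤ C ∧ ∀ i : ℕ, i ≤ q →
    ∀ A : E m →L[ℝ] E n, ‖A‖ ≤ 1 →
      ‖iteratedFDeriv ℝ i (fun A : E m →L[ℝ] E n => (vdens A)⁻¹) A‖ ≤ C := by
  have hK : IsCompact (Metric.closedBall (0 : E m →L[ℝ] E n) 1) := isCompact_closedBall _ _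
  have h1 : ∀ i : ℕ, ∃ C : ℝ, ∀ A ∈ Metric.closedBall (0 : E m →L[ℝ] E n) 1,
      ‖iteratedFDeriv ℝ i (fun A : E m →L[ℝ] E n => (vdens A)⁻¹) A‖ ≤ C := by
    intro i
    have hc : Continuous (iteratedFDeriv ℝ i (fun A : E m →L[ℝ] E n => (vdens A)⁻¹)) :=
      (jb_contDiff_inv_vdens m n).continuous_iteratedFDeriv (by exact_mod_cast le_top)
    obtain ⟨C, hC⟩ := hK.exists_bound_of_continuousOn hc.continuousOn
    exact ⟨C, hC⟩
  choose Cf hCf using h1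
  refine ⟨∑ i ∈ Finset.range (q + 1), |Cf i|, Finset.sum_nonneg fun _ _ => abs_nonneg _, ?_⟩
  intro i hi A hA
  refine ((hCf i A (by simpa using hA)).trans (le_abs_self _)).trans ?_
  exact Finset.single_le_sum (f := fun i => |Cf i|) (fun _ _ => abs_nonneg _)
    (Finset.mem_range.2 (by omega))

theorem div_vdens_bound_aux (m n q : ℕ) : ∃ C : ℝ, 1 ≤ C ∧ ∀ (f ζ : E m → E n) (ℓ A : ℝ), 0 < ℓ →
    ContDiff ℝ (q + 1) f → (∀ i : ℕ, i ≤ q → ∀ y, ℓ ^ i * ‖iteratedFDeriv ℝ (i + 1) f y‖ ≤ 1) →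
    ContDiff ℝ q ζ → (∀ i : ℕ, i ≤ q → ∀ y, ℓ ^ i * ‖iteratedFDeriv ℝ i ζ y‖ ≤ A) →
    ContDiff ℝ q (fun y => (vdens (fderiv ℝ f y))⁻¹ • ζ y) ∧
    ∀ i : ℕ, i ≤ q → ∀ y,
      ℓ ^ i * ‖iteratedFDeriv ℝ i (fun y => (vdens (fderiv ℝ f y))⁻¹ • ζ y) y‖ ≤ C * A := by
  obtain ⟨Cg, hCg0, hCg⟩ := jb_inv_vdens_bound m n q
  refine ⟨1 + 2 ^ q * (q.factorial * Cg), by
    have : 0 ≤ (2 : ℝ) ^ q * (q.factorial * Cg) := by positivity
    linarith, ?_⟩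
  intro f ζ ℓ A hℓ hf hfb hζ hζb
  have hDf : ContDiff ℝ q (fderiv ℝ f) := hf.fderiv_right (le_refl _)
  have hg : ContDiff ℝ q (fun A : E m →L[ℝ] E n => (vdens A)⁻¹) :=
    (jb_contDiff_inv_vdens m n).of_le (by exact_mod_cast le_top)
  have hgf : ContDiff ℝ q (fun y => (vdens (fderiv ℝ f y))⁻¹) := hg.comp hDf
  refine ⟨hgf.smul hζ, ?_⟩
  intro i hi y
  have hA0 : 0 ≤ A := by
    have := hζb 0 (Nat.zero_le _) y
    refine le_trans ?_ this
    positivity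
  have hiq : (i : WithTop ℕ∞) ≤ q := by exact_mod_cast hi
  -- derivatives of the composition
  have hcomp : ∀ j : ℕ, j ≤ q →
      ‖iteratedFDeriv ℝ j (fun y => (vdens (fderiv ℝ f y))⁻¹) y‖ ≤ q.factorial * Cg * (ℓ⁻¹) ^ j := by
    intro j hj
    have hjq : (j : WithTop ℕ∞) ≤ q := by exact_mod_cast hj
    have h1 : ‖fderiv ℝ f y‖ ≤ 1 := by
      have := hfb 0 (Nat.zero_le _) y
      rw [pow_zero, one_mul, zero_add, norm_iteratedFDeriv_one] at this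
      exact this
    have := norm_iteratedFDeriv_comp_le hg hDf hjq y (C := Cg) (D := ℓ⁻¹)
      (fun k hk => hCg k (hk.trans hj) _ h1)
      (fun k _ hk => by
        rw [norm_iteratedFDeriv_fderiv, inv_pow, ← one_div, le_div_iff₀ (by positivity), mul_comm]
        exact hfb k (hk.trans hj) y)
    refine this.trans ?_
    have hfac : (j.factorial : ℝ) ≤ q.factorial := by exact_mod_cast Nat.factorial_le hj
    gcongr
  have hL := norm_iteratedFDeriv_smul_le hgf hζ y hiq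
  have hsum : ∑ j ∈ Finset.range (i + 1), ((i.choose j : ℝ)
        * ‖iteratedFDeriv ℝ j (fun y => (vdens (fderiv ℝ f y))⁻¹) y‖
        * ‖iteratedFDeriv ℝ (i - j) ζ y‖)
      ≤ ∑ j ∈ Finset.range (i + 1), (i.choose j : ℝ) * (q.factorial * Cg * A * (ℓ⁻¹) ^ i) := by
    refine Finset.sum_le_sum fun j hj => ?_
    have hji : j ≤ i := by have := Finset.mem_range.1 hj; omega
    have h2 : ‖iteratedFDeriv ℝ (i - j) ζ y‖ ≤ A * (ℓ⁻¹) ^ (i - j) := by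
      rw [inv_pow, ← div_eq_mul_inv, le_div_iff₀ (by positivity), mul_comm]
      exact hζb (i - j) (by omega) y
    have h3 := hcomp j (hji.trans hi)
    have h4 : (ℓ⁻¹) ^ i = (ℓ⁻¹) ^ j * (ℓ⁻¹) ^ (i - j) := by
      rw [← pow_add]; congr 1; omega
    calc (i.choose j : ℝ) * ‖iteratedFDeriv ℝ j (fun y => (vdens (fderiv ℝ f y))⁻¹) y‖
          * ‖iteratedFDeriv ℝ (i - j) ζ y‖
        ≤ (i.choose j : ℝ) * (q.factorial * Cg * (ℓ⁻¹) ^ j) * (A * (ℓ⁻¹) ^ (i - j)) := by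
          gcongr
      _ = (i.choose j : ℝ) * (q.factorial * Cg * A * (ℓ⁻¹) ^ i) := by rw [h4]; ring
  have hch : ∑ j ∈ Finset.range (i + 1), (i.choose j : ℝ) = 2 ^ i := by
    exact_mod_cast Nat.sum_range_choose i
  rw [← Finset.sum_mul, hch] at hsum
  have h5 : ℓ ^ i * (ℓ⁻¹) ^ i = 1 := by
    rw [← mul_pow, mul_inv_cancel₀ hℓ.ne', one_pow]
  have h6 : (2 : ℝ) ^ i ≤ 2 ^ q := pow_le_pow_right₀ (by norm_num) hi
  calc ℓ ^ i * ‖iteratedFDeriv ℝ i (fun y => (vdens (fderiv ℝ f y))⁻¹ • ζ y) y‖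
      ≤ ℓ ^ i * (2 ^ i * (q.factorial * Cg * A * (ℓ⁻¹) ^ i)) := by
        gcongr
        exact hL.trans hsum
    _ = 2 ^ i * (q.factorial * Cg) * A * (ℓ ^ i * (ℓ⁻¹) ^ i) := by ring
    _ = 2 ^ i * (q.factorial * Cg) * A := by rw [h5, mul_one]
    _ ≤ 2 ^ q * (q.factorial * Cg) * A := by gcongr
    _ ≤ (1 + 2 ^ q * (q.factorial * Cg)) * A := by nlinarith

end Claimed.Agent.R322.Fit.Fits
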