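import Claimed.Agent.R322.Fit.Fits.Energy
import Claimed.Agent.R322.Fit.Fits.StepJB
import Claimed.Agent.R322.Pack059
import Claimed.Agent.R322.Fit.Pde.MssW
import Claimed.Agent.R322.Fit.Pde.Adj
import Claimed.Agent.R322.Fit.Fail.Rs

/-!
# Row 322, Fit/Fits/Step: the blocks of one correction step and of the comparison of two fits   (architect helper118)

START units.  `x` centre (`|x| < 5`), `ℓ ≤ 1` scale, `a` = RELATIVE height (heights are `≤ a ℓ`), `f` the old fit (global, compactly supported, in the Wiener class `VIn s`).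
`VB r ℓ w K` : `w ∈ A^r` and `vAl r ℓ w ≤ K` (real constant).

Blocks (all independent of each other):
* (VB)  API of `VB`: linear rules, change of scale, sup bounds, slopes.
* (EP)  `energy_phys` : `energy_unit` in start units (normal cylinder over the rescaled fit, `D + |M| ≤ C (a² + η²)`, mass comparison `MassC`).
* (JB)  `jac_bound`   : hypothesis (J) of the analytic core: the weak Jacobi estimate with `bJ = C a² ℓ^m / ℓ`.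
* (NS)  `newton_step` : almost minimality of `f + v`.
* (OV)  `pass`, `overlap_core` : comparison of two fits (three passes of PDE-1).
The analytic core (`Fits/Link.lean`, `Fits/Corr.lean`) is helper281's.  The assembly is in `Fits/Core.lean`, the recursion over the scales in `Fits/Main.lean`.
-/

set_option autoImplicit false

open scoped ENNReal ContDiff Topology RealInnerProductSpace
open MeasureTheory

namespace Claimed.Agent.R322.Fit.Fits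

open Claimed.Agent.R322.Tube Claimed.Agent.R322.Freq

variable {m n : ℕ}

/-! ## (VB) bounded elements of the Wiener class   (leaf L-Fit-Fits-VB) -/

/-- `w ∈ A^r` with `vAl r ℓ w ≤ K`. -/
def VB (r : ℕ) (ℓ : ℝ) (w : E m → E n) (K : ℝ) : Prop := VIn r w ∧ vAl r ℓ w ≤ ENNReal.ofReal K

theorem VB.zero (r : ℕ) (ℓ K : ℝ) : VB r ℓ (fun _ : E m => (0 : E n)) K :=
  ⟨VIn.zero r, by rw [vAl_zero_fun]; exact zero_le⟩

theorem VB.mono {r r' : ℕ} {ℓ K K' : ℝ} {w : E m → E n} (h : VB r ℓ w K) (hr : r' ≤ r) (hℓ : 0 ≤ ℓ)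
    (hK : K ≤ K') : VB r' ℓ w K' :=
  ⟨h.1.mono hr, ((vAl_mono hr hℓ w).trans h.2).trans (ENNReal.ofReal_le_ofReal hK)⟩

theorem VB.add {r : ℕ} {ℓ K K' : ℝ} {u v : E m → E n} (hu : VB r ℓ u K) (hv : VB r ℓ v K')
    (hK : 0 ≤ K) (hK' : 0 ≤ K') : VB r ℓ (fun y => u y + v y) (K + K') :=
  ⟨hu.1.add hv.1, (vAl_add_le r ℓ (hu.1.mono (Nat.zero_le _)) (hv.1.mono (Nat.zero_le _))).trans
    (by rw [ENNReal.ofReal_add hK hK']; exact add_le_add hu.2 hv.2)⟩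

theorem VB.sub {r : ℕ} {ℓ K K' : ℝ} {u v : E m → E n} (hu : VB r ℓ u K) (hv : VB r ℓ v K')
    (hK : 0 ≤ K) (hK' : 0 ≤ K') : VB r ℓ (fun y => u y - v y) (K + K') :=
  ⟨hu.1.sub hv.1, (vAl_sub_le r ℓ (hu.1.mono (Nat.zero_le _)) (hv.1.mono (Nat.zero_le _))).trans
    (by rw [ENNReal.ofReal_add hK hK']; exact add_le_add hu.2 hv.2)⟩

/-- smaller scale. -/
theorem VB.scale_down {r : ℕ} {ℓ ℓ' K : ℝ} {w : E m → E n} (h : VB r ℓ w K) (h0 : 0 ≤ ℓ')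
    (hℓ : ℓ' ≤ ℓ) : VB r ℓ' w K :=
  ⟨h.1, (vAl_mono_scale r h0 hℓ w).trans h.2⟩

/-- from the scale `ℓ ≤ 1` to the unit scale (`vAl_mul_scale_le` with `c = 1/ℓ`). -/
theorem VB.scale_one {r : ℕ} {ℓ K : ℝ} {w : E m → E n} (h : VB r ℓ w K) (h0 : 0 < ℓ) (hℓ : ℓ ≤ 1) :
    VB r 1 w (K / ℓ ^ r) := by
  refine ⟨h.1, ?_⟩
  have h1 := vAl_mul_scale_le r h0.le ((one_le_inv₀ h0).2 hℓ) w
  rw [inv_mul_cancel₀ h0.ne'] at h1
  refine h1.trans ((mul_le_mul' le_rfl h.2).trans (le_of_eq ?_))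
  rw [← ENNReal.ofReal_mul (by positivity), inv_pow, div_eq_inv_mul]

/-- sup bounds of the derivatives (`norm_iteratedFDeriv_le_vAl`). -/
theorem VB.sup {r : ℕ} {ℓ K : ℝ} {w : E m → E n} (h : VB r ℓ w K) (hℓ : 0 < ℓ) (hK : 0 ≤ K) {j : ℕ}
    (hj : j ≤ r) (y : E m) : ℓ ^ j * ‖iteratedFDeriv ℝ j w y‖ ≤ (2 * Real.pi) ^ j * K := by
  have hpi := Real.pi_pos
  have h1 := norm_iteratedFDeriv_le_vAl (h.1.mono hj) hℓ y
  have h2 : vAl j ℓ w ≤ ENNReal.ofReal K := (vAl_mono hj hℓ.le w).trans h.2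
  have h3 := h1.trans (mul_le_mul' le_rfl h2)
  rw [← ENNReal.ofReal_mul (by positivity)] at h3
  exact (ENNReal.ofReal_le_ofReal_iff (by positivity)).1 h3

theorem VB.sup0 {r : ℕ} {ℓ K : ℝ} {w : E m → E n} (h : VB r ℓ w K) (hℓ : 0 ≤ ℓ) (hK : 0 ≤ K) (y : E m) :
    ‖w y‖ ≤ K := by
  have h1 := norm_le_vAl (h.1.mono (Nat.zero_le _)) ℓ y
  have h2 : vAl 0 ℓ w ≤ ENNReal.ofReal K := (vAl_mono (Nat.zero_le _) hℓ w).trans h.2
  exact (ENNReal.ofReal_le_ofReal_iff hK).1 (h1.trans h2)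

theorem VB.sup1 {r : ℕ} {ℓ K : ℝ} {w : E m → E n} (h : VB r ℓ w K) (hℓ : 0 < ℓ) (hK : 0 ≤ K)
    (hr : 1 ≤ r) (y : E m) : ℓ * ‖fderiv ℝ w y‖ ≤ 2 * Real.pi * K := by
  have h1 := h.sup hℓ hK hr y
  rwa [pow_one, pow_one, norm_iteratedFDeriv_one] at h1

/-- the slopes (`sAl_le_vAl`). -/
theorem VB.slope {r : ℕ} {ℓ K : ℝ} {w : E m → E n} (h : VB (r + 1) ℓ w K) (hℓ : 0 < ℓ) :
    sAl r ℓ w ≤ ENNReal.ofReal (2 * Real.pi * m * K / ℓ) := by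
  have hpi := Real.pi_pos
  have h1 := sAl_le_vAl r hℓ (h.1.mono (Nat.le_add_left 1 r))
  have h2 := h1.trans (mul_le_mul' le_rfl h.2)
  rw [← ENNReal.ofReal_mul (by positivity)] at h2
  rw [ENNReal.ofReal_div_of_pos hℓ, ENNReal.le_div_iff_mul_le
    (Or.inl (by rw [Ne, ENNReal.ofReal_eq_zero, not_le]; exact hℓ)) (Or.inl ENNReal.ofReal_ne_top),
    mul_comm]
  exact h2

/-- a small element of `A^s` at unit scale is a reference graph, also after the change of units. -/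
theorem VB.geo {s : ℕ} {κ : ℝ} {f : E m → E n} (h : VB s 1 f κ) (hs : 4 ≤ s) (hκ : 0 ≤ κ)
    (hκ' : (2 * Real.pi) ^ s * κ ≤ 1 / 2) : Geo ((2 * Real.pi) ^ s * κ) f := by
  have hpi : 1 ≤ 2 * Real.pi := by linarith [Real.pi_gt_three]
  have key : ∀ j : ℕ, j ≤ s → ∀ y, ‖iteratedFDeriv ℝ j f y‖ ≤ (2 * Real.pi) ^ s * κ := fun j hj y => by
    have h1 := h.sup one_pos hκ hj y
    rw [one_pow, one_mul] at h1
    exact h1.trans (mul_le_mul_of_nonneg_right (pow_le_pow_right₀ hpi hj) hκ)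
  refine ⟨h.1.contDiff.of_le (by exact_mod_cast hs), fun y => ?_, key 2 (by omega), key 3 (by omega),
    by linarith⟩
  rw [← norm_iteratedFDeriv_one]
  exact (key 1 (by omega) y).trans hκ'

theorem VB.refGraph_rs {s : ℕ} {κ : ℝ} {f : E m → E n} (h : VB s 1 f κ) (hs : 1 ≤ s) (hκ : 0 ≤ κ)
    (x : E m) {ℓ : ℝ} (h0 : 0 < ℓ) (hℓ : ℓ ≤ 1) :
    RefGraph s ((2 * Real.pi) ^ s * κ) ((2 * Real.pi) ^ s * κ) (rs x ℓ f) := by
  have hpi : 1 ≤ 2 * Real.pi := by linarith [Real.pi_gt_three]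
  obtain ⟨r1, -, r3⟩ := rs_facts h.1.contDiff x h0
  have key : ∀ j : ℕ, 1 ≤ j → j ≤ s → ∀ y,
      ‖iteratedFDeriv ℝ j (rs x ℓ f) y‖ ≤ (2 * Real.pi) ^ s * κ := fun j hj1 hj y => by
    have h1 := h.sup one_pos hκ hj (x + ℓ • y)
    rw [one_pow, one_mul] at h1
    have h2 := h1.trans (mul_le_mul_of_nonneg_right (pow_le_pow_right₀ hpi hj) hκ)
    rw [r3 j hj1 hj y]
    calc ℓ ^ (j - 1) * ‖iteratedFDeriv ℝ j f (x + ℓ • y)‖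
        ≤ 1 * ‖iteratedFDeriv ℝ j f (x + ℓ • y)‖ :=
          mul_le_mul_of_nonneg_right (pow_le_one₀ h0.le hℓ) (norm_nonneg _)
      _ ≤ _ := by rw [one_mul]; exact h2
  refine ⟨r1, fun y => ?_, fun j hj2 hj y => key j (by omega) hj y⟩
  rw [← norm_iteratedFDeriv_one]
  exact key 1 le_rfl hs y

/-! ## (EP) the energy package in start units   (glue leaf L-Fit-Fits-EP)

PLAN.  `M = (15/4)^m (Q+1) kap m (r+4)^m`; `(J, hc₀')` from `energy_unit m n Q hm hn hQ M r`, `hc₀ = min hc₀' (1/8)`; `(κ₀', σ₀, C')` for `hc`;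
`κ₀ = min κ₀' (1/2000)`, `C = C'` (use `κ ≤ 1`).  `H : Unit0 W f x ℓ (r+4) (a ℓ)` (`good_flat`, `a ≤ 1/8`).
Apply `energy_unit` to `Wp W x ℓ hℓ f`, `R = r+4`, `t = 1/2`, `h = a`, `u`:  `H.flat'`; `|u y| = |rs y| ≤ (1/2000) 140 ≤ 1/8` (mean value inequality);
`H.hgt'` (`a ℓ / ℓ = a`); curvature: `HS u y = HS (rs x ℓ f) y` and `DHSsq u y = DHSsq (rs x ℓ f) y` because `u = rs x ℓ f` near `y` (`Filter.EventuallyEq.fderiv_eq`, twice/three times), `rs_curv`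
(`sqrt (ℓ⁴ D) = ℓ² sqrt D`); mass: `H.measure_eq`, `mass_ovr` with `ρ = (r+4) ℓ`; `H.wmass'`.  Finally `H.massC`. -/

theorem MassC.mono {W : SIV m n} {R t : ℝ} {Q : ℕ} {f : E m → E n} {x : E m} {r c₁ c₂ c₁' c₂' : ℝ}
    (h : MassC W R t Q f x r c₁ c₂) (h₁ : c₁ ≤ c₁') (h₂ : c₂ ≤ c₂') : MassC W R t Q f x r c₁' c₂' := by
  intro G A₀ A₁ hG hs hA₀ hA₁
  have a0 : 0 ≤ A₀ := (abs_nonneg _).trans (hA₀ 0)
  have a1 : 0 ≤ A₁ := (norm_nonneg _).trans (hA₁ 0)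
  exact (h G A₀ A₁ hG hs hA₀ hA₁).trans
    (add_le_add (mul_le_mul_of_nonneg_right h₁ a0) (mul_le_mul_of_nonneg_right h₂ a1))

theorem energy_phys (m n Q : ℕ) (hm : 1 ≤ m) (hn : 1 ≤ n) (hQ : 1 ≤ Q) (r : ℝ) (hr : 1 ≤ r)
    (hr' : r + 4 ≤ 140) :
    ∃ (J : ℕ) (hc₀ : ℝ), 5 ≤ J ∧ 0 < hc₀ ∧ ∀ hc : ℝ, 0 < hc → hc ≤ hc₀ →
      ∃ κ₀ σ₀ C : ℝ, 0 < κ₀ ∧ 0 < σ₀ ∧ 0 < C ∧
      ∀ (W : SIV m n) (eg : ℝ) (x : E m) (ℓ a η κ : ℝ) (hℓ : 0 < ℓ) (f u : E m → E n),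
        IsGood W Q eg → 0 ≤ eg → eg ≤ 1 / 2 → ‖x‖ < 5 → ℓ ≤ 1 → ContDiff ℝ 4 f →
        (∀ y, ‖fderiv ℝ f y‖ ≤ κ) → (∀ y, ‖f y‖ ≤ 1 / 8) → RefGraph J κ κ u → κ ≤ κ₀ →
        (∀ y ∈ Metric.ball (0 : E m) (r + 4), u =ᶠ[𝓝 y] rs x ℓ f) →
        Hgt W 300 1 f x ((r + 4) * ℓ) (a * ℓ) → 0 ≤ a → a ≤ κ₀ →
        (∀ y ∈ Metric.ball x ((r + 4) * ℓ),
          ℓ * ‖HS f y‖ ≤ η ∧ ℓ ^ 2 * Real.sqrt (DHSsq f y) ≤ η) → 0 ≤ η → η ≤ κ₀ →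
        WMass W 300 1 Q x ((r + 4) * ℓ) ℓ σ₀ →
        (∃ N : NCyl m n, N.W = Wp W x ℓ hℓ f ∧ N.u = u ∧ N.Ω = Metric.ball 0 r ∧ N.h = hc ∧
          N.Q = Q ∧ (N.Dm + N.Mabs) (Metric.ball 0 r) ≤ ENNReal.ofReal (C * (a ^ 2 + η ^ 2))) ∧
        MassC W 300 1 Q f x (r * ℓ) (C * (a ^ 2 + η ^ 2) * ℓ ^ m) (C * a * ℓ ^ (m + 1)) := by
  have hkap := kap_pos m
  have hr4 : 0 < r + 4 := by linarith
  obtain ⟨J, hc₀, hJ, hhc₀, hE⟩ := energy_unit m n Q hm hn hQ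
    ((15 / 4) ^ m * (Q + 1) * kap m * (r + 4) ^ m) r (by positivity) hr
  refine ⟨J, min hc₀ (1 / 8), hJ, lt_min hhc₀ (by norm_num), fun hc hhc hhc' => ?_⟩
  obtain ⟨κ₀, σ₀, C, hκ₀, hσ₀, hC, hE⟩ := hE hc hhc (hhc'.trans (min_le_left _ _))
  refine ⟨min κ₀ (1 / 2000), σ₀, C, lt_min hκ₀ (by norm_num), hσ₀, hC, ?_⟩
  intro W eg x ℓ a η κ hℓ f u hW heg0 heg hx hℓ1 hf hfs hfsup hu hκ huf hH ha0 ha hcurv hη0 hη hWM
  have hκ2 : κ ≤ 1 / 2000 := hκ.trans (min_le_right _ _)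
  have hκ0 : 0 ≤ κ := (norm_nonneg _).trans (hfs 0)
  have ha2 : a ≤ 1 / 2000 := ha.trans (min_le_right _ _)
  have hfd : Differentiable ℝ f := hf.differentiable (by norm_num)
  have H : Unit0 W f x ℓ (r + 4) (a * ℓ) :=
    { flat := (good_flat hW heg0 heg).1
      x_lt := hx
      ℓ_pos := hℓ
      ℓ_le := hℓ1
      r_pos := hr4
      r_le := hr'
      diff := hfd
      slope := fun y => (hfs y).trans hκ2
      sup := hfsup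
      hgt := hH
      h_nonneg := by positivity
      h_le := by nlinarith }
  have hueq : ∀ y ∈ Metric.ball (0 : E m) (r + 4), u y = rs x ℓ f y := fun y hy => (huf y hy).eq_of_nhds
  have hmem : ∀ y ∈ Metric.ball (0 : E m) (r + 4), x + ℓ • y ∈ Metric.ball x ((r + 4) * ℓ) := by
    intro y hy
    rw [Metric.mem_ball, dist_zero_right] at hy
    rw [Metric.mem_ball, dist_eq_norm, add_sub_cancel_left, norm_smul, Real.norm_of_nonneg hℓ.le,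
      mul_comm]
    exact mul_lt_mul_of_pos_right hy hℓ
  have hres := hE (Wp W x ℓ hℓ f) (r + 4) (1 / 2) κ a η u H.flat' le_rfl
    (by have := hhc'.trans (min_le_right _ _); linarith) hu (hκ.trans (min_le_left _ _))
    (fun y hy => by
      rw [hueq y hy, rs, norm_smul, norm_inv, Real.norm_of_nonneg hℓ.le]
      have h1 := rg_u_lip hfd hfs (x + ℓ • y) x
      rw [add_sub_cancel_left, norm_smul, Real.norm_of_nonneg hℓ.le] at h1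
      rw [Metric.mem_ball, dist_zero_right] at hy
      have h2 : ℓ⁻¹ * ‖f (x + ℓ • y) - f x‖ ≤ κ * ‖y‖ := by
        rw [inv_mul_le_iff₀ hℓ]
        calc ‖f (x + ℓ • y) - f x‖ ≤ κ * (ℓ * ‖y‖) := h1
          _ = ℓ * (κ * ‖y‖) := by ring
      have h3 : κ * ‖y‖ ≤ 1 / 2000 * 140 :=
        mul_le_mul hκ2 (by linarith) (norm_nonneg _) (by norm_num)
      linarith)
    (by
      have := H.hgt' hueq
      rwa [mul_div_cancel_right₀ _ hℓ.ne'] at this)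
    ha0 (ha.trans (min_le_left _ _))
    (fun y hy => by
      obtain ⟨c1, c2⟩ := rs_curv hf x hℓ y
      obtain ⟨d1, d2⟩ := hcurv _ (hmem y hy)
      rw [Fit.HS_congr (huf y hy), Fit.DHSsq_congr (huf y hy), c1, c2]
      refine ⟨d1, ?_⟩
      rw [Real.sqrt_mul (by positivity), show ℓ ^ 4 = (ℓ ^ 2) ^ 2 by ring,
        Real.sqrt_sq (by positivity)]
      exact d2)
    hη0 (hη.trans (min_le_left _ _))
    (by
      rw [H.measure_eq le_rfl]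
      have h1 := mass_ovr hm hW (by linarith) hfd (fun y => (hfs y).trans (by linarith))
        (fun y => (hfsup y).trans (by norm_num)) hx (ρ := (r + 4) * ℓ) (h := a * ℓ) (by positivity)
        (by nlinarith) (by nlinarith) hH
      refine (mul_le_mul' le_rfl h1).trans (le_of_eq ?_)
      rw [← ENNReal.ofReal_mul (by positivity)]
      congr 1
      rw [mul_pow]
      field_simp)
    (H.wmass' hWM)
  refine ⟨hres.1, ?_⟩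
  have h2 := H.massC (by linarith : r ≤ r + 4) hueq hres.2
  refine h2.mono le_rfl ?_
  have : C * κ * a ≤ C * a := by
    have : κ ≤ 1 := by linarith
    have h3 : 0 ≤ C * a := by positivity
    nlinarith
  exact mul_le_mul_of_nonneg_right this (by positivity)

/-- curvature bounds from almost minimality in the Wiener class (`curv_of_mss`, `VB.sup0`, `VB.sup1`). -/
theorem curv_of_amin {s : ℕ} (hs : 3 ≤ s) {κ : ℝ} {f Ξ : E m → E n} (hf : Geo κ f) {x : E m} {ℓ R b : ℝ}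
    (hℓ : 0 < ℓ) (hℓ1 : ℓ ≤ 1) (hb : 0 ≤ b) (hΞ : VB (s - 2) ℓ Ξ (b / ℓ))
    (h : ∀ y ∈ Metric.ball x R, mssOp f y = Ξ y) :
    ∀ y ∈ Metric.ball x R, ℓ * ‖HS f y‖ ≤ b ∧
      ℓ ^ 2 * Real.sqrt (DHSsq f y) ≤ Real.sqrt m * (3 + 2 * Real.pi) * b := by
  intro y hy
  have hpi := Real.pi_pos
  have hbl : 0 ≤ b / ℓ := by positivity
  have hev : mssOp f =ᶠ[𝓝 y] Ξ := by
    filter_upwards [Metric.isOpen_ball.mem_nhds hy] with y' hy'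
    exact h y' hy'
  have hc1 : ContDiff ℝ 1 Ξ := hΞ.1.contDiff.of_le (by exact_mod_cast (by omega : 1 ≤ s - 2))
  obtain ⟨c1, c2⟩ := curv_of_mss hf hc1 hev
  have s0 : ‖Ξ y‖ ≤ b / ℓ := hΞ.sup0 hℓ.le hbl y
  have s1 : ℓ * ‖fderiv ℝ Ξ y‖ ≤ 2 * Real.pi * (b / ℓ) := hΞ.sup1 hℓ hbl (by omega) y
  have hκ0 : 0 ≤ κ := (norm_nonneg _).trans (hf.d2 y)
  have hκ1 : κ ≤ 1 := hf.le_one
  have s0' : ℓ * ‖Ξ y‖ ≤ b := by
    have := mul_le_mul_of_nonneg_left s0 hℓ.le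
    rwa [mul_div_cancel₀ _ hℓ.ne'] at this
  have s1' : ℓ ^ 2 * ‖fderiv ℝ Ξ y‖ ≤ 2 * Real.pi * b := by
    have := mul_le_mul_of_nonneg_left s1 hℓ.le
    calc ℓ ^ 2 * ‖fderiv ℝ Ξ y‖ = ℓ * (ℓ * ‖fderiv ℝ Ξ y‖) := by ring
      _ ≤ ℓ * (2 * Real.pi * (b / ℓ)) := this
      _ = 2 * Real.pi * b := by field_simp
  refine ⟨(mul_le_mul_of_nonneg_left c1 hℓ.le).trans s0', ?_⟩
  have hsm : 0 ≤ Real.sqrt m := Real.sqrt_nonneg _
  have e1 : ℓ ^ 2 * (3 * κ * ‖Ξ y‖ + ‖fderiv ℝ Ξ y‖) ≤ (3 + 2 * Real.pi) * b := by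
    have a1 : ℓ ^ 2 * (3 * κ * ‖Ξ y‖) ≤ 3 * b := by
      have a2 : κ * ℓ ≤ 1 := by nlinarith
      have a3 : 0 ≤ ℓ * ‖Ξ y‖ := by positivity
      have a4 : (κ * ℓ) * (ℓ * ‖Ξ y‖) ≤ 1 * b := mul_le_mul a2 s0' a3 zero_le_one
      nlinarith
    nlinarith
  calc ℓ ^ 2 * Real.sqrt (DHSsq f y)
      ≤ ℓ ^ 2 * (Real.sqrt m * (3 * κ * ‖Ξ y‖ + ‖fderiv ℝ Ξ y‖)) :=
        mul_le_mul_of_nonneg_left c2 (by positivity)
    _ = Real.sqrt m * (ℓ ^ 2 * (3 * κ * ‖Ξ y‖ + ‖fderiv ℝ Ξ y‖)) := by ring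
    _ ≤ Real.sqrt m * ((3 + 2 * Real.pi) * b) := mul_le_mul_of_nonneg_left e1 hsm
    _ = _ := by ring

/-! ## (JB) the weak Jacobi estimate with explicit right side   (glue leaf L-Fit-Fits-JB)

PLAN.  `M = (15/4)^m (Q+1) kap m 128^m` (`mass_ovr`, `ρ = 128 ℓ`, monotone in the radius for `126 ℓ`), `energyV` with `r = 126`, `h = a ℓ`, `η = a / ℓ`:
`Eb = C₁ M ℓ^m (a² + a²)`; `jacobi_scale` with `r = 126`:  `Eb / ℓ + a ℓ sqrt (M ℓ^m Eb) / ℓ² = (2 C₁ M + M sqrt (2 C₁)) a² ℓ^m / ℓ`. -/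

theorem jac_bound (m n Q : ℕ) (hm : 1 ≤ m) : ∃ C : ℝ, 0 < C ∧
    ∀ (W : SIV m n) (eg : ℝ) (x : E m) (ℓ a κ : ℝ) (f : E m → E n),
      IsGood W Q eg → 0 ≤ eg → eg ≤ 1 / 2 → ‖x‖ < 5 → 0 < ℓ → ℓ ≤ 1 → Geo κ f → (∀ y, ‖f y‖ ≤ 1) →
      Hgt W 300 1 f x (128 * ℓ) (a * ℓ) → 0 ≤ a → a ≤ 1 →
      (∀ y ∈ Metric.ball x (128 * ℓ), ℓ * ‖HS f y‖ ≤ a) →
      ∀ (w : E m → E n) (A : ℝ), ContDiff ℝ 2 w → tsupport w ⊆ Metric.ball x (126 * ℓ) →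
        (∀ j : ℕ, j ≤ 2 → ∀ y, ℓ ^ j * ‖iteratedFDeriv ℝ j w y‖ ≤ A) →
        |∫ X, (⟪zet f X, LL f w (prH m n X)⟫ + ⟪mssOp f (prH m n X), w (prH m n X)⟫)
            ∂(muc W 300 1)| ≤ C * a ^ 2 * ℓ ^ m / ℓ * A :=
  jac_bound_aux m n Q hm

/-! ## (NS) almost minimality after the correction   (glue leaf L-Fit-Fits-NS)

PLAN.  `newton m n (s-2)`: `(σ₁, C₁)`.  `σ₀ = σ₁ / (2 π m + 1)`.  Slopes: `sAl (s-1) ℓ f ≤ sAl (s-1) 1 f ≤ 2 π m σ₀` (`sAl_mono_scale`, `VB.slope`), `sAl (s-1) ℓ v ≤ 2 π m b` (`VB.slope`).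
`Ξ' = ρ + Qn`; on the ball `mssOp (f+v) = mssOp f + op v + Qn = Ξ + (-Ξ + ρ) + Qn`.  `ℓ vAl Qn ≤ C₁ (2 σ₁) (2 π m b)²`. -/

theorem newton_step (m n s : ℕ) (hs : m + 3 ≤ s) : ∃ σ₀ C : ℝ, 0 < σ₀ ∧ 0 ≤ C ∧
    ∀ (f v Ξ ρ : E m → E n) (x : E m) (ℓ R b τ : ℝ), 0 < ℓ → ℓ ≤ 1 → VB s 1 f σ₀ →
      VB s ℓ v (b * ℓ) → 0 ≤ b → b ≤ σ₀ → VB (s - 2) ℓ ρ τ → 0 ≤ τ →
      (∀ y ∈ Metric.ball x R, mssOp f y = Ξ y) →
      (∀ y ∈ Metric.ball x R, (pairCoef f f).op v y = - Ξ y + ρ y) →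
      ∃ Ξ' : E m → E n, VB (s - 2) ℓ Ξ' (τ + C * b ^ 2 / ℓ) ∧
        ∀ y ∈ Metric.ball x R, mssOp (fun y => f y + v y) y = Ξ' y := by
  obtain ⟨r, rfl⟩ : ∃ r, s = r + 2 := ⟨s - 2, by omega⟩
  have er : r + 2 - 2 = r := rfl
  rw [er]
  obtain ⟨σ₁, C₁, hσ₁, hC₁, hN⟩ := newton m n r (by omega)
  have hpi := Real.pi_pos
  have hden : 0 < 2 * Real.pi * m + 1 := by positivity
  refine ⟨σ₁ / (2 * Real.pi * m + 1), C₁ * (2 * σ₁) * (2 * Real.pi * m) ^ 2, by positivity,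
    by positivity, ?_⟩
  intro f v Ξ ρ x ℓ R b τ hℓ hℓ1 hf hv hb hbσ hρ hτ hΞ hop
  have hσ : 2 * Real.pi * m * (σ₁ / (2 * Real.pi * m + 1)) ≤ σ₁ := by
    rw [← mul_div_assoc, div_le_iff₀ hden]
    nlinarith
  have sf : sAl (r + 1) ℓ f ≤ ENNReal.ofReal σ₁ := by
    refine (sAl_mono_scale (r + 1) hℓ.le hℓ1 f).trans ((VB.slope hf one_pos).trans
      (ENNReal.ofReal_le_ofReal ?_))
    rw [div_one]
    exact hσ
  have sv : sAl (r + 1) ℓ v ≤ ENNReal.ofReal (2 * Real.pi * m * b) := by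
    refine (VB.slope hv hℓ).trans (ENNReal.ofReal_le_ofReal (le_of_eq ?_))
    field_simp
  have sv' : sAl (r + 1) ℓ v ≤ ENNReal.ofReal σ₁ := by
    refine sv.trans (ENNReal.ofReal_le_ofReal (le_trans ?_ hσ))
    exact mul_le_mul_of_nonneg_left hbσ (by positivity)
  obtain ⟨Qn, hQ1, hQ2, hQ3⟩ := hN f v ℓ hℓ hf.1 hv.1 sf sv'
  have hQ4 : ENNReal.ofReal ℓ * vAl r ℓ Qn
      ≤ ENNReal.ofReal (C₁ * (2 * σ₁) * (2 * Real.pi * m) ^ 2 * b ^ 2) := by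
    refine hQ3.trans ?_
    calc ENNReal.ofReal C₁ * ((sAl (r + 1) ℓ f + sAl (r + 1) ℓ v) * sAl (r + 1) ℓ v ^ 2)
        ≤ ENNReal.ofReal C₁ * ((ENNReal.ofReal σ₁ + ENNReal.ofReal σ₁)
            * ENNReal.ofReal (2 * Real.pi * m * b) ^ 2) := by gcongr
      _ = ENNReal.ofReal (C₁ * (2 * σ₁) * (2 * Real.pi * m) ^ 2 * b ^ 2) := by
          rw [← ENNReal.ofReal_add hσ₁.le hσ₁.le, ← ENNReal.ofReal_pow (by positivity),
            ← ENNReal.ofReal_mul (by positivity), ← ENNReal.ofReal_mul hC₁]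
          congr 1
          ring
  have hQ5 : vAl r ℓ Qn ≤ ENNReal.ofReal (C₁ * (2 * σ₁) * (2 * Real.pi * m) ^ 2 * b ^ 2 / ℓ) := by
    rw [ENNReal.ofReal_div_of_pos hℓ, ENNReal.le_div_iff_mul_le
      (Or.inl (by rw [Ne, ENNReal.ofReal_eq_zero, not_le]; exact hℓ)) (Or.inl ENNReal.ofReal_ne_top),
      mul_comm]
    exact hQ4
  refine ⟨fun y => ρ y + Qn y, VB.add hρ ⟨hQ1, hQ5⟩ hτ (by positivity), fun y hy => ?_⟩
  rw [hQ2 y, hΞ y hy, hop y hy, add_neg_cancel_left]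

/-! ## (OV) comparison of two fits   (block BP-Fit-Fits-OV)

`d = f₁ - f₂` solves `(pairCoef f₁ f₂).op d = Ξ₁ - Ξ₂` (`mssOp_sub`).

PLAN of `pass`.  Let `ρ₂ = vdens ∘ Df₂`, `ζ` a smooth test in `ball x (R₀ ℓ)` of order `q`, `η = ζ / ρ₂` (class `C^(s-1)`, `ℓ^i |D^i η| ≤ C A`, `i ≤ q`: `div_vdens_bound`), `G = ⟪d, η⟫`:
`sup |G| ≤ C A D`, `sup |DG| ≤ 2 C A D / ℓ`.  `Q cH ∫ ⟪d, ζ⟫ dy = Q ∫ G ρ₂ dμH` (`hausdorff_eq_cH`), `MassC`: `|∫ G(prH X) dμ - Q ∫ G ρ₂| ≤ K a² ℓ^m C A D + K a ℓ^(m+1) 2 C A D / ℓ`,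
`∫ G(prH X) dμ = ∫ ⟪zet f₂, η⟫ - ∫ ⟪zet f₁, η⟫` (`zet f₂ X - zet f₁ X = d (prH X)`; integrability: `integrable_muc`), both moments `≤ K C A a² ℓ^(m+1)`.
So `WeakV q (ball x (R₀ ℓ)) ℓ d (C' (a² ℓ + a D) ℓ^m)`.  `interior m n s q` with `c = pairCoef f₁ f₂` (`pairCoef_small`, slopes by `VB.slope`, `sAl_mono_scale`), `E' = Ξ₁ - Ξ₂`:
`vAl s ℓ (χ_ℓ d) ≤ C (a² ℓ + a D) + C ℓ² 2 K a² / ℓ`;  `χ_ℓ = 1` near every point of `ball x (R₁ ℓ)`, so `D^i d = D^i (χ_ℓ d)` there; `VB.sup`.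
`overlap_core`: `D₀ = (1 + 2π) 2 κ`, three passes `60 > 45 > 30 > 20`: `D₁ ≤ C (a² ℓ + a κ)`, `D₂ ≤ C (a² ℓ + a² κ)`, `D₃ ≤ C (a² ℓ + a³ κ) ≤ 2 C a² ℓ`. -/

/-- bounds for the quotient of a test by the area density (leaf L-Fit-Fits-rho; `norm_iteratedFDeriv_comp_le`/Faa di Bruno with `contDiff_vdens`, `1 ≤ vdens`, compactness of `closedBall 0 1` in `E m →L E n`;
or ask helper281: the same bounds are exported by `Fits/Link.lean`). -/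
theorem div_vdens_bound (m n q : ℕ) : ∃ C : ℝ, 1 ≤ C ∧ ∀ (f ζ : E m → E n) (ℓ A : ℝ), 0 < ℓ →
    ContDiff ℝ (q + 1) f → (∀ i : ℕ, i ≤ q → ∀ y, ℓ ^ i * ‖iteratedFDeriv ℝ (i + 1) f y‖ ≤ 1) →
    ContDiff ℝ q ζ → (∀ i : ℕ, i ≤ q → ∀ y, ℓ ^ i * ‖iteratedFDeriv ℝ i ζ y‖ ≤ A) →
    ContDiff ℝ q (fun y => (vdens (fderiv ℝ f y))⁻¹ • ζ y) ∧
    ∀ i : ℕ, i ≤ q → ∀ y,
      ℓ ^ i * ‖iteratedFDeriv ℝ i (fun y => (vdens (fderiv ℝ f y))⁻¹ • ζ y) y‖ ≤ C * A :=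
  div_vdens_bound_aux m n q

/-- the data of one fit which enter the comparison, at the scale `ℓ` on `ball x (60 ℓ)`. -/
structure CmpIn (W : SIV m n) (s q : ℕ) (x : E m) (ℓ a κ K : ℝ) (f : E m → E n) : Prop where
  reg : VB s 1 f κ
  amin : ∃ Ξ : E m → E n, VB (s - 2) ℓ Ξ (K * a ^ 2 / ℓ) ∧
    ∀ y ∈ Metric.ball x (60 * ℓ), mssOp f y = Ξ y
  moment : ∀ (η : E m → E n) (A : ℝ), ContDiff ℝ q η → tsupport η ⊆ Metric.ball x (60 * ℓ) →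
    (∀ i : ℕ, i ≤ q → ∀ y, ℓ ^ i * ‖iteratedFDeriv ℝ i η y‖ ≤ A) →
    |∫ X, ⟪zet f X, η (prH m n X)⟫ ∂(muc W 300 1)| ≤ K * A * a ^ 2 * ℓ ^ (m + 1)

/-- arithmetic of the weak bound -/
theorem pass_weak_arith {I I₁ J₁ J₂ cH Qr K Cρ A a D ℓ lm : ℝ} (hcH : 0 < cH) (hQ : 1 ≤ Qr) (hK : 0 ≤ K)
    (hCρ : 0 ≤ Cρ) (hA : 0 ≤ A) (ha : 0 ≤ a) (ha1 : a ≤ 1) (hD : 0 ≤ D) (hℓ : 0 < ℓ) (hlm : 0 ≤ lm)
    (h1 : |I₁ - Qr * (cH * I)| ≤ K * a ^ 2 * lm * (D * (Cρ * A)) + K * a * (lm * ℓ) * (2 * D * (Cρ * A) / ℓ))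
    (h2 : I₁ = J₂ - J₁) (h3 : |J₁| ≤ K * (Cρ * A) * a ^ 2 * (lm * ℓ))
    (h4 : |J₂| ≤ K * (Cρ * A) * a ^ 2 * (lm * ℓ)) :
    |I| ≤ (3 * K * Cρ + 1) / cH * (a ^ 2 * ℓ + a * D) * lm * A := by
  have e1 : K * a * (lm * ℓ) * (2 * D * (Cρ * A) / ℓ) = 2 * (K * Cρ * A * lm * (a * D)) := by
    field_simp
  have e2 : K * a ^ 2 * lm * (D * (Cρ * A)) ≤ K * Cρ * A * lm * (a * D) := by
    have : a ^ 2 ≤ a := by nlinarith
    calc K * a ^ 2 * lm * (D * (Cρ * A)) = K * Cρ * A * lm * (a ^ 2 * D) := by ring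
      _ ≤ K * Cρ * A * lm * (a * D) := by gcongr
  have e3 : |I₁| ≤ 2 * (K * Cρ * A * lm * (a ^ 2 * ℓ)) := by
    rw [h2]
    have := abs_sub J₂ J₁
    have e : K * (Cρ * A) * a ^ 2 * (lm * ℓ) = K * Cρ * A * lm * (a ^ 2 * ℓ) := by ring
    rw [e] at h3 h4
    linarith
  have e4 : |Qr * (cH * I)| ≤ 3 * (K * Cρ * A * lm * (a ^ 2 * ℓ + a * D)) := by
    have t1 : |Qr * (cH * I)| ≤ |I₁ - Qr * (cH * I)| + |I₁| := by
      have := abs_sub_abs_le_abs_sub (Qr * (cH * I)) I₁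
      rw [abs_sub_comm] at this
      linarith
    have t2 : 0 ≤ K * Cρ * A * lm * (a ^ 2 * ℓ) := by positivity
    have t3 : K * Cρ * A * lm * (a ^ 2 * ℓ + a * D)
        = K * Cρ * A * lm * (a ^ 2 * ℓ) + K * Cρ * A * lm * (a * D) := by ring
    rw [t3]
    linarith
  have e5 : cH * |I| ≤ |Qr * (cH * I)| := by
    rw [abs_mul, abs_mul, abs_of_pos hcH, abs_of_pos (by linarith : 0 < Qr)]
    have : 0 ≤ cH * |I| := by positivity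
    nlinarith
  have e6 : (3 * K * Cρ + 1) / cH * (a ^ 2 * ℓ + a * D) * lm * A
      = (3 * (K * Cρ * A * lm * (a ^ 2 * ℓ + a * D)) + (a ^ 2 * ℓ + a * D) * lm * A) / cH := by
    field_simp
  rw [e6, le_div_iff₀ hcH]
  have e7 : 0 ≤ (a ^ 2 * ℓ + a * D) * lm * A := by positivity
  linarith

/-- the weak bound of the difference of two fits -/
theorem pass_weak (m n Q q : ℕ) (hQ : 1 ≤ Q) (hq : 1 ≤ q) (K : ℝ) (hK : 0 ≤ K) :
    ∃ C : ℝ, 0 < C ∧ ∀ (s : ℕ) (W : SIV m n) (x : E m) (ℓ a κ D R₀ : ℝ) (f₁ f₂ : E m → E n), q + 1 ≤ s →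
      Flat W 300 1 → ‖x‖ < 5 → 0 < ℓ → ℓ ≤ 1 → 0 ≤ a → a ≤ 1 → 0 ≤ κ →
      (2 * Real.pi) ^ (q + 1) * κ ≤ 1 → 0 < R₀ → R₀ ≤ 60 →
      CmpIn W s q x ℓ a κ K f₁ → CmpIn W s q x ℓ a κ K f₂ →
      MassC W 300 1 Q f₂ x (60 * ℓ) (K * a ^ 2 * ℓ ^ m) (K * a * ℓ ^ (m + 1)) →
      (∀ y ∈ Metric.ball x (R₀ * ℓ), ‖f₁ y - f₂ y‖ + ℓ * ‖fderiv ℝ (fun y => f₁ y - f₂ y) y‖ ≤ D) →
      WeakV q (Metric.ball x (R₀ * ℓ)) ℓ (fun y => f₁ y - f₂ y) (C * (a ^ 2 * ℓ + a * D) * ℓ ^ m) := by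
  obtain ⟨Cρ, hCρ, Hρ⟩ := div_vdens_bound m n q
  have hcH := cH_pos m
  refine ⟨(3 * K * Cρ + 1) / cH m, by positivity, ?_⟩
  intro s W x ℓ a κ D R₀ f₁ f₂ hs hW hx hℓ hℓ1 ha ha1 hκ hκ1 hR₀ hR60 h₁ h₂ hM hD ζ A hζ
  have hA : 0 ≤ A := hζ.nonneg
  have hD0 : 0 ≤ D :=
    le_trans (add_nonneg (norm_nonneg _) (mul_nonneg hℓ.le (norm_nonneg _)))
      (hD x (Metric.mem_ball_self (by positivity)))
  set d : E m → E n := fun y => f₁ y - f₂ y with hd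
  have hf₁ : ContDiff ℝ s f₁ := h₁.reg.1.contDiff
  have hf₂ : ContDiff ℝ s f₂ := h₂.reg.1.contDiff
  have hdC : ContDiff ℝ s d := hf₁.sub hf₂
  have hd1 : ContDiff ℝ 1 d := hdC.of_le (by exact_mod_cast (by omega : 1 ≤ s))
  have hpi : (1 : ℝ) ≤ 2 * Real.pi := by
    have := Real.pi_gt_three
    linarith
  have hf₂b : ∀ i : ℕ, i ≤ q → ∀ y, ℓ ^ i * ‖iteratedFDeriv ℝ (i + 1) f₂ y‖ ≤ 1 := by
    intro i hi y
    have e1 := h₂.reg.sup one_pos hκ (j := i + 1) (by omega) y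
    rw [one_pow, one_mul] at e1
    have e2 : (2 * Real.pi) ^ (i + 1) * κ ≤ (2 * Real.pi) ^ (q + 1) * κ := by
      gcongr
    have e3 : ℓ ^ i ≤ 1 := pow_le_one₀ hℓ.le hℓ1
    calc ℓ ^ i * ‖iteratedFDeriv ℝ (i + 1) f₂ y‖ ≤ 1 * 1 :=
          mul_le_mul e3 (by linarith) (norm_nonneg _) zero_le_one
      _ = 1 := one_mul 1
  obtain ⟨hηC, hηb⟩ := Hρ f₂ ζ ℓ A hℓ (hf₂.of_le (by exact_mod_cast hs)) hf₂b
    (hζ.smooth.of_le (by exact_mod_cast le_top)) hζ.bound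
  set η : E m → E n := fun y => (vdens (fderiv ℝ f₂ y))⁻¹ • ζ y with hη
  have hη1C : ContDiff ℝ 1 η := hηC.of_le (by exact_mod_cast hq)
  have hηsupp : tsupport η ⊆ tsupport ζ := tsupport_smul_subset_right _ _
  have hO60 : Metric.ball x (R₀ * ℓ) ⊆ Metric.ball x (60 * ℓ) :=
    Metric.ball_subset_ball (by gcongr)
  have hηz : ∀ y, y ∉ Metric.ball x (R₀ * ℓ) → η y = 0 := fun y hy =>
    image_eq_zero_of_notMem_tsupport (fun h => hy (hζ.supp (hηsupp h)))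
  set G : E m → ℝ := fun y => ⟪d y, η y⟫ with hG
  have hG1 : ContDiff ℝ 1 G := hd1.inner ℝ hη1C
  have hGsupp : tsupport G ⊆ tsupport ζ := by
    refine closure_minimal (fun y hy => hηsupp (subset_tsupport _ ?_)) (isClosed_tsupport ζ)
    intro h0
    apply hy
    show ⟪d y, η y⟫ = 0
    rw [h0, inner_zero_right]
  have hη0 : ∀ y, ‖η y‖ ≤ Cρ * A := fun y => by
    have := hηb 0 (Nat.zero_le _) y
    rwa [pow_zero, one_mul, norm_iteratedFDeriv_zero] at this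
  have hη1 : ∀ y, ℓ * ‖fderiv ℝ η y‖ ≤ Cρ * A := fun y => by
    have := hηb 1 hq y
    rwa [pow_one, norm_iteratedFDeriv_one] at this
  have hCA : 0 ≤ Cρ * A := by positivity
  have hG0 : ∀ y, |G y| ≤ D * (Cρ * A) := by
    intro y
    by_cases hy : y ∈ Metric.ball x (R₀ * ℓ)
    · have e1 : ‖d y‖ ≤ D :=
        le_trans (le_add_of_nonneg_right (mul_nonneg hℓ.le (norm_nonneg _))) (hD y hy)
      exact (abs_real_inner_le_norm _ _).trans (mul_le_mul e1 (hη0 y) (norm_nonneg _) hD0)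
    · have : G y = 0 := by
        show ⟪d y, η y⟫ = 0
        rw [hηz y hy, inner_zero_right]
      rw [this, abs_zero]
      positivity
  have hG1' : ∀ y, ‖fderiv ℝ G y‖ ≤ 2 * D * (Cρ * A) / ℓ := by
    intro y
    by_cases hy : y ∈ Metric.ball x (R₀ * ℓ)
    · have e1 : ‖d y‖ ≤ D :=
        le_trans (le_add_of_nonneg_right (mul_nonneg hℓ.le (norm_nonneg _))) (hD y hy)
      have e2 : ℓ * ‖fderiv ℝ d y‖ ≤ D :=
        le_trans (le_add_of_nonneg_left (norm_nonneg _)) (hD y hy)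
      have e2' : ‖fderiv ℝ d y‖ ≤ D / ℓ := by
        rw [le_div_iff₀ hℓ]
        linarith
      have e3 : ‖fderiv ℝ η y‖ ≤ Cρ * A / ℓ := by
        rw [le_div_iff₀ hℓ]
        linarith [hη1 y]
      refine ContinuousLinearMap.opNorm_le_bound _ (by positivity) (fun v => ?_)
      have e4 : fderiv ℝ G y v = ⟪d y, fderiv ℝ η y v⟫ + ⟪fderiv ℝ d y v, η y⟫ :=
        fderiv_inner_apply ℝ (hd1.differentiable one_ne_zero y) (hη1C.differentiable one_ne_zero y) v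
      rw [e4]
      have t1 : ‖⟪d y, fderiv ℝ η y v⟫‖ ≤ D * (Cρ * A / ℓ * ‖v‖) :=
        (norm_inner_le_norm _ _).trans (mul_le_mul e1
          (((fderiv ℝ η y).le_opNorm v).trans (by gcongr)) (norm_nonneg _) hD0)
      have t2 : ‖⟪fderiv ℝ d y v, η y⟫‖ ≤ D / ℓ * ‖v‖ * (Cρ * A) :=
        (norm_inner_le_norm _ _).trans (mul_le_mul
          (((fderiv ℝ d y).le_opNorm v).trans (by gcongr)) (hη0 y) (norm_nonneg _) (by positivity))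
      calc ‖⟪d y, fderiv ℝ η y v⟫ + ⟪fderiv ℝ d y v, η y⟫‖
          ≤ D * (Cρ * A / ℓ * ‖v‖) + D / ℓ * ‖v‖ * (Cρ * A) := (norm_add_le _ _).trans (add_le_add t1 t2)
        _ = 2 * D * (Cρ * A) / ℓ * ‖v‖ := by ring
    · have : fderiv ℝ G y = 0 :=
        image_eq_zero_of_notMem_tsupport
          (fun hc => hy (hζ.supp (hGsupp (tsupport_fderiv_subset ℝ hc))))
      rw [this, norm_zero]
      positivity
  have hMG := hM G (D * (Cρ * A)) (2 * D * (Cρ * A) / ℓ) hG1 (hGsupp.trans (hζ.supp.trans hO60)) hG0 hG1'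
  -- the reference integral
  have hI2 : ∫ y, G y * vdens (fderiv ℝ f₂ y) ∂(μH[(m : ℝ)] : Measure (E m)) = cH m * ∫ y, ⟪d y, ζ y⟫ := by
    have e : (fun y => G y * vdens (fderiv ℝ f₂ y)) = fun y => ⟪d y, ζ y⟫ := by
      funext y
      have hv : vdens (fderiv ℝ f₂ y) ≠ 0 := (lt_of_lt_of_le one_pos (Base.Exit.one_le_vdens _)).ne'
      show ⟪d y, (vdens (fderiv ℝ f₂ y))⁻¹ • ζ y⟫ * vdens (fderiv ℝ f₂ y) = _
      rw [inner_smul_right]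
      field_simp
    rw [e, hausdorff_eq_cH, integral_smul_measure, ENNReal.toReal_ofReal hcH.le, smul_eq_mul]
  -- the moments
  have hKc : IsCompact (tsupport ζ) := idn_isCompact_tsupport hζ.supp
  have hKR : tsupport ζ ⊆ Metric.ball (0 : E m) 300 := by
    refine hζ.supp.trans fun y hy => ?_
    rw [Metric.mem_ball, dist_eq_norm] at hy
    rw [mem_ball_zero_iff]
    have e1 : ‖y‖ ≤ ‖y - x‖ + ‖x‖ := by simpa using norm_add_le (y - x) x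
    have e2 : R₀ * ℓ ≤ 60 * 1 := by gcongr
    linarith
  have hint : ∀ f : E m → E n, Continuous f →
      Integrable (fun X => ⟪zet f X, η (prH m n X)⟫) (muc W 300 1) := by
    intro f hf
    refine idn_integrable_cont hW hKc hKR ?_ (fun X hX => ?_)
    · have hz : Continuous (zet f) := by
        unfold zet
        exact (prV m n).continuous.sub (hf.comp (prH m n).continuous)
      exact hz.inner (hηC.continuous.comp (prH m n).continuous)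
    · rw [image_eq_zero_of_notMem_tsupport (fun h => hX (hηsupp h)), inner_zero_right]
  have hI1 : ∫ X, G (prH m n X) ∂(muc W 300 1)
      = ∫ X, ⟪zet f₂ X, η (prH m n X)⟫ ∂(muc W 300 1) - ∫ X, ⟪zet f₁ X, η (prH m n X)⟫ ∂(muc W 300 1) := by
    rw [← integral_sub (hint f₂ hf₂.continuous) (hint f₁ hf₁.continuous)]
    refine integral_congr_ae (Filter.Eventually.of_forall fun X => ?_)
    show ⟪d (prH m n X), η (prH m n X)⟫ = ⟪zet f₂ X, η (prH m n X)⟫ - ⟪zet f₁ X, η (prH m n X)⟫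
    rw [← inner_sub_left]
    congr 1
    simp only [zet, hd]
    abel
  have hm₁ := h₁.moment η (Cρ * A) hηC (hηsupp.trans (hζ.supp.trans hO60)) hηb
  have hm₂ := h₂.moment η (Cρ * A) hηC (hηsupp.trans (hζ.supp.trans hO60)) hηb
  rw [hI2, pow_succ] at hMG
  rw [pow_succ] at hm₁ hm₂
  exact pass_weak_arith hcH (by exact_mod_cast hQ) hK (by linarith) hA ha ha1 hD0 hℓ (by positivity)
    hMG hI1 hm₁ hm₂

/-- **one pass**: a sup bound `D` of `|d| + ℓ |Dd|` on the larger ball improves to `C (a² ℓ + a D)` (all derivatives) on the smaller ball. -/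
theorem pass (m n Q s q : ℕ) (hQ : 1 ≤ Q) (hq : 1 ≤ q) (hs : q + m + 4 ≤ s) (K R₁ R₀ : ℝ) (hK : 0 ≤ K)
    (h1 : 0 < R₁) (h0 : R₁ < R₀) (h60 : R₀ ≤ 60) :
    ∃ κ₀ C : ℝ, 0 < κ₀ ∧ 0 < C ∧ ∀ (W : SIV m n) (x : E m) (ℓ a κ D : ℝ) (f₁ f₂ : E m → E n),
      Flat W 300 1 → ‖x‖ < 5 → 0 < ℓ → ℓ ≤ 1 → 0 ≤ a → a ≤ 1 → 0 ≤ κ → κ ≤ κ₀ →
      CmpIn W s q x ℓ a κ K f₁ → CmpIn W s q x ℓ a κ K f₂ →
      MassC W 300 1 Q f₂ x (60 * ℓ) (K * a ^ 2 * ℓ ^ m) (K * a * ℓ ^ (m + 1)) →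
      (∀ y ∈ Metric.ball x (R₀ * ℓ), ‖f₁ y - f₂ y‖ + ℓ * ‖fderiv ℝ (fun y => f₁ y - f₂ y) y‖ ≤ D) →
      ∀ i : ℕ, i ≤ s → ∀ y ∈ Metric.ball x (R₁ * ℓ),
        ℓ ^ i * ‖iteratedFDeriv ℝ i (fun y => f₁ y - f₂ y) y‖ ≤ C * (a ^ 2 * ℓ + a * D) := by
  obtain ⟨Cw, hCw, Hw⟩ := pass_weak m n Q q hQ hq K hK
  obtain ⟨χ, Ci, hχ, hχs, hχ1, hχ01, hCi, Hi⟩ := interior m n s q hs R₁ R₀ h1 h0
  obtain ⟨σ₀, Cp, hσ₀, hCp, Hp⟩ := pairCoef_small m n (s - 2) (by omega)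
  have hpi : (1 : ℝ) ≤ 2 * Real.pi := by
    have := Real.pi_gt_three
    linarith
  have hpi0 : (0 : ℝ) < 2 * Real.pi := by linarith
  set t₀ := min σ₀ (1 / (16 * Cp + 1)) with ht₀
  have ht₀0 : 0 < t₀ := lt_min hσ₀ (by positivity)
  refine ⟨min (1 / (2 * Real.pi) ^ (q + 1)) (t₀ / (2 * Real.pi * m + 1)),
    (2 * Real.pi) ^ s * (Ci * Cw + 2 * K * Ci) + 1,
    lt_min (by positivity) (div_pos ht₀0 (by positivity)), by positivity, ?_⟩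
  intro W x ℓ a κ D f₁ f₂ hW hx hℓ hℓ1 ha ha1 hκ hκ₀ c₁ c₂ hM hD i hi y hy
  have hD0 : 0 ≤ D :=
    le_trans (add_nonneg (norm_nonneg _) (mul_nonneg hℓ.le (norm_nonneg _)))
      (hD x (Metric.mem_ball_self (mul_pos (h1.trans h0) hℓ)))
  have hκa : (2 * Real.pi) ^ (q + 1) * κ ≤ 1 := by
    have e1 := hκ₀.trans (min_le_left _ _)
    rw [le_div_iff₀ (by positivity)] at e1
    linarith
  set t := 2 * Real.pi * m * κ with ht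
  have ht0 : 0 ≤ t := by positivity
  have htt : t ≤ t₀ := by
    have e1 := hκ₀.trans (min_le_right _ _)
    rw [le_div_iff₀ (by positivity)] at e1
    rw [ht]
    linarith
  have htσ : t ≤ σ₀ := htt.trans (min_le_left _ _)
  have htC : 16 * Cp * t ^ 2 ≤ 1 := by
    have e1 : t ≤ 1 / (16 * Cp + 1) := htt.trans (min_le_right _ _)
    rw [le_div_iff₀ (by positivity)] at e1
    have e2 : t ≤ 1 := by nlinarith
    have e3 : t ^ 2 ≤ t := by nlinarith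
    have e4 : 16 * Cp * t ^ 2 ≤ 16 * Cp * t := by gcongr
    nlinarith
  have hweak := Hw s W x ℓ a κ D R₀ f₁ f₂ (by omega) hW hx hℓ hℓ1 ha ha1 hκ hκa (h1.trans h0) h60
    c₁ c₂ hM hD
  -- the coefficients
  have es2 : s - 2 + 2 = s := by omega
  have es1 : s - 2 + 1 = s - 1 := by omega
  have es0 : s - 1 + 1 = s := by omega
  have hsl : ∀ f : E m → E n, VB s 1 f κ → sAl (s - 2 + 1) ℓ f ≤ ENNReal.ofReal t := by
    intro f hf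
    rw [es1]
    have hf' : VB (s - 1 + 1) 1 f κ := by rwa [es0]
    refine (sAl_mono_scale (s - 1) hℓ.le hℓ1 f).trans ((hf'.slope one_pos).trans (le_of_eq ?_))
    rw [div_one]
  have hV : ∀ f : E m → E n, VB s 1 f κ → VIn (s - 2 + 2) f := fun f hf => by
    rw [es2]
    exact hf.1
  obtain ⟨hreg, hsize⟩ := Hp f₁ f₂ ℓ hℓ (hV f₁ c₁.reg) (hV f₂ c₂.reg)
    ((hsl f₁ c₁.reg).trans (ENNReal.ofReal_le_ofReal htσ))
    ((hsl f₂ c₂.reg).trans (ENNReal.ofReal_le_ofReal htσ))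
  have hsize' : (pairCoef f₁ f₂).sizel (s - 2) ℓ ≤ 1 / 4 := by
    refine hsize.trans ?_
    calc ENNReal.ofReal Cp * (sAl (s - 2 + 1) ℓ f₁ + sAl (s - 2 + 1) ℓ f₂) ^ 2
        ≤ ENNReal.ofReal Cp * (ENNReal.ofReal t + ENNReal.ofReal t) ^ 2 := by
          gcongr
          · exact hsl f₁ c₁.reg
          · exact hsl f₂ c₂.reg
      _ = ENNReal.ofReal (Cp * (t + t) ^ 2) := by
          rw [← ENNReal.ofReal_add ht0 ht0, ← ENNReal.ofReal_pow (by positivity),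
            ← ENNReal.ofReal_mul hCp]
      _ ≤ ENNReal.ofReal (1 / 4) := by
          refine ENNReal.ofReal_le_ofReal ?_
          nlinarith
      _ = 1 / 4 := by
          rw [ENNReal.ofReal_div_of_pos (by norm_num)]
          simp
  -- the equation
  obtain ⟨Ξ₁, hΞ₁, hE₁⟩ := c₁.amin
  obtain ⟨Ξ₂, hΞ₂, hE₂⟩ := c₂.amin
  have hKa : 0 ≤ K * a ^ 2 / ℓ := by positivity
  have hE' := hΞ₁.sub hΞ₂ hKa hKa
  have hf₁2 : ContDiff ℝ 2 f₁ := c₁.reg.1.contDiff.of_le (by exact_mod_cast (by omega : 2 ≤ s))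
  have hf₂2 : ContDiff ℝ 2 f₂ := c₂.reg.1.contDiff.of_le (by exact_mod_cast (by omega : 2 ≤ s))
  have hO60 : Metric.ball x (R₀ * ℓ) ⊆ Metric.ball x (60 * ℓ) :=
    Metric.ball_subset_ball (by gcongr)
  have heq : ∀ y ∈ Metric.ball x (R₀ * ℓ),
      (pairCoef f₁ f₂).op (fun y => f₁ y - f₂ y) y = Ξ₁ y - Ξ₂ y := by
    intro y hy
    rw [← mssOp_sub hf₁2 hf₂2 y, hE₁ y (hO60 hy), hE₂ y (hO60 hy)]
  have hdV : VIn s (fun y => f₁ y - f₂ y) := c₁.reg.1.sub c₂.reg.1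
  have key := Hi x ℓ hℓ (pairCoef f₁ f₂) hreg hsize' (fun y => f₁ y - f₂ y) (fun y => Ξ₁ y - Ξ₂ y)
    (Cw * (a ^ 2 * ℓ + a * D) * ℓ ^ m) hdV hE'.1 heq hweak
  set K' := Ci * Cw * (a ^ 2 * ℓ + a * D) + 2 * K * Ci * (a ^ 2 * ℓ) with hK'
  have hK'0 : 0 ≤ K' := by positivity
  have hVB : VB s ℓ (fun y => Uz x ℓ χ y • (f₁ y - f₂ y)) K' := by
    refine ⟨hdV.smul_smooth ?_, key.trans ?_⟩
    · unfold Uz
      exact hχ.comp (by fun_prop)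
    · calc ENNReal.ofReal (Ci * (Cw * (a ^ 2 * ℓ + a * D) * ℓ ^ m / ℓ ^ m))
            + ENNReal.ofReal (Ci * ℓ ^ 2) * vAl (s - 2) ℓ (fun y => Ξ₁ y - Ξ₂ y)
          ≤ ENNReal.ofReal (Ci * (Cw * (a ^ 2 * ℓ + a * D) * ℓ ^ m / ℓ ^ m))
            + ENNReal.ofReal (Ci * ℓ ^ 2) * ENNReal.ofReal (K * a ^ 2 / ℓ + K * a ^ 2 / ℓ) := by
            gcongr
            exact hE'.2
        _ = ENNReal.ofReal K' := by
            rw [← ENNReal.ofReal_mul (by positivity), ← ENNReal.ofReal_add (by positivity) (by positivity)]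
            congr 1
            rw [hK']
            field_simp
            ring
  have hsup := hVB.sup hℓ hK'0 hi y
  have hloc : (fun y => Uz x ℓ χ y • (f₁ y - f₂ y)) =ᶠ[𝓝 y] fun y => f₁ y - f₂ y := by
    have e1 : ℓ⁻¹ • (y - x) ∈ Metric.closedBall (0 : E m) R₁ :=
      Metric.ball_subset_closedBall (mem_ball_unzoom hℓ hy)
    have e2 := hχ1 _ e1
    have hc : ContinuousAt (fun y : E m => ℓ⁻¹ • (y - x)) y := by fun_prop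
    have e3 := hc.eventually e2
    filter_upwards [e3] with z hz
    have : Uz x ℓ χ z = 1 := hz
    rw [this, one_smul]
  rw [(hloc.iteratedFDeriv ℝ i).eq_of_nhds] at hsup
  refine hsup.trans ?_
  have e1 : (2 * Real.pi) ^ i ≤ (2 * Real.pi) ^ s := pow_le_pow_right₀ hpi hi
  have e2 : K' ≤ (Ci * Cw + 2 * K * Ci) * (a ^ 2 * ℓ + a * D) := by
    rw [hK']
    have : 0 ≤ 2 * K * Ci * (a * D) := by positivity
    nlinarith
  have e3 : 0 ≤ a ^ 2 * ℓ + a * D := by positivity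
  calc (2 * Real.pi) ^ i * K' ≤ (2 * Real.pi) ^ s * ((Ci * Cw + 2 * K * Ci) * (a ^ 2 * ℓ + a * D)) := by
        gcongr
    _ = (2 * Real.pi) ^ s * (Ci * Cw + 2 * K * Ci) * (a ^ 2 * ℓ + a * D) := by ring
    _ ≤ ((2 * Real.pi) ^ s * (Ci * Cw + 2 * K * Ci) + 1) * (a ^ 2 * ℓ + a * D) := by
        gcongr
        linarith

/-- **comparison of two fits.** -/
theorem overlap_core (m n Q s q : ℕ) (hQ : 1 ≤ Q) (hq : 1 ≤ q) (hs : q + m + 4 ≤ s) (K : ℝ)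
    (hK : 0 ≤ K) :
    ∃ κ₀ C : ℝ, 0 < κ₀ ∧ 0 < C ∧ ∀ (W : SIV m n) (x : E m) (ℓ a κ : ℝ) (f₁ f₂ : E m → E n),
      Flat W 300 1 → ‖x‖ < 5 → 0 < ℓ → ℓ ≤ 1 → 0 ≤ a → a ≤ 1 → 0 ≤ κ → κ ≤ κ₀ → a * κ ≤ ℓ →
      CmpIn W s q x ℓ a κ K f₁ → CmpIn W s q x ℓ a κ K f₂ →
      MassC W 300 1 Q f₂ x (60 * ℓ) (K * a ^ 2 * ℓ ^ m) (K * a * ℓ ^ (m + 1)) →
      ∀ i : ℕ, i ≤ s → ∀ y ∈ Metric.ball x (20 * ℓ),
        ℓ ^ i * ‖iteratedFDeriv ℝ i (fun y => f₁ y - f₂ y) y‖ ≤ C * a ^ 2 * ℓ := by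
  obtain ⟨κ₁, C₁, hκ₁, hC₁, H₁⟩ :=
    pass m n Q s q hQ hq hs K 45 60 hK (by norm_num) (by norm_num) le_rfl
  obtain ⟨κ₂, C₂, hκ₂, hC₂, H₂⟩ :=
    pass m n Q s q hQ hq hs K 30 45 hK (by norm_num) (by norm_num) (by norm_num)
  obtain ⟨κ₃, C₃, hκ₃, hC₃, H₃⟩ :=
    pass m n Q s q hQ hq hs K 20 30 hK (by norm_num) (by norm_num) (by norm_num)
  have hpi := Real.pi_pos
  set P := 2 * (1 + 2 * Real.pi) with hP
  have hP0 : 0 < P := by positivity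
  refine ⟨min κ₁ (min κ₂ κ₃), C₃ * (1 + 2 * C₂ * (1 + 2 * C₁ * (1 + P))),
    lt_min hκ₁ (lt_min hκ₂ hκ₃), by positivity, ?_⟩
  intro W x ℓ a κ f₁ f₂ hW hx hℓ hℓ1 ha ha1 hκ hκ₀ haκ c₁ c₂ hM
  have hk₁ : κ ≤ κ₁ := hκ₀.trans (min_le_left _ _)
  have hk₂ : κ ≤ κ₂ := hκ₀.trans ((min_le_right _ _).trans (min_le_left _ _))
  have hk₃ : κ ≤ κ₃ := hκ₀.trans ((min_le_right _ _).trans (min_le_right _ _))
  have ha2 : a ^ 2 ≤ a := by nlinarith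
  have ha21 : a ^ 2 ≤ 1 := ha2.trans ha1
  have hstep : ∀ R B : ℝ, (∀ i : ℕ, i ≤ s → ∀ y ∈ Metric.ball x (R * ℓ),
      ℓ ^ i * ‖iteratedFDeriv ℝ i (fun y => f₁ y - f₂ y) y‖ ≤ B) →
      ∀ y ∈ Metric.ball x (R * ℓ),
        ‖f₁ y - f₂ y‖ + ℓ * ‖fderiv ℝ (fun y => f₁ y - f₂ y) y‖ ≤ 2 * B := by
    intro R B h y hy
    have e0 := h 0 (Nat.zero_le _) y hy
    have e1 := h 1 (by omega) y hy
    rw [pow_zero, one_mul, norm_iteratedFDeriv_zero] at e0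
    rw [pow_one, norm_iteratedFDeriv_one] at e1
    linarith
  have hD₀ : ∀ y ∈ Metric.ball x (60 * ℓ),
      ‖f₁ y - f₂ y‖ + ℓ * ‖fderiv ℝ (fun y => f₁ y - f₂ y) y‖ ≤ P * κ := by
    intro y _
    have a1 := c₁.reg.sup0 zero_le_one hκ y
    have a2 := c₂.reg.sup0 zero_le_one hκ y
    have b1 := c₁.reg.sup1 one_pos hκ (by omega) y
    have b2 := c₂.reg.sup1 one_pos hκ (by omega) y
    rw [one_mul] at b1 b2
    have hd₁ : DifferentiableAt ℝ f₁ y :=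
      (c₁.reg.1.contDiff.differentiable (by exact_mod_cast (by omega : s ≠ 0))) y
    have hd₂ : DifferentiableAt ℝ f₂ y :=
      (c₂.reg.1.contDiff.differentiable (by exact_mod_cast (by omega : s ≠ 0))) y
    rw [fderiv_fun_sub hd₁ hd₂]
    have e1 := norm_sub_le (f₁ y) (f₂ y)
    have e2 := norm_sub_le (fderiv ℝ f₁ y) (fderiv ℝ f₂ y)
    have e3 : ℓ * ‖fderiv ℝ f₁ y - fderiv ℝ f₂ y‖ ≤ 1 * (2 * Real.pi * κ + 2 * Real.pi * κ) :=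
      mul_le_mul hℓ1 (by linarith) (norm_nonneg _) zero_le_one
    rw [hP]
    linarith
  -- first pass
  have h₁ : ∀ i : ℕ, i ≤ s → ∀ y ∈ Metric.ball x (45 * ℓ),
      ℓ ^ i * ‖iteratedFDeriv ℝ i (fun y => f₁ y - f₂ y) y‖ ≤ C₁ * (1 + P) * ℓ := by
    intro i hi y hy
    refine (H₁ W x ℓ a κ (P * κ) f₁ f₂ hW hx hℓ hℓ1 ha ha1 hκ hk₁ c₁ c₂ hM hD₀ i hi y hy).trans ?_
    have e1 : a ^ 2 * ℓ ≤ 1 * ℓ := by gcongr
    have e2 : a * (P * κ) ≤ P * ℓ := by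
      calc a * (P * κ) = P * (a * κ) := by ring
        _ ≤ P * ℓ := by gcongr
    calc C₁ * (a ^ 2 * ℓ + a * (P * κ)) ≤ C₁ * (1 * ℓ + P * ℓ) := by gcongr
      _ = C₁ * (1 + P) * ℓ := by ring
  -- second pass
  have h₂ : ∀ i : ℕ, i ≤ s → ∀ y ∈ Metric.ball x (30 * ℓ),
      ℓ ^ i * ‖iteratedFDeriv ℝ i (fun y => f₁ y - f₂ y) y‖
        ≤ C₂ * (1 + 2 * C₁ * (1 + P)) * (a * ℓ) := by
    intro i hi y hy
    refine (H₂ W x ℓ a κ (2 * (C₁ * (1 + P) * ℓ)) f₁ f₂ hW hx hℓ hℓ1 ha ha1 hκ hk₂ c₁ c₂ hM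
      (hstep 45 _ h₁) i hi y hy).trans ?_
    have e1 : a ^ 2 * ℓ ≤ a * ℓ := by gcongr
    calc C₂ * (a ^ 2 * ℓ + a * (2 * (C₁ * (1 + P) * ℓ)))
        ≤ C₂ * (a * ℓ + a * (2 * (C₁ * (1 + P) * ℓ))) := by gcongr
      _ = C₂ * (1 + 2 * C₁ * (1 + P)) * (a * ℓ) := by ring
  -- third pass
  intro i hi y hy
  refine (H₃ W x ℓ a κ (2 * (C₂ * (1 + 2 * C₁ * (1 + P)) * (a * ℓ))) f₁ f₂ hW hx hℓ hℓ1 ha ha1 hκ hk₃
    c₁ c₂ hM (hstep 30 _ h₂) i hi y hy).trans (le_of_eq ?_)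
  ring

end Claimed.Agent.R322.Fit.Fits
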